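import Claimed.Agent.R252.S3e1.PkE
import Claimed.Agent.R252.S3c.HubsContract

/-! PACKED FILE (helper215, closed unit S3e1 of row 252, FROZEN): parts S3e1.NumContract, S3e1.OkContract, S3e1.Main.  Each part is wrapped in its own `section`.  -- KEEP -/

section PkS3e1NumContract

/-!
# ROW 252 (S0492), unit S3e1 (sub-architect helper215, chief helper70): CONTRACT, file 13: THE NUMERICS OF EXIT 1 (choice of the constants)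
PAPER-FREE, Mathlib only, real numbers only.   Prefix `k3e1_num_`.  Every `sorry` is a leaf `L-252-S3e1-N*`: prove IN PLACE, statement verbatim, helper lemmas directly above (same prefix).
`E` = gain of time length, `K ≥ 1` subpower slack, `c K^b ≤ E` for all fixed `c, b` ("subpower factors are absorbed").   Natural powers `E ^ (k : ℕ)` and real powers `E ^ (s : ℝ)` both occur: `Real.rpow_natCast`, `Real.rpow_add`, `Real.rpow_le_rpow_of_exponent_le` (`1 ≤ E`).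
-/

set_option autoImplicit false

namespace Claimed.Agent.R252

noncomputable section

/-- **LEAF L-252-S3e1-N1.**  absorption (`a K^b ≤ C₁ K^C₁`: `Real.rpow_natCast`, `Real.rpow_le_rpow_of_exponent_le`) -/
theorem k3e1_num_abs {K C₁ E : ℝ} (hK : 1 ≤ K) (h : C₁ * K ^ C₁ ≤ E) (a : ℝ) (b : ℕ) (ha0 : 0 ≤ a) (ha : a ≤ C₁) (hb : (b : ℝ) ≤ C₁) : a * K ^ b ≤ E := by
  have h1 : K ^ b ≤ K ^ C₁ := by
    rw [← Real.rpow_natCast]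
    exact Real.rpow_le_rpow_of_exponent_le hK hb
  have h2 : 0 ≤ K ^ b := by positivity
  exact (mul_le_mul ha h1 h2 (ha0.trans ha)).trans h

/-- **LEAF L-252-S3e1-N1.**  a product `c K^b E^k` with `c K^b ≤ E` is `≤ E^(k+1)`, in real exponents -/
theorem k3e1_num_pow {E : ℝ} (hE : 1 ≤ E) (a : ℝ) (k : ℕ) (s : ℝ) (ha : a ≤ E) (hs : (k : ℝ) + 1 ≤ s) : a * E ^ k ≤ E ^ s := by
  have hE0 : 0 < E := by linarith
  calc a * E ^ k ≤ E * E ^ k := mul_le_mul_of_nonneg_right ha (by positivity)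
    _ = E ^ ((k : ℝ) + 1) := by
        rw [Real.rpow_add hE0, Real.rpow_natCast, Real.rpow_one, mul_comm]
    _ ≤ E ^ s := Real.rpow_le_rpow_of_exponent_le hE hs

theorem k3e1_num_A_abs {Cn E K : ℝ} (hCn : 1 ≤ Cn) (hK : 1 ≤ K) (hE : 10 ^ 11 * Cn * K ^ 13 ≤ E) (c : ℝ) (a : ℕ) (hc : c ≤ 10 ^ 11) (ha : a ≤ 13) :
    c * Cn * K ^ a ≤ E := by
  have h1 : K ^ a ≤ K ^ 13 := pow_le_pow_right₀ hK ha
  have h2 : 0 < K ^ a := by positivity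
  have h3 : 0 < Cn := by linarith
  calc c * Cn * K ^ a ≤ 10 ^ 11 * Cn * K ^ a := by gcongr
    _ ≤ 10 ^ 11 * Cn * K ^ 13 := by gcongr
    _ ≤ E := hE

theorem k3e1_num_A_abs1 {Cn E K : ℝ} (hCn : 1 ≤ Cn) (hK : 1 ≤ K) (hE : 10 ^ 11 * Cn * K ^ 13 ≤ E) (c : ℝ) (a : ℕ) (hc0 : 0 ≤ c) (hc : c ≤ 10 ^ 11) (ha : a ≤ 13) :
    c * K ^ a ≤ E := by
  have h2 : 0 < K ^ a := by positivity
  calc c * K ^ a = c * 1 * K ^ a := by ring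
    _ ≤ c * Cn * K ^ a := by gcongr
    _ ≤ E := k3e1_num_A_abs hCn hK hE c a hc ha

/-- **LEAF L-252-S3e1-N2** (~300 l.).  **The numerics of stage A.**   `Θ = E^7`, `A₀ = E^(70 + 6R)`, `S R ≥ 12`.
HINTS.  `j ∈ {1,2}` (`interval_cases j`) or bound `X^j ≤ X^2` for `X ≥ 1`.   (1) `16·68³ = 5030912`.   (4) `≤ 16 K⁴ E² (52 K E)² E^R = 43264 K⁶ E⁴ E^R`.
(5) base `≤ 552 E³ K² · E · 2704 K² E² · E^R · E³ = 1492608 K⁴ E⁹ E^R ≤ E^(10+R)`, exponent `2(j+1) ≤ 6`, so `≤ E^(60+6R)`; `Cn · 54 K² E² ≤ E³`.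
(7) `≤ 552·4356·1728 K¹¹ E⁷ E^(1-SR) ≤ 4.2·10⁹ K¹¹ E^(-4)`.   (8) `14·243³ = 200884698`. -/
theorem k3e1_num_A (j : ℕ) (hj1 : 1 ≤ j) (hj2 : j ≤ 2) (Cn S R E K : ℝ) (hCn : 1 ≤ Cn) (hR : 1 ≤ R) (hSR : 12 ≤ S * R) (hK : 1 ≤ K) (hE : 10 ^ 11 * Cn * K ^ 13 ≤ E) :
    16 * (68 * E ^ 2 * K) ^ 3 ≤ E ^ 7 ∧ 6 * E * K * E ^ 7 ≤ E ^ (70 + 6 * R) ∧ 2 * (K * E) ^ 2 ≤ E ^ (70 + 6 * R) ∧
      8 * K ^ 2 * (1 + K ^ 2) * E ^ 2 * (52 * K * E) ^ j * E ^ R ≤ E ^ (70 + 6 * R) ∧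
      Cn * (8 * (1 + 68 * E ^ 3 * K ^ 2) * E * (52 * K * E) ^ j * E ^ R * E ^ 3) ^ (2 * (j + 1)) * (54 * (E * K) ^ 2) ≤ E ^ (70 + 6 * R) ∧
      8 / E ≤ 1 / (16 * K ^ 2) ∧
      K ^ 2 * E * (8 * (1 + 68 * E ^ 3 * K ^ 2) * K * (64 * K + 2) ^ j * E ^ (1 - S * R) * (K * (12 * E * K) ^ (j + 1))) ≤ 1 / (8 * K ^ 2) ∧
      K ^ 2 * (1 + 14 * (243 * K) ^ 3) / E ^ 2 ≤ 1 / (8 * K ^ 2) := by
  have hK0 : 0 < K := by linarith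
  have hCn0 : 0 < Cn := by linarith
  have ab := fun (c : ℝ) (a : ℕ) (hc0 : 0 ≤ c) (hc : c ≤ 10 ^ 11) (ha : a ≤ 13) => k3e1_num_A_abs1 hCn hK hE c a hc0 hc ha
  have hE1 : 1 ≤ E := by
    have := ab 1 0 (by norm_num) (by norm_num) (by norm_num)
    simpa using this
  have hE0 : 0 < E := by linarith
  obtain ⟨X, hX⟩ : ∃ X : ℝ, X = E ^ R := ⟨_, rfl⟩
  have hXE : E ≤ X := by
    rw [hX]
    calc E = E ^ (1 : ℝ) := (Real.rpow_one E).symm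
      _ ≤ E ^ R := Real.rpow_le_rpow_of_exponent_le hE1 hR
  have hX1 : 1 ≤ X := hE1.trans hXE
  have hX0 : 0 < X := by linarith
  have hbigeq : E ^ (70 + 6 * R) = E ^ 70 * X ^ 6 := by
    rw [hX, Real.rpow_add hE0, ← Real.rpow_natCast (E ^ R) 6, ← Real.rpow_mul hE0.le, ← Real.rpow_natCast E 70]
    congr 2
    push_cast
    ring
  have hbig : ∀ n i : ℕ, n ≤ 70 → i ≤ 6 → E ^ n * X ^ i ≤ E ^ 70 * X ^ 6 := fun n i hn hi =>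
    mul_le_mul (pow_le_pow_right₀ hE1 hn) (pow_le_pow_right₀ hX1 hi) (by positivity) (by positivity)
  have h52 : (52 * K * E) ^ j ≤ (52 * K * E) ^ 2 := by
    apply pow_le_pow_right₀ _ hj2
    nlinarith
  have h69 : 1 + 68 * E ^ 3 * K ^ 2 ≤ 69 * E ^ 3 * K ^ 2 := by
    have : 1 ≤ E ^ 3 * K ^ 2 := by
      have a1 : 1 ≤ E ^ 3 := one_le_pow₀ hE1
      have a2 : 1 ≤ K ^ 2 := one_le_pow₀ hK
      nlinarith
    linarith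
  rw [hbigeq, ← hX]
  refine ⟨?_, ?_, ?_, ?_, ?_, ?_, ?_, ?_⟩
  · calc 16 * (68 * E ^ 2 * K) ^ 3 = (5030912 * K ^ 3) * E ^ 6 := by ring
      _ ≤ E * E ^ 6 := by
        have := ab 5030912 3 (by norm_num) (by norm_num) (by norm_num)
        gcongr
      _ = E ^ 7 := by ring
  · calc 6 * E * K * E ^ 7 = (6 * K ^ 1) * E ^ 8 := by ring
      _ ≤ E * E ^ 8 := by
        have := ab 6 1 (by norm_num) (by norm_num) (by norm_num)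
        gcongr
      _ = E ^ 9 * X ^ 0 := by ring
      _ ≤ _ := hbig 9 0 (by norm_num) (by norm_num)
  · calc 2 * (K * E) ^ 2 = (2 * K ^ 2) * E ^ 2 := by ring
      _ ≤ E * E ^ 2 := by
        have := ab 2 2 (by norm_num) (by norm_num) (by norm_num)
        gcongr
      _ = E ^ 3 * X ^ 0 := by ring
      _ ≤ _ := hbig 3 0 (by norm_num) (by norm_num)
  · have hk : 1 + K ^ 2 ≤ 2 * K ^ 2 := by
      have : 1 ≤ K ^ 2 := one_le_pow₀ hK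
      linarith
    calc 8 * K ^ 2 * (1 + K ^ 2) * E ^ 2 * (52 * K * E) ^ j * X
        ≤ 8 * K ^ 2 * (2 * K ^ 2) * E ^ 2 * (52 * K * E) ^ 2 * X := by gcongr
      _ = (43264 * K ^ 6) * (E ^ 4 * X) := by ring
      _ ≤ E * (E ^ 4 * X) := by
        have := ab 43264 6 (by norm_num) (by norm_num) (by norm_num)
        gcongr
      _ = E ^ 5 * X ^ 1 := by ring
      _ ≤ _ := hbig 5 1 (by norm_num) (by norm_num)
  · have hb : 8 * (1 + 68 * E ^ 3 * K ^ 2) * E * (52 * K * E) ^ j * X * E ^ 3 ≤ E ^ 10 * X := by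
      calc 8 * (1 + 68 * E ^ 3 * K ^ 2) * E * (52 * K * E) ^ j * X * E ^ 3
          ≤ 8 * (69 * E ^ 3 * K ^ 2) * E * (52 * K * E) ^ 2 * X * E ^ 3 := by gcongr
        _ = (1492608 * K ^ 4) * (E ^ 9 * X) := by ring
        _ ≤ E * (E ^ 9 * X) := by
          have := ab 1492608 4 (by norm_num) (by norm_num) (by norm_num)
          gcongr
        _ = E ^ 10 * X := by ring
    have hB1 : 1 ≤ E ^ 10 * X := by
      have : 1 ≤ E ^ 10 := one_le_pow₀ hE1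
      nlinarith
    have hb0 : 0 ≤ 8 * (1 + 68 * E ^ 3 * K ^ 2) * E * (52 * K * E) ^ j * X * E ^ 3 := by positivity
    have hp : (8 * (1 + 68 * E ^ 3 * K ^ 2) * E * (52 * K * E) ^ j * X * E ^ 3) ^ (2 * (j + 1)) ≤ (E ^ 10 * X) ^ 6 :=
      (pow_le_pow_left₀ hb0 hb _).trans (pow_le_pow_right₀ hB1 (by omega))
    calc Cn * (8 * (1 + 68 * E ^ 3 * K ^ 2) * E * (52 * K * E) ^ j * X * E ^ 3) ^ (2 * (j + 1)) * (54 * (E * K) ^ 2)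
        ≤ Cn * (E ^ 10 * X) ^ 6 * (54 * (E * K) ^ 2) := by gcongr
      _ = (54 * Cn * K ^ 2) * (E ^ 62 * X ^ 6) := by ring
      _ ≤ E * (E ^ 62 * X ^ 6) := by
        have := k3e1_num_A_abs hCn hK hE 54 2 (by norm_num) (by norm_num)
        gcongr
      _ = E ^ 63 * X ^ 6 := by ring
      _ ≤ _ := hbig 63 6 (by norm_num) (by norm_num)
  · rw [div_le_div_iff₀ hE0 (by positivity)]
    have := ab 128 2 (by norm_num) (by norm_num) (by norm_num)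
    linarith
  · obtain ⟨Y, hY⟩ : ∃ Y : ℝ, Y = E ^ (1 - S * R) := ⟨_, rfl⟩
    have hY0 : 0 < Y := by rw [hY]; exact Real.rpow_pos_of_pos hE0 _
    have hY11 : Y * E ^ 11 ≤ 1 := by
      rw [hY, ← Real.rpow_natCast E 11, ← Real.rpow_add hE0]
      apply Real.rpow_le_one_of_one_le_of_nonpos hE1
      push_cast
      linarith
    rw [← hY]
    have h64 : (64 * K + 2) ^ j ≤ (66 * K) ^ 2 := by
      calc (64 * K + 2) ^ j ≤ (66 * K) ^ j := by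
            apply pow_le_pow_left₀ (by positivity)
            linarith
        _ ≤ (66 * K) ^ 2 := pow_le_pow_right₀ (by linarith) hj2
    have h12 : (12 * E * K) ^ (j + 1) ≤ (12 * E * K) ^ 3 := by
      apply pow_le_pow_right₀ _ (by omega)
      nlinarith
    rw [le_div_iff₀ (by positivity)]
    calc K ^ 2 * E * (8 * (1 + 68 * E ^ 3 * K ^ 2) * K * (64 * K + 2) ^ j * Y * (K * (12 * E * K) ^ (j + 1))) * (8 * K ^ 2)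
        ≤ K ^ 2 * E * (8 * (69 * E ^ 3 * K ^ 2) * K * (66 * K) ^ 2 * Y * (K * (12 * E * K) ^ 3)) * (8 * K ^ 2) := by gcongr
      _ = (33239973888 * K ^ 13) * (E ^ 7 * Y) := by ring
      _ ≤ E * (E ^ 7 * Y) := by
        have := ab 33239973888 13 (by norm_num) (by norm_num) (by norm_num)
        gcongr
      _ = Y * E ^ 8 := by ring
      _ ≤ Y * E ^ 11 := by
        have : E ^ 8 ≤ E ^ 11 := pow_le_pow_right₀ hE1 (by norm_num)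
        gcongr
      _ ≤ 1 := hY11
  · rw [div_le_div_iff₀ (by positivity) (by positivity)]
    have hk3 : 1 ≤ K ^ 3 := one_le_pow₀ hK
    calc K ^ 2 * (1 + 14 * (243 * K) ^ 3) * (8 * K ^ 2) = 8 * K ^ 4 * (1 + 200884698 * K ^ 3) := by ring
      _ ≤ 8 * K ^ 4 * (200884699 * K ^ 3) := by
        gcongr
        linarith
      _ = (1607077592 * K ^ 7) * 1 := by ring
      _ ≤ E * E := by
        have := ab 1607077592 7 (by norm_num) (by norm_num) (by norm_num)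
        gcongr
      _ = 1 * E ^ 2 := by ring

/-- the number of options -/
theorem k3e1_num_nO (j : ℕ) (hj2 : j ≤ 2) (K EB ρ : ℝ) (ρL : ℕ) (hK : 1 ≤ K) (hEB : 1 ≤ EB) (hρ : 0 < ρ) (hρE : 1 / ρ ≤ EB) (hρL : (ρL : ℝ) ≤ 121 * K) :
    14 * (2 * (ρL : ℝ) + 1) ^ 3 * (2 / ρ + 3) ^ (j + 1) + 1 ≤ 26 * 10 ^ 9 * (K ^ 3 * EB ^ 3) := by
  have h1 : 2 * (ρL : ℝ) + 1 ≤ 243 * K := by linarith
  have h0 : (0 : ℝ) ≤ 2 * (ρL : ℝ) + 1 := by positivity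
  have h2 : (2 * (ρL : ℝ) + 1) ^ 3 ≤ 14348907 * K ^ 3 := by
    calc (2 * (ρL : ℝ) + 1) ^ 3 ≤ (243 * K) ^ 3 := pow_le_pow_left₀ h0 h1 3
      _ = 14348907 * K ^ 3 := by ring
  have h3 : 2 / ρ + 3 ≤ 5 * EB := by
    have : 2 / ρ = 2 * (1 / ρ) := by ring
    rw [this]
    linarith
  have h30 : 0 ≤ 2 / ρ + 3 := by positivity
  have h4 : (2 / ρ + 3) ^ (j + 1) ≤ 125 * EB ^ 3 := by
    calc (2 / ρ + 3) ^ (j + 1) ≤ (5 * EB) ^ (j + 1) := pow_le_pow_left₀ h30 h3 _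
      _ ≤ (5 * EB) ^ 3 := pow_le_pow_right₀ (by linarith) (by omega)
      _ = 125 * EB ^ 3 := by ring
  have hK3 : 1 ≤ K ^ 3 := one_le_pow₀ hK
  have hE3 : 1 ≤ EB ^ 3 := one_le_pow₀ hEB
  have hKE : 1 ≤ K ^ 3 * EB ^ 3 := one_le_mul_of_one_le_of_one_le hK3 hE3
  calc 14 * (2 * (ρL : ℝ) + 1) ^ 3 * (2 / ρ + 3) ^ (j + 1) + 1 ≤ 14 * (14348907 * K ^ 3) * (125 * EB ^ 3) + 1 := by gcongr
    _ = 25110587250 * (K ^ 3 * EB ^ 3) + 1 := by ring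
    _ ≤ 26 * 10 ^ 9 * (K ^ 3 * EB ^ 3) := by nlinarith

/-- the number of dyadic scales -/
theorem k3e1_num_kmax (Cr T s K : ℝ) (hCr : 1 ≤ Cr) (hT : 1 ≤ T) (hK : 1 ≤ K) (hlog : Real.log T ≤ s * K) :
    Cr * T ^ Cr ≤ 2 ^ ⌈Real.logb 2 (Cr * T ^ Cr)⌉₊ ∧ (⌈Real.logb 2 (Cr * T ^ Cr)⌉₊ : ℝ) ≤ (1 + 2 * Cr + 2 * Cr * s) * K := by
  have hT0 : 0 < T := by linarith
  have hTC : 1 ≤ T ^ Cr := Real.one_le_rpow hT (by linarith)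
  have hx1 : 1 ≤ Cr * T ^ Cr := one_le_mul_of_one_le_of_one_le hCr hTC
  have hx0 : 0 < Cr * T ^ Cr := by linarith
  constructor
  · rw [← Real.rpow_natCast]
    calc Cr * T ^ Cr = (2 : ℝ) ^ Real.logb 2 (Cr * T ^ Cr) := by rw [Real.rpow_logb (by norm_num) (by norm_num) hx0]
      _ ≤ _ := Real.rpow_le_rpow_of_exponent_le (by norm_num) (Nat.le_ceil _)
  · have hl0 : 0 ≤ Real.logb 2 (Cr * T ^ Cr) := Real.logb_nonneg (by norm_num) hx1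
    have h1 := (Nat.ceil_lt_add_one hl0).le
    have hl2 : (1 / 2 : ℝ) < Real.log 2 := by
      have := Real.log_two_gt_d9
      linarith
    have hlx : Real.log (Cr * T ^ Cr) = Real.log Cr + Cr * Real.log T := by
      rw [Real.log_mul (by linarith) (by positivity), Real.log_rpow hT0]
    have hlC : Real.log Cr ≤ Cr := (Real.log_le_sub_one_of_pos (by linarith)).trans (by linarith)
    have hlx0 : 0 ≤ Real.log (Cr * T ^ Cr) := Real.log_nonneg hx1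
    have h2 : Real.logb 2 (Cr * T ^ Cr) ≤ 2 * Real.log (Cr * T ^ Cr) := by
      unfold Real.logb
      rw [div_le_iff₀ (by linarith)]
      nlinarith
    have h3 : Cr * Real.log T ≤ Cr * (s * K) := mul_le_mul_of_nonneg_left hlog (by linarith)
    have h4 : 1 + 2 * Cr ≤ (1 + 2 * Cr) * K := le_mul_of_one_le_right (by linarith) hK
    nlinarith

/-- the lower bound of `R₀ ^ ε` -/
theorem k3e1_num_R0 (E K C ε R B : ℝ) (hE : 1 ≤ E) (hK : 1 ≤ K) (h12 : 12 * K ≤ E) (hε : 0 < ε) (hC : 19 + R + 3 * B ≤ (C - 9) * ε) :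
    E ^ (C - 9) ≤ E ^ C / (12 * K * E ^ 8) ∧ E ^ 19 * E ^ R * (E ^ B) ^ 3 ≤ (E ^ C / (12 * K * E ^ 8)) ^ ε := by
  have hE0 : 0 < E := by linarith
  have h1 : E ^ (C - 9) ≤ E ^ C / (12 * K * E ^ 8) := by
    rw [le_div_iff₀ (by positivity)]
    calc E ^ (C - 9) * (12 * K * E ^ 8) ≤ E ^ (C - 9) * (E * E ^ 8) := by gcongr
      _ = E ^ C := by
        have : E * E ^ 8 = E ^ (9 : ℝ) := by
          rw [show (9 : ℝ) = ((9 : ℕ) : ℝ) by norm_num, Real.rpow_natCast]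
          ring
        rw [this, ← Real.rpow_add hE0]
        congr 1
        ring
  refine ⟨h1, ?_⟩
  calc E ^ 19 * E ^ R * (E ^ B) ^ 3 = E ^ (19 + R + 3 * B) := by
        rw [Real.rpow_add hE0, Real.rpow_add hE0, show (19 : ℝ) = ((19 : ℕ) : ℝ) by norm_num, Real.rpow_natCast, mul_comm (3 : ℝ) B, Real.rpow_mul hE0.le,
          show (3 : ℝ) = ((3 : ℕ) : ℝ) by norm_num, Real.rpow_natCast]
    _ ≤ E ^ ((C - 9) * ε) := Real.rpow_le_rpow_of_exponent_le hE hC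
    _ = (E ^ (C - 9)) ^ ε := by rw [Real.rpow_mul hE0.le]
    _ ≤ _ := Real.rpow_le_rpow (by positivity) h1 hε.le

/-- the bound of the cap -/
theorem k3e1_num_cap (j : ℕ) (hj2 : j ≤ 2) (E K ER nL qg JD : ℝ) (hE : 1 ≤ E) (hK : 1 ≤ K) (hER : 0 ≤ ER) (hnL : 0 < nL) (hqg : 0 < qg) (hJD0 : 0 < JD) (hJD : JD ≤ (52 * K * E) ^ j * ER * qg) :
    JD ≤ 2704 * K ^ 2 * E ^ 2 * ER * qg ∧ 8 * (1 + 68 * E ^ 3 * K ^ 2) * (E * nL) * JD ≤ 1492608 * K ^ 4 * E ^ 6 * ER * (nL * qg) := by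
  have h52 : 1 ≤ 52 * K * E := by nlinarith
  have h1 : (52 * K * E) ^ j ≤ 2704 * K ^ 2 * E ^ 2 := by
    calc (52 * K * E) ^ j ≤ (52 * K * E) ^ 2 := pow_le_pow_right₀ h52 hj2
      _ = 2704 * K ^ 2 * E ^ 2 := by ring
  have h2 : JD ≤ 2704 * K ^ 2 * E ^ 2 * ER * qg := hJD.trans (by gcongr)
  refine ⟨h2, ?_⟩
  have h3 : 1 ≤ E ^ 3 * K ^ 2 := one_le_mul_of_one_le_of_one_le (one_le_pow₀ hE) (one_le_pow₀ hK)
  have h4 : 1 + 68 * E ^ 3 * K ^ 2 ≤ 69 * (E ^ 3 * K ^ 2) := by linarith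
  calc 8 * (1 + 68 * E ^ 3 * K ^ 2) * (E * nL) * JD ≤ 8 * (69 * (E ^ 3 * K ^ 2)) * (E * nL) * (2704 * K ^ 2 * E ^ 2 * ER * qg) := by gcongr
    _ = 1492608 * K ^ 4 * E ^ 6 * ER * (nL * qg) := by ring

/-- the bound of the group mass -/
theorem k3e1_num_lhs (E K δ ER nL qg JD Cc d rr : ℝ) (hE : 1 ≤ E) (hK : 1 ≤ K) (hδ : 0 < δ) (hER : 0 ≤ ER) (hnL : 0 < nL) (hqg : 0 < qg) (hJD0 : 0 < JD) (hJD : JD ≤ 2704 * K ^ 2 * E ^ 2 * ER * qg)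
    (hCc : 1 ≤ Cc) (hd1 : d ≤ 1) (hrr0 : 0 ≤ rr) (hrr : rr ≤ 1) :
    (4 * Cc + 8 * (1 + K ^ 2)) * (E ^ (1 + d) * K * nL * ((12 * E * K * E ^ 7 * δ) / δ) ^ d) * JD * rr ≤ (4 * Cc + 16) * 32448 * K ^ 6 * E ^ 12 * ER * (nL * qg) := by
  have hE0 : 0 < E := by linarith
  have h1 : E ^ (1 + d) ≤ E ^ 2 := by
    rw [← Real.rpow_natCast]
    exact Real.rpow_le_rpow_of_exponent_le hE (by push_cast; linarith)
  have e2 : (12 * E * K * E ^ 7 * δ) / δ = 12 * K * E ^ 8 := by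
    field_simp
  have h28 : 1 ≤ 12 * K * E ^ 8 := by
    have : 1 ≤ E ^ 8 := one_le_pow₀ hE
    nlinarith
  have h2 : (12 * K * E ^ 8) ^ d ≤ 12 * K * E ^ 8 := by
    have := Real.rpow_le_rpow_of_exponent_le h28 hd1
    rwa [Real.rpow_one] at this
  have hK2 : 1 ≤ K ^ 2 := one_le_pow₀ hK
  have h3 : 4 * Cc + 8 * (1 + K ^ 2) ≤ (4 * Cc + 16) * K ^ 2 := by nlinarith
  have h30 : 0 ≤ 4 * Cc + 8 * (1 + K ^ 2) := by positivity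
  rw [e2]
  have p1 : 0 ≤ E ^ (1 + d) := by positivity
  have p2 : 0 ≤ (12 * K * E ^ 8) ^ d := by positivity
  calc (4 * Cc + 8 * (1 + K ^ 2)) * (E ^ (1 + d) * K * nL * (12 * K * E ^ 8) ^ d) * JD * rr
      ≤ ((4 * Cc + 16) * K ^ 2) * (E ^ 2 * K * nL * (12 * K * E ^ 8)) * (2704 * K ^ 2 * E ^ 2 * ER * qg) * 1 := by gcongr
    _ = (4 * Cc + 16) * 32448 * K ^ 6 * E ^ 12 * ER * (nL * qg) := by ring

/-- the first term -/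
theorem k3e1_num_t1 (E K EB nQ cm k0 x2 x3 L : ℝ) (hE : 1 ≤ E) (hK : 1 ≤ K) (hEB : 1 ≤ EB) (hnQ : 0 < nQ) (hcm : 0 ≤ cm) (hL : 0 ≤ L) (h1 : L * nQ ≤ K ^ 2 * E)
    (hx2 : 0 ≤ x2) (h2 : x2 ≤ 26 * 10 ^ 9 * (K ^ 3 * EB ^ 3)) (hx3 : 0 ≤ x3) (h3 : x3 ≤ k0 * K) (habs : 128 * cm * (26 * 10 ^ 9) * k0 * K ^ 8 ≤ E) :
    2 * ((2 * L + 2 * L) * x2 * x3 * cm) * (nQ / (E ^ 5 * EB ^ 3)) ≤ 1 / (16 * K ^ 2) := by
  have hE0 : 0 < E := by linarith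
  have hEB0 : 0 < EB := by linarith
  have hK0 : 0 < K := by linarith
  have hLn : 0 ≤ L * nQ := by positivity
  have hE4 : E ≤ E ^ 4 := le_self_pow₀ hE (by norm_num)
  calc 2 * ((2 * L + 2 * L) * x2 * x3 * cm) * (nQ / (E ^ 5 * EB ^ 3)) = 8 * cm * ((L * nQ) * x2 * x3) / (E ^ 5 * EB ^ 3) := by ring
    _ ≤ 8 * cm * ((K ^ 2 * E) * (26 * 10 ^ 9 * (K ^ 3 * EB ^ 3)) * (k0 * K)) / (E ^ 5 * EB ^ 3) := by gcongr
    _ = 8 * cm * (26 * 10 ^ 9) * k0 * K ^ 6 / E ^ 4 := by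
        field_simp
    _ ≤ 1 / (16 * K ^ 2) := by
        rw [div_le_div_iff₀ (by positivity) (by positivity)]
        calc 8 * cm * (26 * 10 ^ 9) * k0 * K ^ 6 * (16 * K ^ 2) = 128 * cm * (26 * 10 ^ 9) * k0 * K ^ 8 := by ring
          _ ≤ E := habs
          _ ≤ 1 * E ^ 4 := by linarith

/-- the second term -/
theorem k3e1_num_t2 (E K EB ER Q nQ cap x2 L rr : ℝ) (hE : 1 ≤ E) (hK : 1 ≤ K) (hEB : 1 ≤ EB) (hER : 1 ≤ ER) (hEQ : E ≤ Q) (hnQ : 0 < nQ) (hL : 0 ≤ L) (h1 : L * nQ ≤ K ^ 2 * E) (hLQ : L ≤ Q)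
    (hx2 : 0 ≤ x2) (h2 : x2 ≤ 26 * 10 ^ 9 * (K ^ 3 * EB ^ 3)) (hcap : cap ≤ 1492608 * K ^ 4 * E ^ 6 * ER * nQ) (hrr0 : 0 ≤ rr) (hrr : rr ≤ 1)
    (habs : 64 * 1492608 * (26 * 10 ^ 9) * K ^ 11 ≤ E) :
    (2 * L * x2 * (2 * L)) * cap * (1 / (Q ^ 2 * E ^ 12 * ER * EB ^ 3) * rr) ≤ 1 / (16 * K ^ 2) := by
  have hE0 : 0 < E := by linarith
  have hEB0 : 0 < EB := by linarith
  have hER0 : 0 < ER := by linarith
  have hK0 : 0 < K := by linarith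
  have hQ0 : 0 < Q := by linarith
  have hLn : 0 ≤ L * nQ := by positivity
  have hT : 0 < Q ^ 2 * E ^ 12 * ER * EB ^ 3 := by positivity
  calc (2 * L * x2 * (2 * L)) * cap * (1 / (Q ^ 2 * E ^ 12 * ER * EB ^ 3) * rr)
      ≤ (2 * L * x2 * (2 * L)) * (1492608 * K ^ 4 * E ^ 6 * ER * nQ) * (1 / (Q ^ 2 * E ^ 12 * ER * EB ^ 3) * 1) := by gcongr
    _ = 4 * 1492608 * (L * (L * nQ) * x2) * (K ^ 4 * E ^ 6 * ER) / (Q ^ 2 * E ^ 12 * ER * EB ^ 3) := by ring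
    _ ≤ 4 * 1492608 * (Q * (K ^ 2 * E) * (26 * 10 ^ 9 * (K ^ 3 * EB ^ 3))) * (K ^ 4 * E ^ 6 * ER) / (Q ^ 2 * E ^ 12 * ER * EB ^ 3) := by gcongr
    _ = 4 * 1492608 * (26 * 10 ^ 9) * K ^ 9 / (Q * E ^ 5) := by
        field_simp
    _ ≤ 1 / (16 * K ^ 2) := by
        rw [div_le_div_iff₀ (by positivity) (by positivity)]
        have hE5 : 1 ≤ E ^ 5 := one_le_pow₀ hE
        calc 4 * 1492608 * (26 * 10 ^ 9) * K ^ 9 * (16 * K ^ 2) = 64 * 1492608 * (26 * 10 ^ 9) * K ^ 11 := by ring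
          _ ≤ E := habs
          _ ≤ Q := hEQ
          _ ≤ 1 * (Q * E ^ 5) := by nlinarith

/-- the logarithm of `T = Q² E¹² E^R (E^B)³` -/
theorem k3e1_num_logT (E Q K R B : ℝ) (hE : 1 ≤ E) (hEQ : E ≤ Q) (hlog : Real.log Q ≤ K) (hR : 1 ≤ R) (hB : 1 ≤ B) :
    1 ≤ Q ^ 2 * E ^ 12 * E ^ R * (E ^ B) ^ 3 ∧ Real.log (Q ^ 2 * E ^ 12 * E ^ R * (E ^ B) ^ 3) ≤ (14 + R + 3 * B) * K := by
  have hE0 : 0 < E := by linarith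
  have hQ0 : 0 < Q := by linarith
  have hQ1 : 1 ≤ Q := by linarith
  have hER : 1 ≤ E ^ R := Real.one_le_rpow hE (by linarith)
  have hEB : 1 ≤ E ^ B := Real.one_le_rpow hE (by linarith)
  constructor
  · exact one_le_mul_of_one_le_of_one_le (one_le_mul_of_one_le_of_one_le (one_le_mul_of_one_le_of_one_le (one_le_pow₀ hQ1) (one_le_pow₀ hE)) hER) (one_le_pow₀ hEB)
  · have hlE0 : 0 ≤ Real.log E := Real.log_nonneg hE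
    have hlE : Real.log E ≤ K := (Real.log_le_log hE0 hEQ).trans hlog
    rw [Real.log_mul (by positivity) (by positivity), Real.log_mul (by positivity) (by positivity), Real.log_mul (by positivity) (by positivity), Real.log_pow, Real.log_pow, Real.log_pow,
      Real.log_rpow hE0, Real.log_rpow hE0]
    push_cast
    have h1 : R * Real.log E ≤ R * K := mul_le_mul_of_nonneg_left hlE (by linarith)
    have h2 : B * Real.log E ≤ B * K := mul_le_mul_of_nonneg_left hlE (by linarith)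
    nlinarith

/-- **LEAF L-252-S3e1-N3** (~600 l.; cut IN PLACE).  **The numerics of the local sheet match.**
FIXED: `j ∈ {1,2}`, `n = j+1`, the constants of the hubs `m, Cc, Cr, ε, R₁`, then `R`, `B`.   `C₁` is chosen here.   VARIABLES: `nQ = nL qg` (`qg = q₀^j g`), `JD` bound of the Jacobians, `ρ ≤ r` net spacing and radius, `ρL` radius of the lists, `d ∈ [0,1]`.
`Δ = 12 E K E^7 δ`, `M₀ = δ E^C₁`, `R₀ = M₀/Δ = E^C₁/(12 K E^8) ≥ E^(C₁-9)`, `cap = 8 (1 + 68 E³K²)(E nL) JD ≤ 1492608 K⁴ E^(6+R) nQ`.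
CHOICES.  `a = 5 + 3B`, `b = 12 + R + 3B`;   `φm = nQ / E^a`;   `θ = 1/(Q² E^b)`;   `nO = ⌈14 (2ρL+1)³ (2/ρ+3)^n⌉₊ ≤ 2.6·10¹⁰ K³ E^(3B)` (`1/ρ ≤ E^B`, `2/ρ + 3 ≤ 5 E^B`, `n ≤ 3`);
`kmax = ⌈Real.logb 2 (Cr θ^(-Cr))⌉₊ ≤ 1 + Cr + 2 Cr (2 + b) K` (`θ^(-Cr) = (Q² E^b)^Cr`, `log E ≤ log Q ≤ K`, `1/log 2 ≤ 2`, `logb 2 Cr ≤ Cr`), and `Cr θ^(-Cr) ≤ 2^kmax` (`Real.rpow_logb`, `Nat.le_ceil`);
`Lm = max 1 (LHS/φm)`, `LHS ≤ (4Cc + 16K²)·32448 K⁴ E^(12+R) nQ` (`E^(1+d) ≤ E²`, `(Δ/δ)^d ≤ Δ/δ = 12 K E⁸`, `(2r)^n ≤ 1`).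
`R₀^ε ≥ E^((C₁-9) ε) ≥ E^(14+R+a)` if `(C₁ - 9) ε ≥ 14 + R + a`: gives the three conditions on `R₀^ε`.
FIRST TERM: `L φm ≤ K² E^(1-a)`: `≤ 8 K² E^(1-a) nO kmax c_m ≤ (..) E^(-4) kmax`.   SECOND TERM: `L ≤ Q`, `nQ ≤ K²`: `≤ 4 Q² nO cap θ ≤ (..) K⁹ E^(6+R+3B-b) = (..) K⁹ E^(-6)`.
`C₁ := max` of all the absolute constants which have to be absorbed (`k3e1_num_abs`), of `R₁`, and of `9 + (14 + R + a)/ε`. -/
theorem k3e1_num_B (j m : ℕ) (hj1 : 1 ≤ j) (hj2 : j ≤ 2) (Cc Cr ε R₁ R B : ℝ) (hCc : 1 ≤ Cc) (hCr : 1 ≤ Cr) (hε : 0 < ε) (hR : 1 ≤ R) (hB : 1 ≤ B) :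
    ∃ C₁ : ℝ, 1 ≤ C₁ ∧ ∀ C : ℝ, C₁ ≤ C → ∀ (E K δ Q nL qg JD ρ r d : ℝ) (ρL : ℕ), 1 ≤ K → C * K ^ C ≤ E → E ≤ Q → Real.log Q ≤ K → 0 < δ → 0 < nL → 0 < qg → 0 < JD →
      JD ≤ (52 * K * E) ^ j * E ^ R * qg → nL * qg ≤ K ^ 2 → (ρL : ℝ) ≤ 121 * K → E ^ (-B) ≤ ρ → ρ ≤ r → r ≤ 1 / 64 → 0 ≤ d → d ≤ 1 →
      ∃ (θ Lm φm : ℝ) (nO kmax : ℕ), 1 < δ * E ^ C / (12 * E * K * E ^ 7 * δ) ∧ R₁ ≤ δ * E ^ C / (12 * E * K * E ^ 7 * δ) ∧ 0 < θ ∧ θ ≤ 1 ∧ 1 ≤ Lm ∧ 0 < φm ∧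
        14 * (2 * (ρL : ℝ) + 1) ^ 3 * (2 / ρ + 3) ^ (j + 1) ≤ nO ∧
        (4 * Cc + 8 * (1 + K ^ 2)) * (E ^ (1 + d) * K * nL * ((12 * E * K * E ^ 7 * δ) / δ) ^ d) * JD * (2 * r) ^ (j + 1) ≤ φm * Lm ∧
        Cc * ((⌈2 * Cc⌉₊ : ℝ) + 2) ≤ (δ * E ^ C / (12 * E * K * E ^ 7 * δ)) ^ ε ∧
        4 * (8 * (1 + 68 * E ^ 3 * K ^ 2) * (E * nL) * JD) * (2 * r) ^ (j + 1) ≤ (δ * E ^ C / (12 * E * K * E ^ 7 * δ)) ^ ε * φm ∧
        2 * Lm ≤ (δ * E ^ C / (12 * E * K * E ^ 7 * δ)) ^ ε ∧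
        Cr * θ ^ (-Cr) * (12 * E * K * E ^ 7 * δ) ≤ 2 ^ kmax * (δ * E ^ C) ∧
        ∀ L : ℕ, (L : ℝ) * (nL * qg) ≤ K ^ 2 * E → (L : ℝ) ≤ Q →
          2 * (((2 * L + 2 * L) * nO * kmax * (2 * ⌈2 * Cc⌉₊ + 3) ^ m : ℕ) : ℝ) * φm
            + ((2 * L * nO * (2 * L) : ℕ) : ℝ) * (8 * (1 + 68 * E ^ 3 * K ^ 2) * (E * nL) * JD) * (θ * (2 * r) ^ (j + 1)) ≤ 1 / (8 * K ^ 2) := by
  obtain ⟨cm, hcm⟩ : ∃ cm : ℝ, cm = (((2 * ⌈2 * Cc⌉₊ + 3) ^ m : ℕ) : ℝ) := ⟨_, rfl⟩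
  have hcm0 : 0 ≤ cm := by rw [hcm]; exact Nat.cast_nonneg _
  obtain ⟨k0, hk0⟩ : ∃ k0 : ℝ, k0 = 1 + 2 * Cr + 2 * Cr * (14 + R + 3 * B) := ⟨_, rfl⟩
  have hk00 : 0 ≤ k0 := by rw [hk0]; positivity
  obtain ⟨c3, hc3⟩ : ∃ c3 : ℝ, c3 = Cc * ((⌈2 * Cc⌉₊ : ℝ) + 2) := ⟨_, rfl⟩
  have hc30 : 0 ≤ c3 := by rw [hc3]; positivity
  obtain ⟨e0, he0⟩ : ∃ e0 : ℝ, e0 = (19 + R + 3 * B) / ε := ⟨_, rfl⟩
  have he00 : 0 ≤ e0 := by rw [he0]; positivity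
  obtain ⟨c1, hc1⟩ : ∃ c1 : ℝ, c1 = 128 * cm * (26 * 10 ^ 9) * k0 := ⟨_, rfl⟩
  have hc10 : 0 ≤ c1 := by rw [hc1]; positivity
  obtain ⟨C₁, hC₁⟩ : ∃ C₁ : ℝ, C₁ = 20 + |R₁| + (9 + e0) + c1 + 64 * 1492608 * (26 * 10 ^ 9) + c3 + 4 * 1492608 + 2 * (4 * Cc + 16) * 32448 := ⟨_, rfl⟩
  have hR₁0 := abs_nonneg R₁
  have hCc16 : 0 ≤ 2 * (4 * Cc + 16) * 32448 := by positivity
  refine ⟨C₁, by linarith, ?_⟩
  intro C hC E K δ Q nL qg JD ρ r d ρL hK hCE hEQ hlogQ hδ hnL hqg hJD0 hJD hnQK hρL hρB hρr hr hd0 hd1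
  have hK0 : 0 < K := by linarith
  have hC20 : 20 ≤ C := by linarith
  have hKC : 1 ≤ K ^ C := Real.one_le_rpow hK (by linarith)
  have hCE' : C ≤ E := le_trans (le_mul_of_one_le_right (by linarith) hKC) hCE
  have hE1 : 1 ≤ E := by linarith
  have hE0 : 0 < E := by linarith
  obtain ⟨ER, hER⟩ : ∃ ER : ℝ, ER = E ^ R := ⟨_, rfl⟩
  obtain ⟨EB, hEB⟩ : ∃ EB : ℝ, EB = E ^ B := ⟨_, rfl⟩
  have hER1 : 1 ≤ ER := by rw [hER]; exact Real.one_le_rpow hE1 (by linarith)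
  have hEB1 : 1 ≤ EB := by rw [hEB]; exact Real.one_le_rpow hE1 (by linarith)
  obtain ⟨nQ, hnQ⟩ : ∃ nQ : ℝ, nQ = nL * qg := ⟨_, rfl⟩
  have hnQ0 : 0 < nQ := by rw [hnQ]; positivity
  have hρ0 : 0 < ρ := lt_of_lt_of_le (by positivity) hρB
  have hr0 : 0 < r := by linarith
  have hρE : 1 / ρ ≤ EB := by
    rw [hEB, div_le_iff₀ hρ0]
    have h1 : E ^ B * E ^ (-B) = 1 := by rw [← Real.rpow_add hE0]; simp
    calc (1 : ℝ) = E ^ B * E ^ (-B) := h1.symm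
      _ ≤ E ^ B * ρ := by gcongr
  obtain ⟨rr, hrr⟩ : ∃ rr : ℝ, rr = (2 * r) ^ (j + 1) := ⟨_, rfl⟩
  have hrr0 : 0 ≤ rr := by rw [hrr]; positivity
  have hrr1 : rr ≤ 1 := by rw [hrr]; exact pow_le_one₀ (by positivity) (by linarith)
  -- absorption
  have ab : ∀ (a : ℝ) (b : ℕ), 0 ≤ a → a ≤ C₁ → (b : ℝ) ≤ 20 → a * K ^ b ≤ E := fun a b h0 h1 h2 => k3e1_num_abs hK hCE a b h0 (h1.trans hC) (by linarith)
  have ab12 : 12 * K ≤ E := by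
    have := ab 12 1 (by norm_num) (by linarith) (by norm_num)
    simpa using this
  have ab1 : 128 * cm * (26 * 10 ^ 9) * k0 * K ^ 8 ≤ E := by
    rw [← hc1]
    exact ab c1 8 hc10 (by linarith) (by norm_num)
  have ab2 : 64 * 1492608 * (26 * 10 ^ 9) * K ^ 11 ≤ E := ab _ 11 (by norm_num) (by linarith) (by norm_num)
  have ab3 : c3 ≤ E := by
    have := ab c3 0 hc30 (by linarith) (by norm_num)
    simpa using this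
  have ab4 : 4 * 1492608 * K ^ 4 ≤ E := ab _ 4 (by norm_num) (by linarith) (by norm_num)
  have ab5 : 2 * (4 * Cc + 16) * 32448 * K ^ 6 ≤ E := ab _ 6 hCc16 (by linarith) (by norm_num)
  -- R₀
  obtain ⟨R₀, hR₀⟩ : ∃ R₀ : ℝ, R₀ = δ * E ^ C / (12 * E * K * E ^ 7 * δ) := ⟨_, rfl⟩
  have hR₀' : R₀ = E ^ C / (12 * K * E ^ 8) := by
    rw [hR₀]
    field_simp
  have hCε : 19 + R + 3 * B ≤ (C - 9) * ε := by
    have h1 : e0 ≤ C - 9 := by linarith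
    rw [he0, div_le_iff₀ hε] at h1
    exact h1
  obtain ⟨hR1, hR2⟩ := k3e1_num_R0 E K C ε R B hE1 hK ab12 hε hCε
  rw [← hR₀', ← hER, ← hEB] at hR2
  rw [← hR₀'] at hR1
  have hER₀ : E ≤ R₀ := by
    refine le_trans ?_ hR1
    have := Real.rpow_le_rpow_of_exponent_le hE1 (show (1 : ℝ) ≤ C - 9 by linarith)
    rwa [Real.rpow_one] at this
  obtain ⟨W, hW⟩ : ∃ W : ℝ, W = E ^ 19 * ER * EB ^ 3 := ⟨_, rfl⟩
  rw [← hW] at hR2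
  -- T, θ, kmax
  obtain ⟨T, hT⟩ : ∃ T : ℝ, T = Q ^ 2 * E ^ 12 * ER * EB ^ 3 := ⟨_, rfl⟩
  obtain ⟨hT1, hTlog⟩ := k3e1_num_logT E Q K R B hE1 hEQ hlogQ hR hB
  rw [← hER, ← hEB, ← hT] at hT1 hTlog
  have hT0 : 0 < T := by linarith
  obtain ⟨hk1, hk2⟩ := k3e1_num_kmax Cr T (14 + R + 3 * B) K hCr hT1 hK hTlog
  rw [← hk0] at hk2
  obtain ⟨kmax, hkmax⟩ : ∃ kmax : ℕ, kmax = ⌈Real.logb 2 (Cr * T ^ Cr)⌉₊ := ⟨_, rfl⟩
  rw [← hkmax] at hk1 hk2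
  have hθC : (1 / T) ^ (-Cr) = T ^ Cr := by
    rw [one_div, Real.inv_rpow hT0.le, Real.rpow_neg hT0.le, inv_inv]
  -- nO
  obtain ⟨nO, hnO⟩ : ∃ nO : ℕ, nO = ⌈14 * (2 * (ρL : ℝ) + 1) ^ 3 * (2 / ρ + 3) ^ (j + 1)⌉₊ := ⟨_, rfl⟩
  have hnO1 : 14 * (2 * (ρL : ℝ) + 1) ^ 3 * (2 / ρ + 3) ^ (j + 1) ≤ nO := by rw [hnO]; exact Nat.le_ceil _
  have hnO2 : (nO : ℝ) ≤ 26 * 10 ^ 9 * (K ^ 3 * EB ^ 3) := by
    refine le_trans ?_ (k3e1_num_nO j hj2 K EB ρ ρL hK hEB1 hρ0 hρE hρL)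
    rw [hnO]
    exact (Nat.ceil_lt_add_one (by positivity)).le
  -- cap, lhs
  rw [← hER] at hJD
  obtain ⟨hJD2, hcap⟩ := k3e1_num_cap j hj2 E K ER nL qg JD hE1 hK (by linarith) hnL hqg hJD0 hJD
  have hlhs := k3e1_num_lhs E K δ ER nL qg JD Cc d rr hE1 hK hδ (by linarith) hnL hqg hJD0 hJD2 hCc hd1 hrr0 hrr1
  rw [← hnQ] at hcap hlhs
  obtain ⟨cap, hcapd⟩ : ∃ cap : ℝ, cap = 8 * (1 + 68 * E ^ 3 * K ^ 2) * (E * nL) * JD := ⟨_, rfl⟩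
  obtain ⟨lhs, hlhsd⟩ : ∃ lhs : ℝ, lhs = (4 * Cc + 8 * (1 + K ^ 2)) * (E ^ (1 + d) * K * nL * ((12 * E * K * E ^ 7 * δ) / δ) ^ d) * JD * rr := ⟨_, rfl⟩
  rw [← hcapd] at hcap
  rw [← hlhsd] at hlhs
  have hcap0 : 0 ≤ cap := by rw [hcapd]; positivity
  -- φm, Lm
  obtain ⟨φm, hφm⟩ : ∃ φm : ℝ, φm = nQ / (E ^ 5 * EB ^ 3) := ⟨_, rfl⟩
  have hφm0 : 0 < φm := by rw [hφm]; positivity
  have hWφ : W * φm = E ^ 14 * ER * nQ := by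
    rw [hW, hφm]
    field_simp
  have hE2 : E ≤ E ^ 2 := le_self_pow₀ hE1 (by norm_num)
  have hE8 : E ≤ E ^ 8 := le_self_pow₀ hE1 (by norm_num)
  have hEW : E ≤ W := by
    rw [hW]
    have h19 : E ≤ E ^ 19 := le_self_pow₀ hE1 (by norm_num)
    have h3 : 1 ≤ EB ^ 3 := one_le_pow₀ hEB1
    calc E ≤ E ^ 19 := h19
      _ = E ^ 19 * 1 * 1 := by ring
      _ ≤ E ^ 19 * ER * EB ^ 3 := by gcongr
  have hlφ : 2 * (lhs / φm) ≤ W := by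
    rw [← mul_div_assoc, div_le_iff₀ hφm0, hWφ]
    calc 2 * lhs ≤ 2 * ((4 * Cc + 16) * 32448 * K ^ 6 * E ^ 12 * ER * nQ) := by gcongr
      _ = (2 * (4 * Cc + 16) * 32448 * K ^ 6) * (E ^ 12 * ER * nQ) := by ring
      _ ≤ E ^ 2 * (E ^ 12 * ER * nQ) := by
          gcongr
          exact ab5.trans hE2
      _ = E ^ 14 * ER * nQ := by ring
  refine ⟨1 / T, max 1 (lhs / φm), φm, nO, kmax, ?_, ?_, by positivity, ?_, le_max_left _ _, hφm0, hnO1, ?_, ?_, ?_, ?_, ?_, ?_⟩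
  · rw [← hR₀]; linarith
  · rw [← hR₀]
    have := le_abs_self R₁
    linarith
  · rw [div_le_one hT0]; exact hT1
  · rw [← hrr, ← hlhsd]
    calc lhs = φm * (lhs / φm) := by field_simp
      _ ≤ φm * max 1 (lhs / φm) := by
          gcongr
          exact le_max_right _ _
  · rw [← hR₀, ← hc3]
    exact (ab3.trans hEW).trans hR2
  · rw [← hR₀, ← hrr, ← hcapd]
    calc 4 * cap * rr ≤ 4 * (1492608 * K ^ 4 * E ^ 6 * ER * nQ) * 1 := by gcongr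
      _ = (4 * 1492608 * K ^ 4) * (E ^ 6 * ER * nQ) := by ring
      _ ≤ E ^ 8 * (E ^ 6 * ER * nQ) := by
          gcongr
          exact ab4.trans hE8
      _ = W * φm := by rw [hWφ]; ring
      _ ≤ R₀ ^ ε * φm := by gcongr
  · rw [← hR₀]
    refine le_trans ?_ hR2
    rcases max_cases 1 (lhs / φm) with ⟨h1, _⟩ | ⟨h1, _⟩
    · rw [h1]; linarith
    · rw [h1]; exact hlφ
  · rw [hθC]
    have hΔ : 12 * E * K * E ^ 7 * δ ≤ δ * E ^ C := by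
      have h1 : δ * E ^ C = R₀ * (12 * E * K * E ^ 7 * δ) := by
        rw [hR₀]
        field_simp
      rw [h1]
      exact le_mul_of_one_le_left (by positivity) (by linarith)
    exact mul_le_mul hk1 hΔ (by positivity) (by positivity)
  · intro L hL1 hL2
    rw [← hnQ] at hL1
    rw [← hrr, ← hcapd]
    have t1 := k3e1_num_t1 E K EB nQ cm k0 nO kmax L hE1 hK hEB1 hnQ0 hcm0 (Nat.cast_nonneg _) hL1 (Nat.cast_nonneg _) hnO2 (Nat.cast_nonneg _) hk2 ab1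
    have t2 := k3e1_num_t2 E K EB ER Q nQ cap nO L rr hE1 hK hEB1 hER1 hEQ hnQ0 (Nat.cast_nonneg _) hL1 hL2 (Nat.cast_nonneg _) hnO2 hcap hrr0 hrr1 ab2
    rw [← hφm] at t1
    rw [← hT] at t2
    have e1 : (((2 * L + 2 * L) * nO * kmax * (2 * ⌈2 * Cc⌉₊ + 3) ^ m : ℕ) : ℝ) = (2 * (L : ℝ) + 2 * L) * nO * kmax * cm := by
      rw [hcm]
      push_cast
      ring
    have e2 : ((2 * L * nO * (2 * L) : ℕ) : ℝ) = 2 * (L : ℝ) * nO * (2 * L) := by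
      push_cast
      ring
    rw [e1, e2]
    have e3 : 1 / (8 * K ^ 2) = 1 / (16 * K ^ 2) + 1 / (16 * K ^ 2) := by
      field_simp
      norm_num
    rw [e3]
    exact add_le_add t1 t2

end

end Claimed.Agent.R252

end PkS3e1NumContract

section PkS3e1OkContract

/-!
# ROW 252 (S0492), unit S3e1 (sub-architect helper215, chief helper70): CONTRACT, file 12: THE FIELDS OF `K3bCmp.Ok` (`S3b/Cmp.lean`) for the comparison data `k3e1Cmp` of `S3e1/Build.lean`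
PAPER-FREE WIRING.  Prefix `k3e1_`.  Every `sorry` is a leaf `L-252-S3e1-O*`: prove IN PLACE, statement verbatim, helper lemmas directly above (same prefix).  Earlier statements of the S3e1 files may be cited even if still `sorry`.
DEFINITIONAL FACTS (all by `rfl`): `Y.k3bBk n₁ c = k3e1Bk Y n₁ c`, `Y.k3bPr c c' = k3e1PrC Y c c'`; for `X = k3e1Cmp Y n₁ nrm p x S R G nr`: `X.n₁ = n₁`, `X.z0 c z = k3e1Zs Y n₁ nrm p c z`, `X.w0 c z = k3e1Om0 Y c z`, `X.wd (X.of c) = Y.wd c`, `X.iv (X.of c) = k3e1Bk Y n₁ c`,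
`X.eq e (X.of c) = k3e1Eq Y n₁ p e (k3e1Of Y n₁ nrm p c)`, `X.sh e (X.of c) (X.z0 c z) (X.w0 c z) = k3e1Sh Y n₁ nrm p c e z`, `X.Gd = k3e1Gd Y n₁ nrm p x S R G nr`.
Every `φ : X.Φ` is `X.of c` for some `c` (`Finset.mem_image`).
-/

set_option autoImplicit false

namespace Claimed.Agent.R252

open MeasureTheory
open scoped ENNReal BigOperators

noncomputable section

variable {v : KbVer} {P : KbPb v} {Y : KbSys P} {x : K3bNum} {S R : ℝ} {G : Finset ℝ} {nr : ℝ → ℝ} {n₁ : ℕ} {nrm : Y.C → KbB v} {p : K3e1Par}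

/-! ## 1. the two forms of the pair law      (LEAF L-252-S3e1-O1) -/

/-- PROOF.  `kbI n₁ i ⊆ Icc 0 1` (`i < 2^n₁`), so `volume.restrict (kbI n₁ i) = KbPb.tm.restrict (kbI n₁ i)` (`Measure.restrict_restrict`, `Set.inter_eq_left`); `Measure.prod_restrict`, `Measure.prod_smul_left/right` (or `Measure.ext` on rectangles);
`{z | z.2.1 ∈ I ∧ z.2.2 ∈ I} = univ ×ˢ (I ×ˢ I)`;  `ofReal (2^n₁) = 2^n₁`. -/
theorem k3e1_law_eq (hP : P.WF) (n₁ i : ℕ) (hi : i < 2 ^ n₁) (γ : P.W) : P.k3bLaw γ n₁ i = (k3e1Law P n₁ γ).restrict {z | z.2.1 ∈ kbI n₁ i ∧ z.2.2 ∈ kbI n₁ i} := by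
  have := hP.prob γ
  have hq : 0 < kbQ n₁ := by
    unfold kbQ
    positivity
  have hq2 : kbQ n₁ * 2 ^ n₁ = 1 := by
    unfold kbQ
    rw [← mul_pow]
    norm_num
  have hI : MeasurableSet (kbI n₁ i) := measurableSet_Ico
  have hsub : kbI n₁ i ⊆ Set.Icc (0 : ℝ) 1 := by
    intro t ht
    unfold kbI at ht
    have hi' : (i : ℝ) + 1 ≤ 2 ^ n₁ := by exact_mod_cast hi
    refine ⟨le_trans (by positivity) ht.1, ht.2.le.trans ?_⟩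
    calc ((i : ℝ) + 1) * kbQ n₁ ≤ 2 ^ n₁ * kbQ n₁ := mul_le_mul_of_nonneg_right hi' hq.le
      _ = 1 := by rw [mul_comm]; exact hq2
  have e1 : volume.restrict (kbI n₁ i) = KbPb.tm.restrict (kbI n₁ i) := by
    unfold KbPb.tm
    rw [Measure.restrict_restrict hI, Set.inter_eq_left.2 hsub]
  have e2 : ENNReal.ofReal (2 ^ n₁) = (2 : ℝ≥0∞) ^ n₁ := by
    rw [ENNReal.ofReal_pow (by norm_num)]
    norm_num
  have e3 : {z : P.Lam × ℝ × ℝ | z.2.1 ∈ kbI n₁ i ∧ z.2.2 ∈ kbI n₁ i} = Set.univ ×ˢ (kbI n₁ i ×ˢ kbI n₁ i) := by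
    ext z
    simp [Set.mem_prod]
  have : SFinite KbPb.tm := by
    unfold KbPb.tm
    infer_instance
  unfold KbPb.k3bLaw k3bUn k3e1Law
  rw [e1, e2, e3]
  simp only [Measure.prod_smul_left, Measure.prod_smul_right]
  rw [Measure.prod_restrict, Measure.restrict_smul, smul_smul]
  congr 1
  have e4 : ((P.nu γ).prod (KbPb.tm.prod KbPb.tm)).restrict (Set.univ ×ˢ (kbI n₁ i ×ˢ kbI n₁ i))
      = ((P.nu γ).restrict Set.univ).prod ((KbPb.tm.prod KbPb.tm).restrict (kbI n₁ i ×ˢ kbI n₁ i)) := (Measure.prod_restrict _ _).symm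
  rw [e4, Measure.restrict_univ]

theorem k3e1_law_le (hP : P.WF) (n₁ i : ℕ) (hi : i < 2 ^ n₁) (γ : P.W) : P.k3bLaw γ n₁ i ≤ k3e1Law P n₁ γ := by
  rw [k3e1_law_eq hP n₁ i hi γ]
  exact Measure.restrict_le_self

/-- (`k3e1_law_eq`, `Measure.restrict_apply'`; for `z ∈ PrC c c'`, admissible: both times lie in the block: `k3e1_prc_mem`, `k3e1_I_sub`; non-admissible pairs: empty sets) -/
theorem k3e1_pm_eq (Y : KbSys P) (hP : P.WF) (hY : Y.WF) {n₁ : ℕ} (h : n₁ ≤ Y.n) (X : Y.C → Y.C → Set (P.Lam × ℝ × ℝ)) (hsub : ∀ c c', X c c' ⊆ k3e1PrC Y c c')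
    (hadm : ∀ c c', (X c c').Nonempty → k3e1Adm Y n₁ c c') : Y.k3bPM n₁ X = k3e1PM Y n₁ X := by
  classical
  unfold KbSys.k3bPM k3e1PM
  refine Finset.sum_congr rfl fun c _ => Finset.sum_congr rfl fun c' _ => ?_
  split_ifs with ha
  · congr 1
    have hm : MeasurableSet {z : P.Lam × ℝ × ℝ | z.2.1 ∈ kbI n₁ (k3e1Bk Y n₁ c) ∧ z.2.2 ∈ kbI n₁ (k3e1Bk Y n₁ c)} :=
      (measurable_snd.fst measurableSet_Ico).inter (measurable_snd.snd measurableSet_Ico)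
    have e0 : Y.k3bBk n₁ c = k3e1Bk Y n₁ c := rfl
    rw [e0, k3e1_law_eq hP n₁ _ (k3e1_bk_lt Y hY h c), Measure.restrict_apply' hm]
    congr 1
    ext z
    constructor
    · rintro ⟨hz, -⟩
      exact ⟨hsub c c' hz, hz⟩
    · rintro ⟨hz1, hz⟩
      obtain ⟨-, m2, -, m4, -, -⟩ := k3e1_prc_mem Y hY hz1
      refine ⟨hz, k3e1_I_sub Y h c m2, ?_⟩
      have := k3e1_I_sub Y h c' m4
      rw [← ha.2] at this
      exact this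
  · have : X c c' = ∅ := by
      by_contra hne
      exact ha (hadm c c' (Set.nonempty_iff_ne_empty.2 hne))
    rw [this, measure_empty, mul_zero]

/-! ## 2. the field `big`      (LEAF L-252-S3e1-O2) -/

/-- **LEAF O2.**
PROOF.  `k3e1_pm_eq` for `Gd`.   `PM univ ≤ PM Gd + PM Gdᶜ` (`k3e1_pm_union`, `k3e1_pm_mono`), and for admissible pairs `PrC ∩ Gdᶜ ⊆ X1ᶜ ∪ (X1 ∩ Tr) ∪ (X2 \ X3) ∪ (G0 \ Mt)` (`k3e1_pm_mono'`, `k3e1_pm_union`).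
`Y.mass² ≤ PM univ` (`k3e1_pm_mass`), `1 ≤ ofReal K · mass` (`h.hin.big`), so `ofReal (1/K²) ≤ mass²`; hence `ofReal (1/(2K²)) ≤ PM Gd` (`ENNReal`: `a ≤ b + c`, `c ≤ a/2` finite); `K' ≥ 2 K²`. -/
theorem k3e1_ok_big (h : K3e1St P Y x S R G nr n₁ nrm p) (K' : ℝ) (hK' : 2 * x.K ^ 2 ≤ K')
    (hloss : k3e1PM Y n₁ (fun c c' => (k3e1X1 Y x S R G nr c c')ᶜ) + k3e1PM Y n₁ (fun c c' => {z | z ∈ k3e1X1 Y x S R G nr c c' ∧ k3e1Tr v p.gs (nrm c) (nrm c')})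
      + k3e1PM Y n₁ (fun c c' => {z | z ∈ k3e1X2 Y nrm p x S R G nr c c' ∧ z ∉ k3e1X3 Y n₁ nrm p x S R G nr c c'})
      + k3e1PM Y n₁ (fun c c' => {z | z ∈ k3e1G0 Y n₁ nrm p x S R G nr c c' ∧ z ∉ k3e1Mt Y n₁ nrm p c c'}) ≤ ENNReal.ofReal (1 / (2 * x.K ^ 2))) :
    1 ≤ ENNReal.ofReal K' * Y.k3bPM n₁ (k3e1Gd Y n₁ nrm p x S R G nr) := by
  classical
  have hP := h.hin.pwf
  have hY := h.hin.ywf
  have hK := h.hK
  have hK0 : 0 < x.K := by linarith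
  rw [k3e1_pm_eq Y hP hY h.hn (k3e1Gd Y n₁ nrm p x S R G nr) (fun c c' z hz => hz.1.2.1) (fun c c' ⟨z, hz⟩ => hz.1.1)]
  -- the cover
  have hcov : k3e1PM Y n₁ (fun _ _ => Set.univ) ≤ k3e1PM Y n₁ (fun c c' =>
      ((((k3e1Gd Y n₁ nrm p x S R G nr c c' ∪ (k3e1X1 Y x S R G nr c c')ᶜ) ∪ {z | z ∈ k3e1X1 Y x S R G nr c c' ∧ k3e1Tr v p.gs (nrm c) (nrm c')})
        ∪ {z | z ∈ k3e1X2 Y nrm p x S R G nr c c' ∧ z ∉ k3e1X3 Y n₁ nrm p x S R G nr c c'})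
        ∪ {z | z ∈ k3e1G0 Y n₁ nrm p x S R G nr c c' ∧ z ∉ k3e1Mt Y n₁ nrm p c c'})) := by
    refine k3e1_pm_mono' Y n₁ fun c c' hadm z hz => ?_
    have hzP := hz.1
    by_cases h1 : z ∈ k3e1X1 Y x S R G nr c c'
    · by_cases h2 : k3e1Tr v p.gs (nrm c) (nrm c')
      · exact Or.inl (Or.inl (Or.inr ⟨h1, h2⟩))
      · have h2' : z ∈ k3e1X2 Y nrm p x S R G nr c c' := ⟨h1, h2⟩
        by_cases h3 : z ∈ k3e1X3 Y n₁ nrm p x S R G nr c c'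
        · have h3' : z ∈ k3e1G0 Y n₁ nrm p x S R G nr c c' := ⟨hadm, hzP, h3⟩
          by_cases h4 : z ∈ k3e1Mt Y n₁ nrm p c c'
          · exact Or.inl (Or.inl (Or.inl (Or.inl ⟨h3', h4⟩)))
          · exact Or.inr ⟨h3', h4⟩
        · exact Or.inl (Or.inr ⟨h2', h3⟩)
    · exact Or.inl (Or.inl (Or.inl (Or.inr h1)))
  have hsum : k3e1PM Y n₁ (fun _ _ => Set.univ) ≤ k3e1PM Y n₁ (k3e1Gd Y n₁ nrm p x S R G nr) + ENNReal.ofReal (1 / (2 * x.K ^ 2)) := by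
    refine hcov.trans ?_
    refine (k3e1_pm_union Y n₁ _ _).trans ?_
    refine (add_le_add (k3e1_pm_union Y n₁ _ _) le_rfl).trans ?_
    refine (add_le_add (add_le_add (k3e1_pm_union Y n₁ _ _) le_rfl) le_rfl).trans ?_
    refine (add_le_add (add_le_add (add_le_add (k3e1_pm_union Y n₁ _ _) le_rfl) le_rfl) le_rfl).trans ?_
    refine le_trans (le_of_eq ?_) (add_le_add le_rfl hloss)
    simp only [add_assoc]
  have hmass : ENNReal.ofReal (1 / x.K ^ 2) ≤ Y.mass ^ 2 := by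
    have h1 : (1 : ℝ≥0∞) ≤ (ENNReal.ofReal x.K * Y.mass) ^ 2 := one_le_pow₀ h.hin.big
    rw [mul_pow, ← ENNReal.ofReal_pow hK0.le] at h1
    calc ENNReal.ofReal (1 / x.K ^ 2) = ENNReal.ofReal (1 / x.K ^ 2) * 1 := (mul_one _).symm
      _ ≤ ENNReal.ofReal (1 / x.K ^ 2) * (ENNReal.ofReal (x.K ^ 2) * Y.mass ^ 2) := mul_le_mul' le_rfl h1
      _ = Y.mass ^ 2 := by
        rw [← mul_assoc, ← ENNReal.ofReal_mul (by positivity), one_div, inv_mul_cancel₀ (by positivity), ENNReal.ofReal_one, one_mul]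
  have hhalf : ENNReal.ofReal (1 / (2 * x.K ^ 2)) ≤ k3e1PM Y n₁ (k3e1Gd Y n₁ nrm p x S R G nr) := by
    have h1 := hmass.trans ((k3e1_pm_mass Y hP hY h.hn).trans hsum)
    have e : ENNReal.ofReal (1 / x.K ^ 2) = ENNReal.ofReal (1 / (2 * x.K ^ 2)) + ENNReal.ofReal (1 / (2 * x.K ^ 2)) := by
      rw [← ENNReal.ofReal_add (by positivity) (by positivity)]
      congr 1
      field_simp
      norm_num
    rw [e] at h1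
    exact (ENNReal.add_le_add_iff_right ENNReal.ofReal_ne_top).1 h1
  refine le_trans ?_ (mul_le_mul' le_rfl hhalf)
  rw [← ENNReal.ofReal_mul (by nlinarith [sq_nonneg x.K]), ← ENNReal.ofReal_one]
  refine ENNReal.ofReal_le_ofReal ?_
  rw [mul_one_div, le_div_iff₀ (by positivity)]
  linarith

/-! ## 3. the field `dens`      (LEAF L-252-S3e1-O3) -/

theorem k3e1_ok_cube_meas (n : ℕ) (r : ℝ) : MeasurableSet (k3bCube n r) := by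
  have e : k3bCube n r = ⋂ i, {y : Fin n → ℝ | |y i| ≤ r} := by
    ext y
    simp [k3bCube]
  rw [e]
  exact MeasurableSet.iInter fun i => measurableSet_le (measurable_pi_apply i).abs measurable_const

/-- **LEAF O3.**   `ϱ = 8 (1 + K²) (E nL) JD`.
PROOF.  First part: `Measure.le_iff`, `Measure.map_apply (k3e1_st_zs_meas ..)`, `Measure.restrict_apply`, `k3e1_law_le` (`k3e1_bk_lt`); the set is contained in the set of `k3e1_st_dens1` for `O ∩ k3bCube (v.j+1) 1` (`Gd ⊆ G0 ⊆ X1`; `‖Zs‖ ≤ 1` by `k3e1_st_box`; the cube is measurable: closed).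
Second part: `Set.ncard {c | ..} = (k3e1Lb Y n₁ γ i).card`; `k3e1_count_blk`: `card · n_Q ≤ K² E`; `JD = (Λ E q₀)^j gs ≤ (Λ E)^j E^R q₀^j g` (`k3e1_st_num`, `k3e1_st_gs`), so `card · ϱ ≤ 8 (1+K²) E (Λ E)^j E^R · K² E`. -/
theorem k3e1_ok_dens (h : K3e1St P Y x S R G nr n₁ nrm p) (A₀ : ℝ) (hA : 8 * x.K ^ 2 * (1 + x.K ^ 2) * x.E ^ 2 * (p.Λ * x.E) ^ v.j * x.E ^ R ≤ A₀) :
    ∃ ϱ : ℝ, 0 ≤ ϱ ∧
      (∀ c, ((P.k3bLaw (Y.wd c) n₁ (Y.k3bBk n₁ c)).restrict (⋃ c', k3e1Gd Y n₁ nrm p x S R G nr c c')).map (k3e1Zs Y n₁ nrm p c) ≤ ENNReal.ofReal ϱ • volume.restrict (k3bCube (v.j + 1) 1)) ∧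
      ∀ (γ : P.W) (i : ℕ), (Set.ncard {c : Y.C | Y.wd c = γ ∧ Y.k3bBk n₁ c = i} : ℝ) * ϱ ≤ A₀ := by
  classical
  have hP := h.hin.pwf
  have hY := h.hin.ywf
  obtain ⟨hE1, hq1, hq0, hq1p, hq1le⟩ := k3e1_st_num h
  obtain ⟨hgs0, hgs1, hggs, hgsE, hgsv⟩ := k3e1_st_gs h
  have hK := h.hK
  have hK0 : 0 < x.K := by linarith
  have hE0 : 0 < x.E := by linarith
  have hnL := h.hin.nL_pos
  have hg := h.hin.g_pos
  have hΛ0 : 0 < p.Λ := by rw [h.Λ_def]; linarith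
  refine ⟨8 * (1 + x.K ^ 2) * (x.E * x.nL) * ((p.Λ * kbQ n₁) ^ v.j * p.gs), by positivity, fun c => ?_, fun γ i => ?_⟩
  · refine Measure.le_iff.2 fun O hO => ?_
    have hzm := k3e1_st_zs_meas h c
    rw [Measure.map_apply hzm hO, Measure.restrict_apply (hzm hO), Measure.smul_apply, Measure.restrict_apply hO, smul_eq_mul]
    refine (k3e1_law_le hP n₁ _ (k3e1_bk_lt Y hY h.hn c) (Y.wd c) _).trans ?_
    refine le_trans (measure_mono ?_) (k3e1_st_dens1 h c (O ∩ k3bCube (v.j + 1) 1) (hO.inter (k3e1_ok_cube_meas _ _)))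
    rintro z ⟨hzO, hzU⟩
    obtain ⟨c', hc'⟩ := Set.mem_iUnion.1 hzU
    have hm := k3e1_prc_mem Y hY hc'.1.2.1
    have hbox := k3e1_st_box h c z.1 hm.1 z.2.1 (k3e1_kbI_sub_Ic Y n₁ c (k3e1_I_sub Y h.hn c hm.2.1))
    refine ⟨⟨c', hc'.1.1, hc'.1.2.1, hc'.1.2.2.1.1⟩, hzO, fun i => ?_⟩
    exact (norm_le_pi_norm (k3e1Zs Y n₁ nrm p c z) i).trans hbox
  · have hcard : Set.ncard {c : Y.C | Y.wd c = γ ∧ Y.k3bBk n₁ c = i} = (k3e1Lb Y n₁ γ i).card := by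
      rw [← Set.ncard_coe_finset]
      congr 1
      ext c
      simp only [k3e1Lb, Finset.coe_filter, Finset.mem_univ, true_and]
      rfl
    rw [hcard]
    have hcnt := k3e1_count_blk Y hP hY h.hn hK hnL hg h.hin.sat (fun c => (h.jac c).1) γ i
    rw [← h.hE] at hcnt
    obtain ⟨N, hN⟩ : ∃ N : ℝ, N = ((k3e1Lb Y n₁ γ i).card : ℝ) := ⟨_, rfl⟩
    rw [← hN] at hcnt ⊢
    have hN0 : 0 ≤ N := by rw [hN]; positivity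
    have hER : 0 < x.E ^ R := Real.rpow_pos_of_pos hE0 _
    have e1 : (p.Λ * kbQ n₁) ^ v.j = (p.Λ * x.E) ^ v.j * Y.q ^ v.j := by rw [hq1, ← mul_assoc, mul_pow]
    have h1 : 8 * (1 + x.K ^ 2) * (x.E * x.nL) * ((p.Λ * kbQ n₁) ^ v.j * p.gs)
        ≤ (8 * (1 + x.K ^ 2) * x.E * (p.Λ * x.E) ^ v.j * x.E ^ R) * (x.nL * Y.q ^ v.j * x.g) := by
      rw [e1]
      have : 8 * (1 + x.K ^ 2) * (x.E * x.nL) * ((p.Λ * x.E) ^ v.j * Y.q ^ v.j * p.gs)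
          ≤ 8 * (1 + x.K ^ 2) * (x.E * x.nL) * ((p.Λ * x.E) ^ v.j * Y.q ^ v.j * (x.g * x.E ^ R)) :=
        mul_le_mul_of_nonneg_left (mul_le_mul_of_nonneg_left hgsE (by positivity)) (by positivity)
      refine this.trans (le_of_eq ?_)
      ring
    calc N * (8 * (1 + x.K ^ 2) * (x.E * x.nL) * ((p.Λ * kbQ n₁) ^ v.j * p.gs))
        ≤ N * ((8 * (1 + x.K ^ 2) * x.E * (p.Λ * x.E) ^ v.j * x.E ^ R) * (x.nL * Y.q ^ v.j * x.g)) := mul_le_mul_of_nonneg_left h1 hN0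
      _ = (8 * (1 + x.K ^ 2) * x.E * (p.Λ * x.E) ^ v.j * x.E ^ R) * (N * (x.nL * Y.q ^ v.j * x.g)) := by ring
      _ ≤ (8 * (1 + x.K ^ 2) * x.E * (p.Λ * x.E) ^ v.j * x.E ^ R) * (x.K ^ 2 * x.E) := mul_le_mul_of_nonneg_left hcnt (by positivity)
      _ = 8 * x.K ^ 2 * (1 + x.K ^ 2) * x.E ^ 2 * (p.Λ * x.E) ^ v.j * x.E ^ R := by ring
      _ ≤ A₀ := hA

/-! ## 4. all fields      (LEAF L-252-S3e1-O4) -/

theorem k3e1_ok_phi (Y : KbSys P) (n₁ : ℕ) (nrm : Y.C → KbB v) (p : K3e1Par) (x : K3bNum) (S R : ℝ) (G : Finset ℝ) (nr : ℝ → ℝ)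
    (φ : (k3e1Cmp Y n₁ nrm p x S R G nr).Φ) : ∃ c, φ = (k3e1Cmp Y n₁ nrm p x S R G nr).of c := by
  classical
  obtain ⟨c, -, hc⟩ := Finset.mem_image.1 φ.2
  exact ⟨c, Subtype.ext hc.symm⟩

theorem k3e1_ok_tm (Y : KbSys P) (n₁ : ℕ) (c : Y.C) (τ : ℝ) (hτ : τ ∈ Set.Icc (0 : ℝ) 1) : ((k3e1Bk Y n₁ c : ℝ) + τ) * kbQ n₁ ∈ k3e1Ic Y n₁ c := by
  have hq : 0 < kbQ n₁ := by unfold kbQ; positivity
  exact ⟨mul_le_mul_of_nonneg_right (by linarith [hτ.1]) hq.le, mul_le_mul_of_nonneg_right (by linarith [hτ.2]) hq.le⟩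

/-- **LEAF O4** (~400 l.).  **The comparison data satisfy `K3bCmp.Ok`.**
FIELDS.  `n_le` `h.hn`;  `iv_lt` `k3e1_bk_lt`;  `of_wd`, `of_iv` `rfl`;  `cmp_ctx` `Finset.mem_subtype`, `k3e1_st_cp_ctx`;  `cmp_card` `Finset.card_subtype`, `Finset.card_filter_le`, `k3e1_st_cp_card`, `hK1`;  `inv`, `size` (`hK2`), `cen` (`hQ3`) `k3e1_st_frame`;
`card` `Fintype.card_coe`, `Finset.card_image_le`, `h.hin.ytmp.card`, `hQ1`;   `J_low`: `5 |det| ≥ (Λ q₁)^j gs ≥ q₀^j g ≥ J_c / K ≥ 1/(K Q)` (`Λ ≥ 1`, `q₁ ≥ q₀`, `gs ≥ g`, `h.jac`, `h.hin.ytmp.J_low`), `hQ2`;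
`box` `k3e1_st_box` (`X.tm φ τ = (i + τ) q₁ ∈ k3e1Ic`);   `v1` `k3e1_st_v1`;   `curv` `k3e1_cv_curv`, `thr = 1/(δ Θ) ≤ 1/δ`;   `early` `k3e1_st_early`;   `Gd_meas` `k3e1_st_G0_meas`, `k3e1_st_Mt_meas`;   `Gd_sub`, `Gd_ctx` definitions + `k3e1_st_list`;
`Gd_bd` `hbd`;   `Gd_low` `k3e1_st_pt` + `hA2`;   `Gd_match` definition of `k3e1Mt`, `hM₀`;   `big` `k3e1_ok_big`;   `dens` `k3e1_ok_dens`. -/
theorem k3e1_ok (h : K3e1St P Y x S R G nr n₁ nrm p) (Θ A₀ A₂ K' Q' : ℝ) (hthr : p.thr = 1 / (x.δ * Θ)) (hΘ : 16 * (68 * x.E ^ 2 * x.K) ^ 3 ≤ Θ) (hM₀ : p.M₀ = x.δ * A₂)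
    (hK1 : 14 * (2 * (p.ρL : ℝ) + 1) ^ 3 ≤ K') (hK2 : 6 * p.Λ ≤ K') (hK3 : 2 * x.K ^ 2 ≤ K') (hQ1 : x.Q ≤ Q') (hQ2 : 5 * x.K * x.Q ≤ Q') (hQ3 : 100 * (x.Q + 1) ≤ Q')
    (hA1 : 6 * x.E * x.K * Θ ≤ A₀) (hA2 : 2 * (x.K * x.E) ^ 2 ≤ A₀) (hA3 : 8 * x.K ^ 2 * (1 + x.K ^ 2) * x.E ^ 2 * (p.Λ * x.E) ^ v.j * x.E ^ R ≤ A₀)
    (hbd : ∀ c c', (k3e1G0 Y n₁ nrm p x S R G nr c c').Nonempty → (k3e1Eq Y n₁ p c (k3e1Of Y n₁ nrm p c)).dsc.Bd A₀ ∧ (k3e1Eq Y n₁ p c' (k3e1Of Y n₁ nrm p c)).dsc.Bd A₀)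
    (hloss : k3e1PM Y n₁ (fun c c' => (k3e1X1 Y x S R G nr c c')ᶜ) + k3e1PM Y n₁ (fun c c' => {z | z ∈ k3e1X1 Y x S R G nr c c' ∧ k3e1Tr v p.gs (nrm c) (nrm c')})
      + k3e1PM Y n₁ (fun c c' => {z | z ∈ k3e1X2 Y nrm p x S R G nr c c' ∧ z ∉ k3e1X3 Y n₁ nrm p x S R G nr c c'})
      + k3e1PM Y n₁ (fun c c' => {z | z ∈ k3e1G0 Y n₁ nrm p x S R G nr c c' ∧ z ∉ k3e1Mt Y n₁ nrm p c c'}) ≤ ENNReal.ofReal (1 / (2 * x.K ^ 2))) :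
    (k3e1Cmp Y n₁ nrm p x S R G nr).Ok K' A₀ A₂ p.r p.ρ x.δ Q' := by
  classical
  have hP := h.hin.pwf
  have hY := h.hin.ywf
  obtain ⟨hE1, hq1, hq0, hq1p, hq1le⟩ := k3e1_st_num h
  obtain ⟨hgs0, hgs1, hggs, hgsE, hgsv⟩ := k3e1_st_gs h
  have hK := h.hK
  have hδ := h.hδ
  have hKE : 0 < x.K * x.E := by positivity
  have hΘ1 : 1 ≤ Θ := by
    refine le_trans ?_ hΘ
    have h1 : 1 ≤ 68 * x.E ^ 2 * x.K := by nlinarith [one_le_pow₀ hE1 (n := 2)]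
    nlinarith [one_le_pow₀ h1 (n := 3)]
  have hthr0 : 0 < p.thr := by rw [hthr]; positivity
  have hΦ := k3e1_ok_phi Y n₁ nrm p x S R G nr
  exact
  { n_le := h.hn
    iv_lt := fun φ => by
      obtain ⟨c, rfl⟩ := hΦ φ
      exact k3e1_bk_lt Y hY h.hn c
    of_wd := fun c => rfl
    of_iv := fun c => rfl
    cmp_ctx := fun c φ hφ => k3e1_st_cp_ctx Y n₁ nrm p c φ.1 (Finset.mem_subtype.1 hφ)
    cmp_card := fun c => by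
      refine le_trans ?_ ((k3e1_st_cp_card Y n₁ nrm p c).trans hK1)
      have : ((k3e1Cmp Y n₁ nrm p x S R G nr).cmp c).card ≤ (k3e1Cp Y n₁ nrm p c).card := by
        show ((k3e1Cp Y n₁ nrm p c).subtype fun φ => φ ∈ k3e1Im Y n₁ nrm p).card ≤ _
        rw [Finset.card_subtype]
        exact Finset.card_filter_le _ _
      exact_mod_cast this
    inv := fun φ => by
      obtain ⟨c, rfl⟩ := hΦ φ
      exact (k3e1_st_frame h c).1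
    size := fun φ => by
      obtain ⟨c, rfl⟩ := hΦ φ
      refine (k3e1_st_frame h c).2.1.trans ?_
      show 6 * p.Λ * kbQ n₁ ≤ kbQ n₁ * K'
      nlinarith
    card := by
      refine le_trans ?_ (h.hin.ytmp.card.trans hQ1)
      have : Fintype.card (k3e1Cmp Y n₁ nrm p x S R G nr).Φ ≤ Fintype.card Y.C := by
        show Fintype.card {φ : K3e1Ix P // φ ∈ k3e1Im Y n₁ nrm p} ≤ _
        rw [Fintype.card_coe]
        exact Finset.card_image_le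
      exact_mod_cast this
    J_low := fun φ => by
      obtain ⟨c, rfl⟩ := hΦ φ
      have h1 := (k3e1_st_frame h c).2.2.2.1
      have h2 := (h.jac c).2
      have h3 := h.hin.ytmp.J_low c
      have hJ0 : 0 ≤ (Y.ch c).J := abs_nonneg _
      have hQ0 : 0 < x.Q := by
        by_contra hn
        push Not at hn
        nlinarith [mul_nonneg (neg_nonneg.2 hn) hJ0]
      have hΛ1 : 1 ≤ p.Λ := by rw [h.Λ_def]; linarith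
      have h4 : Y.q ≤ p.Λ * kbQ n₁ := by
        rw [hq1]
        nlinarith [mul_le_mul hΛ1 hE1 zero_le_one (by linarith : (0 : ℝ) ≤ p.Λ)]
      have h5 : Y.q ^ v.j ≤ (p.Λ * kbQ n₁) ^ v.j := pow_le_pow_left₀ hq0.le h4 _
      have h6 : Y.q ^ v.j * x.g ≤ (p.Λ * kbQ n₁) ^ v.j * p.gs := mul_le_mul h5 hggs h.hin.g_pos.le (by positivity)
      obtain ⟨dt, hdt⟩ : ∃ dt, dt = |(k3e1Fr n₁ p (k3e1Of Y n₁ nrm p c)).M.det| := ⟨_, rfl⟩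
      rw [← hdt] at h1
      show 1 ≤ Q' * |(k3e1Fr n₁ p (k3e1Of Y n₁ nrm p c)).M.det|
      rw [← hdt]
      have hdt0 : 0 ≤ dt := by rw [hdt]; exact abs_nonneg _
      have h7 : (Y.ch c).J ≤ x.K * (5 * dt) := by
        calc (Y.ch c).J ≤ x.K * (Y.q ^ v.j * x.g) := by rw [← mul_assoc]; exact h2
          _ ≤ x.K * (5 * dt) := mul_le_mul_of_nonneg_left (h6.trans h1) (by linarith)
      calc (1 : ℝ) ≤ x.Q * (Y.ch c).J := h3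
        _ ≤ x.Q * (x.K * (5 * dt)) := mul_le_mul_of_nonneg_left h7 hQ0.le
        _ = 5 * x.K * x.Q * dt := by ring
        _ ≤ Q' * dt := mul_le_mul_of_nonneg_right hQ2 hdt0
    cen := fun φ => by
      obtain ⟨c, rfl⟩ := hΦ φ
      exact (k3e1_st_frame h c).2.2.2.2.trans hQ3
    box := fun c l hl τ hτ => k3e1_st_box h c l hl _ (k3e1_ok_tm Y n₁ c τ hτ)
    v1 := fun hv c φ => by
      obtain ⟨c₀, rfl⟩ := hΦ φ
      exact k3e1_st_v1 h hthr0 hv c c₀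
    curv := fun c φ => by
      refine (k3e1_cv_curv (k3e1Eu Y n₁ p c φ.1) p.thr hthr0).trans ?_
      rw [hthr]
      exact one_div_le_one_div_of_le hδ (by nlinarith)
    early := fun c => by
      obtain ⟨Ae, a1, a2, a3, a4, a5⟩ := k3e1_st_early h Θ A₀ hthr hΘ hA1 c
      exact ⟨Ae, a1, a2, a3, fun l hl τ hτ => a4 l hl _ (k3e1_ok_tm Y n₁ c τ hτ), a5⟩
    Gd_meas := fun c c' => (k3e1_st_G0_meas h c c').inter (k3e1_st_Mt_meas h c c')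
    Gd_sub := fun c c' z hz => hz.1.2.1
    Gd_ctx := fun c c' ⟨z, hz⟩ => ⟨hz.1.1.1, hz.1.1.2, Finset.mem_subtype.2 (k3e1_st_list h c c' hz.1.1 ⟨z, hz.1.2.1⟩ hz.1.2.2.1.2)⟩
    Gd_bd := fun c c' ⟨z, hz⟩ => hbd c c' ⟨z, hz.1⟩
    Gd_low := fun c c' z hz => by
      have h1 := k3e1_st_pt h Θ hthr hΘ c c' hz.1.1 z hz.1.2.1 hz.1.2.2.1.1
      have h2 : 1 / A₀ ≤ 1 / (2 * (x.K * x.E) ^ 2) := one_div_le_one_div_of_le (by positivity) hA2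
      exact ⟨h2.trans h1.1.1, h2.trans h1.2.1⟩
    Gd_match := fun c c' z hz y hy => by
      have h1 := hz.2 y hy
      rw [hM₀] at h1
      exact h1
    big := k3e1_ok_big h K' hK3 hloss
    dens := k3e1_ok_dens h A₀ hA3 }

end

end Claimed.Agent.R252

end PkS3e1OkContract

section PkS3e1Main

/-!
# ROW 252 (S0492), unit S3e1 (sub-architect helper215, chief helper70), file 14: **EXIT 1**: `k3e1_cmp (v) : K3bCmpStmt v`  (`S3b/Cmp.lean`)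
The final theorem is PROVED here from the contracts `S3e1/{Stage,MatchStage,Ok,Num}Contract.lean`, the hubs `k3c_K4eRemez`, `k3c_K4eCode`, `k3c_K4eMatch` (`S3c/HubsContract.lean`) and the small leaves `L-252-S3e1-M*` below (prove IN PLACE, statement verbatim).
CONSTANTS.  `R = max 1 (12/S)`, `C₀ = 70 + 6R`, `Θ = E^7`, `φ = n_Q/E³`, `Λ = 52K`, `ρL = ⌈120K⌉₊`, `C₁ = max (constant of k3e1_num_B) (10^11 Cn + 10^9)`.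
-/

set_option autoImplicit false

namespace Claimed.Agent.R252

open MeasureTheory
open scoped ENNReal BigOperators

noncomputable section

variable {v : KbVer} {P : KbPb v} {Y : KbSys P} {x : K3bNum} {S R : ℝ} {G : Finset ℝ} {nr : ℝ → ℝ} {n₁ : ℕ} {nrm : Y.C → KbB v} {p : K3e1Par}

theorem k3e1_main_j (v : KbVer) : 1 ≤ v.j ∧ v.j ≤ 2 := by
  cases v <;> simp [KbVer.j]

theorem k3e1_bd_mono {n : ℕ} {D : K3bQd n} {A A' : ℝ} (h : D.Bd A) (hA : A ≤ A') : D.Bd A' := fun z hz => (h z hz).trans hA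

/-- **LEAF L-252-S3e1-M1.**  (`h.hin.ytmp.q_low : 1 ≤ Q q₀`, `q₀ = (1/2)^n₀`, `E = 2^(n₀-n₁) ≤ 2^n₀`.) -/
theorem k3e1_main_EQ (h : K3e1St P Y x S R G nr n₁ nrm p) : x.E ≤ x.Q := by
  have h1 := h.hin.ytmp.q_low
  rw [KbSys.q, kbQ] at h1
  have h2 : (1 / 2 : ℝ) ^ Y.n * 2 ^ Y.n = 1 := by
    rw [← mul_pow]
    norm_num
  have h3 : (2 : ℝ) ^ (Y.n - n₁) ≤ 2 ^ Y.n := pow_le_pow_right₀ (by norm_num) (Nat.sub_le _ _)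
  rw [h.hE]
  calc (2 : ℝ) ^ (Y.n - n₁) ≤ 2 ^ Y.n := h3
    _ = 1 * 2 ^ Y.n := (one_mul _).symm
    _ ≤ (x.Q * (1 / 2) ^ Y.n) * 2 ^ Y.n := mul_le_mul_of_nonneg_right h1 (by positivity)
    _ = x.Q := by rw [mul_assoc, h2, mul_one]

/-- **LEAF L-252-S3e1-M1.**  (`h.hin.big` forces a label `c` (otherwise `Y.mass = 0`); `h.hin.sat c`: `ofReal (nL J) ≤ ofReal K · ν_c ≤ ofReal K` (`k2s_nuC_le`), `h.jac c`: `q₀^j g ≤ K J`.) -/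
theorem k3e1_main_nQ (h : K3e1St P Y x S R G nr n₁ nrm p) : x.nL * (Y.q ^ v.j * x.g) ≤ x.K ^ 2 := by
  have hK := h.hK
  obtain ⟨c⟩ : Nonempty Y.C := by
    by_contra hne
    rw [not_nonempty_iff] at hne
    have := h.hin.big
    simp [KbSys.Big, KbSys.mass] at this
  have h1 := (h.hin.sat c).2.2
  have h2 : ENNReal.ofReal (x.nL * (Y.ch c).J) ≤ ENNReal.ofReal x.K := by
    refine h1.trans ?_
    calc ENNReal.ofReal x.K * Y.nuC c ≤ ENNReal.ofReal x.K * 1 := mul_le_mul_right (k2s_nuC_le Y h.hin.pwf c) _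
      _ = ENNReal.ofReal x.K := mul_one _
  rw [ENNReal.ofReal_le_ofReal_iff (by linarith)] at h2
  have h3 := (h.jac c).1
  have hnL := h.hin.nL_pos
  calc x.nL * (Y.q ^ v.j * x.g) ≤ x.nL * (x.K * (Y.ch c).J) := mul_le_mul_of_nonneg_left h3 hnL.le
    _ = x.K * (x.nL * (Y.ch c).J) := by ring
    _ ≤ x.K * x.K := mul_le_mul_of_nonneg_left h2 (by linarith)
    _ = x.K ^ 2 := by ring

/-- **LEAF L-252-S3e1-M1.**  (`k3e1_st_num`, `k3e1_st_gs`, `h.Λ_def`: `(Λ q₁)^j gs = (52 K E)^j q₀^j gs ≤ (52 K E)^j q₀^j g E^R`.) -/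
theorem k3e1_main_JD (h : K3e1St P Y x S R G nr n₁ nrm p) :
    0 < (p.Λ * kbQ n₁) ^ v.j * p.gs ∧ (p.Λ * kbQ n₁) ^ v.j * p.gs ≤ (52 * x.K * x.E) ^ v.j * x.E ^ R * (Y.q ^ v.j * x.g) := by
  obtain ⟨hE1, hq1, hq0, hq1pos, -⟩ := k3e1_st_num h
  obtain ⟨hgs0, -, -, hgs, -⟩ := k3e1_st_gs h
  have hK0 : 0 < x.K := by linarith [h.hK]
  have hΛ0 : 0 < p.Λ := by rw [h.Λ_def]; positivity
  refine ⟨by positivity, ?_⟩
  have e : (p.Λ * kbQ n₁) ^ v.j = (52 * x.K * x.E) ^ v.j * Y.q ^ v.j := by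
    rw [h.Λ_def, hq1, ← mul_pow]
    congr 1
    ring
  rw [e]
  have hE0 : 0 < x.E := by linarith
  calc (52 * x.K * x.E) ^ v.j * Y.q ^ v.j * p.gs ≤ (52 * x.K * x.E) ^ v.j * Y.q ^ v.j * (x.g * x.E ^ R) := by gcongr
    _ = (52 * x.K * x.E) ^ v.j * x.E ^ R * (Y.q ^ v.j * x.g) := by ring

/-- **LEAF L-252-S3e1-M1.**  (`k3e1_main_JD`; `nL`, `q₀^j g` cancel.) -/
theorem k3e1_main_ratio (h : K3e1St P Y x S R G nr n₁ nrm p) (hφ : p.φ = x.nL * (Y.q ^ v.j * x.g) / x.E ^ 3) :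
    0 < p.φ ∧ 0 ≤ 8 * (1 + 68 * x.E ^ 3 * x.K ^ 2) * (x.E * x.nL) * ((p.Λ * kbQ n₁) ^ v.j * p.gs) / p.φ ∧
      8 * (1 + 68 * x.E ^ 3 * x.K ^ 2) * (x.E * x.nL) * ((p.Λ * kbQ n₁) ^ v.j * p.gs) / p.φ ≤ 8 * (1 + 68 * x.E ^ 3 * x.K ^ 2) * x.E * (52 * x.K * x.E) ^ v.j * x.E ^ R * x.E ^ 3 := by
  obtain ⟨hE1, hq1, hq0, hq1pos, -⟩ := k3e1_st_num h
  obtain ⟨hJD0, hJD⟩ := k3e1_main_JD h
  have hE0 : 0 < x.E := by linarith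
  have hK0 : 0 < x.K := by linarith [h.hK]
  have hnL := h.hin.nL_pos
  have hg := h.hin.g_pos
  have hqg : 0 < Y.q ^ v.j * x.g := by positivity
  have hφ0 : 0 < p.φ := by rw [hφ]; positivity
  refine ⟨hφ0, by positivity, ?_⟩
  rw [div_le_iff₀ hφ0, hφ]
  calc 8 * (1 + 68 * x.E ^ 3 * x.K ^ 2) * (x.E * x.nL) * ((p.Λ * kbQ n₁) ^ v.j * p.gs)
      ≤ 8 * (1 + 68 * x.E ^ 3 * x.K ^ 2) * (x.E * x.nL) * ((52 * x.K * x.E) ^ v.j * x.E ^ R * (Y.q ^ v.j * x.g)) := by gcongr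
    _ = 8 * (1 + 68 * x.E ^ 3 * x.K ^ 2) * x.E * (52 * x.K * x.E) ^ v.j * x.E ^ R * x.E ^ 3 * (x.nL * (Y.q ^ v.j * x.g) / x.E ^ 3) := by
        field_simp

/-- **LEAF L-252-S3e1-M1.**  (`k3e1_count_blk`; `card (Lb) ≤ Fintype.card Y.C ≤ Q`: `Finset.card_le_univ`, `h.hin.ytmp.card`.) -/
theorem k3e1_main_L (h : K3e1St P Y x S R G nr n₁ nrm p) (γ : P.W) (i : ℕ) :
    ((k3e1Lb Y n₁ γ i).card : ℝ) * (x.nL * (Y.q ^ v.j * x.g)) ≤ x.K ^ 2 * x.E ∧ ((k3e1Lb Y n₁ γ i).card : ℝ) ≤ x.Q := by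
  constructor
  · have := k3e1_count_blk Y h.hin.pwf h.hin.ywf h.hn h.hK h.hin.nL_pos h.hin.g_pos h.hin.sat (fun c => (h.jac c).1) γ i
    rw [h.hE]
    calc ((k3e1Lb Y n₁ γ i).card : ℝ) * (x.nL * (Y.q ^ v.j * x.g)) = ((k3e1Lb Y n₁ γ i).card : ℝ) * (x.nL * Y.q ^ v.j * x.g) := by ring
      _ ≤ _ := this
  · refine le_trans ?_ h.hin.ytmp.card
    exact_mod_cast Finset.card_le_univ _

/-- **LEAF L-252-S3e1-M2.**  from real numbers to `ℝ≥0∞` (`ENNReal.ofReal_mul`, `ENNReal.ofReal_add`, `ENNReal.ofReal_natCast`, `ENNReal.ofReal_le_ofReal`) -/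
theorem k3e1_main_enn (N₁ N₂ : ℕ) (φm cap t b : ℝ) (hφ : 0 ≤ φm) (hcap : 0 ≤ cap) (ht : 0 ≤ t) (h : 2 * (N₁ : ℝ) * φm + (N₂ : ℝ) * cap * t ≤ b) :
    2 * (N₁ : ℝ≥0∞) * ENNReal.ofReal φm + (N₂ : ℝ≥0∞) * ENNReal.ofReal cap * ENNReal.ofReal t ≤ ENNReal.ofReal b := by
  refine le_trans (le_of_eq ?_) (ENNReal.ofReal_le_ofReal h)
  rw [ENNReal.ofReal_add (by positivity) (by positivity), ENNReal.ofReal_mul (by positivity), ENNReal.ofReal_mul (by positivity), ENNReal.ofReal_mul (by positivity),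
    ENNReal.ofReal_mul (by positivity), ENNReal.ofReal_natCast, ENNReal.ofReal_natCast]
  norm_num

/-- **LEAF L-252-S3e1-M2.**  the four losses add up -/
theorem k3e1_main_sum (K ε' E : ℝ) (a b c d : ℝ≥0∞) (hK : 1 ≤ K) (hε : 64 * K ^ 3 * ε' ≤ 1) (hE : 8 / E ≤ 1 / (16 * K ^ 2))
    (ha : a ≤ 2 * (ENNReal.ofReal (K + 1) * ENNReal.ofReal ε') + ENNReal.ofReal (8 / E)) (hb : b ≤ ENNReal.ofReal (1 / (8 * K ^ 2))) (hc : c ≤ ENNReal.ofReal (1 / (8 * K ^ 2)))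
    (hd : d ≤ ENNReal.ofReal (1 / (8 * K ^ 2))) : a + b + c + d ≤ ENNReal.ofReal (1 / (2 * K ^ 2)) := by
  have hK0 : 0 < K := by linarith
  have h16 : 0 < 1 / (16 * K ^ 2) := by positivity
  have h8 : 0 < 1 / (8 * K ^ 2) := by positivity
  have h1 : 2 * (ENNReal.ofReal (K + 1) * ENNReal.ofReal ε') ≤ ENNReal.ofReal (1 / (16 * K ^ 2)) := by
    have e2 : (2 : ℝ≥0∞) = ENNReal.ofReal 2 := by norm_num
    rw [e2, ← ENNReal.ofReal_mul (by linarith), ← ENNReal.ofReal_mul (by norm_num)]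
    apply ENNReal.ofReal_le_ofReal
    rw [le_div_iff₀ (by positivity)]
    by_cases h0 : 0 ≤ ε'
    · have h3 : 2 * ((K + 1) * ε') * (16 * K ^ 2) ≤ 64 * K ^ 3 * ε' := by
        have : (K + 1) * K ^ 2 ≤ 2 * K ^ 3 := by nlinarith [sq_nonneg K]
        nlinarith
      linarith
    · have h0' : ε' ≤ 0 := (not_le.1 h0).le
      have : 2 * ((K + 1) * ε') * (16 * K ^ 2) ≤ 0 := by
        have h5 : 0 ≤ 2 * (K + 1) * (16 * K ^ 2) := by positivity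
        nlinarith
      linarith
  have ha' : a ≤ ENNReal.ofReal (1 / (8 * K ^ 2)) := by
    refine ha.trans ((add_le_add h1 (ENNReal.ofReal_le_ofReal hE)).trans (le_of_eq ?_))
    rw [← ENNReal.ofReal_add h16.le h16.le]
    congr 1
    field_simp
    norm_num
  refine (add_le_add (add_le_add (add_le_add ha' hb) hc) hd).trans (le_of_eq ?_)
  rw [← ENNReal.ofReal_add h8.le h8.le, ← ENNReal.ofReal_add (by positivity) h8.le, ← ENNReal.ofReal_add (by positivity) h8.le]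
  congr 1
  field_simp
  norm_num

/-- **LEAF L-252-S3e1-M3.**  the polynomial bounds (`Q ≥ E ≥ C ≥ 200`, `K ≤ E ≤ Q`: `5 K Q ≤ Q³`, `100 (Q+1) ≤ Q²`, `Q^k ≤ Q^C` by `Real.rpow_natCast`, `Real.rpow_le_rpow_of_exponent_le`) -/
theorem k3e1_main_Q (K E Q C : ℝ) (hK : 1 ≤ K) (hC : 200 ≤ C) (hKE : C * K ^ C ≤ E) (hEQ : E ≤ Q) : Q ≤ Q ^ C ∧ 5 * K * Q ≤ Q ^ C ∧ 100 * (Q + 1) ≤ Q ^ C := by
  have hK0 : 0 < K := by linarith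
  have hKC : K ≤ K ^ C := by
    calc K = K ^ (1 : ℝ) := (Real.rpow_one K).symm
      _ ≤ K ^ C := Real.rpow_le_rpow_of_exponent_le hK (by linarith)
  have hKC1 : 1 ≤ K ^ C := hK.trans hKC
  have h1 : 200 * K ≤ Q := by
    have : 200 * K ≤ C * K ^ C := mul_le_mul hC hKC hK0.le (by linarith)
    linarith
  have hQ200 : 200 ≤ Q := by linarith
  have hQ1 : 1 ≤ Q := by linarith
  have hQ3 : Q ^ 3 ≤ Q ^ C := by
    rw [← Real.rpow_natCast]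
    exact Real.rpow_le_rpow_of_exponent_le hQ1 (by norm_num; linarith)
  refine ⟨le_trans ?_ hQ3, le_trans ?_ hQ3, le_trans ?_ hQ3⟩
  · nlinarith [mul_pos (show (0:ℝ) < Q by linarith) (show (0:ℝ) < Q by linarith)]
  · have hKQ : K ≤ Q := by linarith
    have hQ0 : 0 < Q := by linarith
    have h2 : 5 * K * Q ≤ 5 * Q * Q := by nlinarith
    have h3 : 5 * Q * Q ≤ Q * Q * Q := by nlinarith [mul_pos hQ0 hQ0]
    calc 5 * K * Q ≤ Q * Q * Q := h2.trans h3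
      _ = Q ^ 3 := by ring
  · have hQ0 : 0 < Q := by linarith
    have h2 : 100 * (Q + 1) ≤ 200 * Q := by linarith
    have h3 : 200 * Q ≤ Q * Q := by nlinarith
    have h4 : Q * Q ≤ Q * Q * Q := by nlinarith [mul_pos hQ0 hQ0]
    calc 100 * (Q + 1) ≤ Q * Q * Q := h2.trans (h3.trans h4)
      _ = Q ^ 3 := by ring

/-- **LEAF L-252-S3e1-M3.**  the subpower bounds -/
theorem k3e1_main_K (K C : ℝ) (ρL : ℕ) (hK : 1 ≤ K) (hC : 10 ^ 9 ≤ C) (hρ : (ρL : ℝ) ≤ 121 * K) :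
    14 * (2 * (ρL : ℝ) + 1) ^ 3 ≤ C * K ^ C ∧ 6 * (52 * K) ≤ C * K ^ C ∧ 2 * K ^ 2 ≤ C * K ^ C ∧ 64 * K ^ 3 ≤ C * K ^ C := by
  have hK0 : 0 < K := by linarith
  have hK3 : K ^ 3 ≤ K ^ C := by
    rw [← Real.rpow_natCast]
    exact Real.rpow_le_rpow_of_exponent_le hK (by norm_num; linarith)
  have hK30 : 0 < K ^ 3 := by positivity
  have hmain : 10 ^ 9 * K ^ 3 ≤ C * K ^ C := mul_le_mul hC hK3 hK30.le (by linarith)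
  have hK13 : K ≤ K ^ 3 := by nlinarith [mul_pos hK0 hK0, sq_nonneg (K - 1)]
  have hK23 : K ^ 2 ≤ K ^ 3 := by nlinarith [mul_pos hK0 hK0]
  refine ⟨le_trans ?_ hmain, le_trans ?_ hmain, le_trans ?_ hmain, le_trans ?_ hmain⟩
  · have h243 : 2 * (ρL : ℝ) + 1 ≤ 243 * K := by linarith
    have h0 : (0 : ℝ) ≤ 2 * (ρL : ℝ) + 1 := by positivity
    have h3 : (2 * (ρL : ℝ) + 1) ^ 3 ≤ (243 * K) ^ 3 := pow_le_pow_left₀ h0 h243 3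
    have e : (243 * K) ^ 3 = 14348907 * K ^ 3 := by ring
    rw [e] at h3
    linarith
  · linarith
  · linarith
  · linarith

/-- the discriminants of the heavy entries, with the final exponent -/
theorem k3e1_main_bd (h : K3e1St P Y x S R G nr n₁ nrm p) (Cn : ℝ) (hCn1 : 1 ≤ Cn)
    (hCn : ∀ (D : K3bQd (v.j + 1)) (θ M : ℝ) (Ω : Set (Fin (v.j + 1) → ℝ)), 0 < θ → (∀ y ∈ Ω, ∀ i, |y i| ≤ 1) → ENNReal.ofReal θ ≤ volume Ω → (∀ y ∈ Ω, |D.evR y| ≤ M) → D.Bd (Cn * θ⁻¹ ^ (2 * (v.j + 1)) * M))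
    (hthr : p.thr = 1 / (x.δ * x.E ^ 7)) (hφ : p.φ = x.nL * (Y.q ^ v.j * x.g) / x.E ^ 3) (nA1 : 16 * (68 * x.E ^ 2 * x.K) ^ 3 ≤ x.E ^ 7)
    (nA5 : Cn * (8 * (1 + 68 * x.E ^ 3 * x.K ^ 2) * x.E * (52 * x.K * x.E) ^ v.j * x.E ^ R * x.E ^ 3) ^ (2 * (v.j + 1)) * (54 * (x.E * x.K) ^ 2) ≤ x.E ^ (70 + 6 * R))
    (c c' : Y.C) (hne : (k3e1G0 Y n₁ nrm p x S R G nr c c').Nonempty) :
    (k3e1Eq Y n₁ p c (k3e1Of Y n₁ nrm p c)).dsc.Bd (x.E ^ (70 + 6 * R)) ∧ (k3e1Eq Y n₁ p c' (k3e1Of Y n₁ nrm p c)).dsc.Bd (x.E ^ (70 + 6 * R)) := by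
  obtain ⟨hφ0, hrat0, hrat⟩ := k3e1_main_ratio h hφ
  obtain ⟨b1, b2⟩ := k3e1_st_bd h (x.E ^ 7) Cn _ hthr nA1 hφ0 rfl hCn c c' hne
  have hCn0 : 0 ≤ Cn := by linarith
  have hle : Cn * (8 * (1 + 68 * x.E ^ 3 * x.K ^ 2) * (x.E * x.nL) * ((p.Λ * kbQ n₁) ^ v.j * p.gs) / p.φ) ^ (2 * (v.j + 1)) * (54 * (x.E * x.K) ^ 2) ≤ x.E ^ (70 + 6 * R) := by
    refine le_trans ?_ nA5
    exact mul_le_mul_of_nonneg_right (mul_le_mul_of_nonneg_left (pow_le_pow_left₀ hrat0 hrat _) hCn0) (by positivity)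
  exact ⟨k3e1_bd_mono b1 hle, k3e1_bd_mono b2 hle⟩

/-- the third loss with the final numbers -/
theorem k3e1_main_l3 (h : K3e1St P Y x S R G nr n₁ nrm p) (hφ : p.φ = x.nL * (Y.q ^ v.j * x.g) / x.E ^ 3)
    (nA8 : x.K ^ 2 * (1 + 14 * (243 * x.K) ^ 3) / x.E ^ 2 ≤ 1 / (8 * x.K ^ 2)) :
    k3e1PM Y n₁ (fun c c' => {z | z ∈ k3e1X2 Y nrm p x S R G nr c c' ∧ z ∉ k3e1X3 Y n₁ nrm p x S R G nr c c'}) ≤ ENNReal.ofReal (1 / (8 * x.K ^ 2)) := by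
  obtain ⟨hφ0, -, -⟩ := k3e1_main_ratio h hφ
  obtain ⟨hE1, hq1, hq0, hq1pos, hq1le⟩ := k3e1_st_num h
  have hE0 : 0 < x.E := by linarith
  have hK0 : 0 < x.K := by linarith [h.hK]
  refine (k3e1_st_loss3 h hφ0.le).trans (ENNReal.ofReal_le_ofReal (le_trans ?_ nA8))
  have hnL := h.hin.nL_pos
  have hg := h.hin.g_pos
  have hqj : 0 < Y.q ^ v.j := pow_pos hq0 _
  have e1 : x.K ^ 2 * x.E / (x.nL * Y.q ^ v.j * x.g) * (1 + 14 * (2 * (p.ρL : ℝ) + 1) ^ 3) * p.φ = x.K ^ 2 * (1 + 14 * (2 * (p.ρL : ℝ) + 1) ^ 3) / x.E ^ 2 := by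
    rw [hφ]
    field_simp
  rw [e1]
  have h243 : 2 * (p.ρL : ℝ) + 1 ≤ 243 * x.K := by linarith [h.ρL_le, h.hK]
  have h0 : (0 : ℝ) ≤ 2 * (p.ρL : ℝ) + 1 := by positivity
  have h3 : (2 * (p.ρL : ℝ) + 1) ^ 3 ≤ (243 * x.K) ^ 3 := pow_le_pow_left₀ h0 h243 3
  have hK2 : 0 ≤ x.K ^ 2 := by positivity
  exact div_le_div_of_nonneg_right (mul_le_mul_of_nonneg_left (by linarith) hK2) (by positivity)

/-- the loss of the local sheet match, from the numerics -/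
theorem k3e1_main_match (h : K3e1St P Y x S R G nr n₁ nrm p) {m : ℕ} {ε Cc Cr R₁ C : ℝ} (hcode : K4eCode (v.j + 1) m Cc) (hrem : K4eRemez (v.j + 1) Cr)
    (hmatch : ∀ R', R₁ ≤ R' → K4eMatch (v.j + 1) x.d ε R') (hε : 0 < ε) (hCc : 1 ≤ Cc)
    (hthr : p.thr = 1 / (x.δ * x.E ^ 7)) (hM : p.M₀ = x.δ * x.E ^ C) (nA1 : 16 * (68 * x.E ^ 2 * x.K) ^ 3 ≤ x.E ^ 7) (nA3 : 2 * (x.K * x.E) ^ 2 ≤ x.E ^ (70 + 6 * R))
    (hbd : ∀ c c', (k3e1G0 Y n₁ nrm p x S R G nr c c').Nonempty →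
      (k3e1Eq Y n₁ p c (k3e1Of Y n₁ nrm p c)).dsc.Bd (x.E ^ (70 + 6 * R)) ∧ (k3e1Eq Y n₁ p c' (k3e1Of Y n₁ nrm p c)).dsc.Bd (x.E ^ (70 + 6 * R)))
    (hρ0 : 0 < p.ρ) (hρr : p.ρ ≤ p.r) (hr : 64 * (x.E ^ (70 + 6 * R)) ^ 2 * p.r ≤ 1)
    (hnum : ∃ (θ Lm φm : ℝ) (nO kmax : ℕ), 1 < x.δ * x.E ^ C / (12 * x.E * x.K * x.E ^ 7 * x.δ) ∧ R₁ ≤ x.δ * x.E ^ C / (12 * x.E * x.K * x.E ^ 7 * x.δ) ∧ 0 < θ ∧ θ ≤ 1 ∧ 1 ≤ Lm ∧ 0 < φm ∧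
        14 * (2 * (p.ρL : ℝ) + 1) ^ 3 * (2 / p.ρ + 3) ^ (v.j + 1) ≤ nO ∧
        (4 * Cc + 8 * (1 + x.K ^ 2)) * (x.E ^ (1 + x.d) * x.K * x.nL * ((12 * x.E * x.K * x.E ^ 7 * x.δ) / x.δ) ^ x.d) * ((p.Λ * kbQ n₁) ^ v.j * p.gs) * (2 * p.r) ^ (v.j + 1) ≤ φm * Lm ∧
        Cc * ((⌈2 * Cc⌉₊ : ℝ) + 2) ≤ (x.δ * x.E ^ C / (12 * x.E * x.K * x.E ^ 7 * x.δ)) ^ ε ∧
        4 * (8 * (1 + 68 * x.E ^ 3 * x.K ^ 2) * (x.E * x.nL) * ((p.Λ * kbQ n₁) ^ v.j * p.gs)) * (2 * p.r) ^ (v.j + 1) ≤ (x.δ * x.E ^ C / (12 * x.E * x.K * x.E ^ 7 * x.δ)) ^ ε * φm ∧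
        2 * Lm ≤ (x.δ * x.E ^ C / (12 * x.E * x.K * x.E ^ 7 * x.δ)) ^ ε ∧
        Cr * θ ^ (-Cr) * (12 * x.E * x.K * x.E ^ 7 * x.δ) ≤ 2 ^ kmax * (x.δ * x.E ^ C) ∧
        ∀ L : ℕ, (L : ℝ) * (x.nL * (Y.q ^ v.j * x.g)) ≤ x.K ^ 2 * x.E → (L : ℝ) ≤ x.Q →
          2 * (((2 * L + 2 * L) * nO * kmax * (2 * ⌈2 * Cc⌉₊ + 3) ^ m : ℕ) : ℝ) * φm
            + ((2 * L * nO * (2 * L) : ℕ) : ℝ) * (8 * (1 + 68 * x.E ^ 3 * x.K ^ 2) * (x.E * x.nL) * ((p.Λ * kbQ n₁) ^ v.j * p.gs)) * (θ * (2 * p.r) ^ (v.j + 1)) ≤ 1 / (8 * x.K ^ 2)) :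
    k3e1PM Y n₁ (fun c c' => {z | z ∈ k3e1G0 Y n₁ nrm p x S R G nr c c' ∧ z ∉ k3e1Mt Y n₁ nrm p c c'}) ≤ ENNReal.ofReal (1 / (8 * x.K ^ 2)) := by
  obtain ⟨θ, Lm, φm, nO, kmax, mR0, mR1, mθ0, mθ1, mLm, mφ, mnO, mLm', mh1, mh2, mh3, mhθ, mfin⟩ := hnum
  obtain ⟨hE1, hq1, hq0, hq1pos, hq1le⟩ := k3e1_st_num h
  have hE0 : 0 < x.E := by linarith
  have hK0 : 0 < x.K := by linarith [h.hK]
  have hδ := h.hδ
  have hr0 : 0 < p.r := lt_of_lt_of_le hρ0 hρr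
  obtain ⟨hJD0, -⟩ := k3e1_main_JD h
  have hnL := h.hin.nL_pos
  have hΔ0 : 0 < 12 * x.E * x.K * x.E ^ 7 * x.δ := by positivity
  have hM' : p.M₀ = x.δ * x.E ^ C / (12 * x.E * x.K * x.E ^ 7 * x.δ) * (12 * x.E * x.K * x.E ^ 7 * x.δ) := by
    rw [hM, div_mul_cancel₀ _ hΔ0.ne']
  refine k3e1_pm_blocks Y h.hin.pwf h.hin.ywf h.hn _ (fun c c' => (k3e1_st_G0_meas h c c').inter (k3e1_st_Mt_meas h c c').compl) _ fun γ i => ?_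
  have hblk := k3e1_st_match_blk h (ε := ε) (R₀ := x.δ * x.E ^ C / (12 * x.E * x.K * x.E ^ 7 * x.δ)) hcode hrem
    (fun R' hR' => hmatch R' (mR1.trans hR')) (x.E ^ 7) (x.E ^ (70 + 6 * R)) (12 * x.E * x.K * x.E ^ 7 * x.δ) θ Lm
    (8 * (1 + 68 * x.E ^ 3 * x.K ^ 2) * (x.E * x.nL) * ((p.Λ * kbQ n₁) ^ v.j * p.gs)) φm nO kmax hthr nA1 hbd nA3 hρ0 hρr hr rfl hM' mR0 hε hCc mθ0 mθ1 mLm mφ rfl mnO mLm' mh1 mh2 mh3
    (by rw [hM]; exact mhθ) γ i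
  obtain ⟨hL1, hL2⟩ := k3e1_main_L h γ i
  have hfin := mfin (k3e1Lb Y n₁ γ i).card hL1 hL2
  refine le_trans (measure_mono ?_) (hblk.trans ?_)
  · rintro z ⟨c, c', h1, h2, -, -, h3, h4⟩
    exact ⟨c, c', h1, h2, h3, h4⟩
  · exact k3e1_main_enn _ _ φm _ _ _ mφ.le (by positivity) (by positivity) hfin

/-- **the construction for fixed data**, all numerical facts as hypotheses -/
theorem k3e1_main_core (h : K3e1St P Y x S R G nr n₁ nrm p) (C : ℝ) (hthr : p.thr = 1 / (x.δ * x.E ^ 7)) (hM : p.M₀ = x.δ * x.E ^ C)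
    (hbd : ∀ c c', (k3e1G0 Y n₁ nrm p x S R G nr c c').Nonempty →
      (k3e1Eq Y n₁ p c (k3e1Of Y n₁ nrm p c)).dsc.Bd (x.E ^ (70 + 6 * R)) ∧ (k3e1Eq Y n₁ p c' (k3e1Of Y n₁ nrm p c)).dsc.Bd (x.E ^ (70 + 6 * R)))
    (hC9 : 10 ^ 9 ≤ C) (hKE : C * x.K ^ C ≤ x.E) (hε : C * x.K ^ C * x.ε ≤ 1)
    (nA1 : 16 * (68 * x.E ^ 2 * x.K) ^ 3 ≤ x.E ^ 7) (nA2 : 6 * x.E * x.K * x.E ^ 7 ≤ x.E ^ (70 + 6 * R)) (nA3 : 2 * (x.K * x.E) ^ 2 ≤ x.E ^ (70 + 6 * R))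
    (nA4 : 8 * x.K ^ 2 * (1 + x.K ^ 2) * x.E ^ 2 * (52 * x.K * x.E) ^ v.j * x.E ^ R ≤ x.E ^ (70 + 6 * R)) (nA6 : 8 / x.E ≤ 1 / (16 * x.K ^ 2))
    (nA7 : x.K ^ 2 * x.E * (8 * (1 + 68 * x.E ^ 3 * x.K ^ 2) * x.K * (64 * x.K + 2) ^ v.j * x.E ^ (1 - S * R) * (x.K * (12 * x.E * x.K) ^ (v.j + 1))) ≤ 1 / (8 * x.K ^ 2))
    (hl3 : k3e1PM Y n₁ (fun c c' => {z | z ∈ k3e1X2 Y nrm p x S R G nr c c' ∧ z ∉ k3e1X3 Y n₁ nrm p x S R G nr c c'}) ≤ ENNReal.ofReal (1 / (8 * x.K ^ 2)))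
    (hl4 : k3e1PM Y n₁ (fun c c' => {z | z ∈ k3e1G0 Y n₁ nrm p x S R G nr c c' ∧ z ∉ k3e1Mt Y n₁ nrm p c c'}) ≤ ENNReal.ofReal (1 / (8 * x.K ^ 2))) :
    (k3e1Cmp Y n₁ nrm p x S R G nr).Ok (C * x.K ^ C) (x.E ^ (70 + 6 * R)) (x.E ^ C) p.r p.ρ x.δ (x.Q ^ C) := by
  have hK := h.hK
  obtain ⟨nK1, nK2, nK3, nK4⟩ := k3e1_main_K x.K C p.ρL hK hC9 h.ρL_le
  have hEQ := k3e1_main_EQ h
  have hC200 : (200 : ℝ) ≤ C := le_trans (by norm_num) hC9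
  obtain ⟨nQ1, nQ2, nQ3⟩ := k3e1_main_Q x.K x.E x.Q C hK hC200 hKE hEQ
  have hl1 := k3e1_st_loss1 h
  have hl2 : k3e1PM Y n₁ (fun c c' => {z | z ∈ k3e1X1 Y x S R G nr c c' ∧ k3e1Tr v p.gs (nrm c) (nrm c')}) ≤ ENNReal.ofReal (1 / (8 * x.K ^ 2)) :=
    (k3e1_st_loss2 h).trans (ENNReal.ofReal_le_ofReal nA7)
  have hε64 : 64 * x.K ^ 3 * x.ε ≤ 1 := by
    by_cases hε0 : 0 ≤ x.ε
    · exact le_trans (mul_le_mul_of_nonneg_right nK4 hε0) hε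
    · have hε1 : x.ε ≤ 0 := (not_le.1 hε0).le
      have h64 : (0 : ℝ) ≤ 64 * x.K ^ 3 := by positivity
      exact (mul_nonpos_of_nonneg_of_nonpos h64 hε1).trans zero_le_one
  have hloss := k3e1_main_sum x.K x.ε x.E _ _ _ _ hK hε64 nA6 hl1 hl2 hl3 hl4
  have nK2' : 6 * p.Λ ≤ C * x.K ^ C := by rw [h.Λ_def]; exact nK2
  have nA4' : 8 * x.K ^ 2 * (1 + x.K ^ 2) * x.E ^ 2 * (p.Λ * x.E) ^ v.j * x.E ^ R ≤ x.E ^ (70 + 6 * R) := by rw [h.Λ_def]; exact nA4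
  exact k3e1_ok h (x.E ^ 7) (x.E ^ (70 + 6 * R)) (x.E ^ C) (C * x.K ^ C) (x.Q ^ C) hthr nA1 hM nK1 nK2' nK3 nQ1 nQ2 nQ3 nA2 nA3 nA4' hbd hloss

/-- **EXIT 1 of L3.5** -/
theorem k3e1_cmp (v : KbVer) : K3bCmpStmt v := by
  intro d0 S hd0 hS
  obtain ⟨hj1, hj2⟩ := k3e1_main_j v
  obtain ⟨Cn, hCn1, hCn⟩ := k3e1_disc_bd (v.j + 1)
  obtain ⟨Cr, hCr1, hrem⟩ := k3c_K4eRemez (v.j + 1)
  obtain ⟨m, Cc, hCc1, hcode⟩ := k3c_K4eCode (v.j + 1)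
  obtain ⟨ε₀, hε₀, R₁, hmatch⟩ := k3c_K4eMatch (v.j + 1) d0 hd0
  obtain ⟨R, hRdef⟩ : ∃ R : ℝ, R = max 1 (12 / S) := ⟨_, rfl⟩
  have hR1 : 1 ≤ R := hRdef ▸ le_max_left _ _
  have hSR : 12 ≤ S * R := by
    have h1 : 12 / S ≤ R := hRdef ▸ le_max_right _ _
    rw [div_le_iff₀ hS] at h1
    linarith
  refine ⟨70 + 6 * R, R, by linarith, hR1, fun B hB => ?_⟩
  obtain ⟨C₁', hC₁', hnum⟩ := k3e1_num_B v.j m hj1 hj2 Cc Cr ε₀ R₁ R B hCc1 hCr1 hε₀ hR1 hB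
  obtain ⟨C, hCdef⟩ : ∃ C : ℝ, C = max C₁' (10 ^ 11 * Cn + 10 ^ 9) := ⟨_, rfl⟩
  have hC1 : C₁' ≤ C := hCdef ▸ le_max_left _ _
  have hC2 : 10 ^ 11 * Cn + 10 ^ 9 ≤ C := hCdef ▸ le_max_right _ _
  have hCn0 : (0 : ℝ) ≤ 10 ^ 11 * Cn := by positivity
  have hC9 : (10 : ℝ) ^ 9 ≤ C := le_trans (le_add_of_nonneg_left hCn0) hC2
  have hC11 : 10 ^ 11 * Cn ≤ C := le_trans (le_add_of_nonneg_right (by positivity)) hC2
  have hC13 : ((13 : ℕ) : ℝ) ≤ C := le_trans (by norm_num) hC9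
  refine ⟨C, hC₁'.trans hC1, ?_⟩
  intro P Y x G nr n₁ hin hd hdd hK hn hE hKE hQ hε hδ hδE r ρ hρ hρr hr
  obtain ⟨nrm, hn1, hn2, hn3⟩ := hin.axes
  -- the parameters
  obtain ⟨p, hp⟩ : ∃ p : K3e1Par, p = ⟨min 1 (x.g * x.E ^ R), 52 * x.K, ⌈120 * x.K⌉₊, 1 / (x.δ * x.E ^ 7), x.nL * (Y.q ^ v.j * x.g) / x.E ^ 3, r, ρ, x.δ * x.E ^ C⟩ := ⟨_, rfl⟩
  have hpgs : p.gs = min 1 (x.g * x.E ^ R) := by rw [hp]
  have hpΛ : p.Λ = 52 * x.K := by rw [hp]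
  have hpρL : p.ρL = ⌈120 * x.K⌉₊ := by rw [hp]
  have hpthr : p.thr = 1 / (x.δ * x.E ^ 7) := by rw [hp]
  have hpφ : p.φ = x.nL * (Y.q ^ v.j * x.g) / x.E ^ 3 := by rw [hp]
  have hpr : p.r = r := by rw [hp]
  have hpρ : p.ρ = ρ := by rw [hp]
  have hpM : p.M₀ = x.δ * x.E ^ C := by rw [hp]
  clear hp
  have hK0 : 0 < x.K := by linarith
  have hρL1 : 120 * x.K ≤ (p.ρL : ℝ) := by rw [hpρL]; exact Nat.le_ceil _
  have hρL2 : (p.ρL : ℝ) ≤ 121 * x.K := by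
    rw [hpρL]
    have h120 : (0 : ℝ) ≤ 120 * x.K := by positivity
    have := (Nat.ceil_lt_add_one h120).le
    linarith
  have hst : K3e1St P Y x S R G nr n₁ nrm p := ⟨hin, hn, hE, hK, hδ, hd, hS, hR1, hn1, hn2, hn3, hpgs, hpΛ, hρL1, hρL2⟩
  obtain ⟨hE1, hq1, hq0, hq1pos, hq1le⟩ := k3e1_st_num hst
  have hE0 : 0 < x.E := by linarith
  -- numerics of stage A
  have hEabs : 10 ^ 11 * Cn * x.K ^ 13 ≤ x.E := k3e1_num_abs hK hKE (10 ^ 11 * Cn) 13 hCn0 hC11 hC13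
  obtain ⟨nA1, nA2, nA3, nA4, nA5, nA6, nA7, nA8⟩ := k3e1_num_A v.j hj1 hj2 Cn S R x.E x.K hCn1 hR1 hSR hK hEabs
  have hEQ := k3e1_main_EQ hst
  obtain ⟨hJD0, hJD⟩ := k3e1_main_JD hst
  have hbd := k3e1_main_bd hst Cn hCn1 hCn hpthr hpφ nA1 nA5
  -- radius
  have hA0 : 1 ≤ x.E ^ (70 + 6 * R) := Real.one_le_rpow hE1 (by linarith)
  have hρ0 : 0 < ρ := lt_of_lt_of_le (Real.rpow_pos_of_pos hE0 _) hρ
  have hr0 : 0 < r := lt_of_lt_of_le hρ0 hρr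
  have hr64 : r ≤ 1 / 64 := by
    have h1 : (1 : ℝ) ≤ (x.E ^ (70 + 6 * R)) ^ 2 := one_le_pow₀ hA0
    have h2 : 64 * 1 * r ≤ 64 * (x.E ^ (70 + 6 * R)) ^ 2 * r := mul_le_mul_of_nonneg_right (mul_le_mul_of_nonneg_left h1 (by norm_num)) hr0.le
    linarith
  -- numerics of the match
  have hnum' := hnum C hC1 x.E x.K x.δ x.Q x.nL (Y.q ^ v.j * x.g) ((p.Λ * kbQ n₁) ^ v.j * p.gs) p.ρ p.r x.d p.ρL hK hKE hEQ hQ hδ hin.nL_pos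
      (mul_pos (pow_pos hq0 _) hin.g_pos) hJD0 hJD (k3e1_main_nQ hst) hρL2 (hpρ ▸ hρ) (by rw [hpρ, hpr]; exact hρr) (hpr ▸ hr64) hd (hdd.trans hd0.le)
  have hl4 := k3e1_main_match hst hcode hrem (fun R' hR' => hmatch x.d hdd ε₀ hε₀ le_rfl R' hR') hε₀ hCc1 hpthr hpM nA1 nA3 hbd (hpρ ▸ hρ0) (by rw [hpρ, hpr]; exact hρr)
    (by rw [hpr]; exact hr) hnum'
  have hl3 := k3e1_main_l3 hst hpφ nA8
  have hok := k3e1_main_core hst C hpthr hpM hbd hC9 hKE hε nA1 nA2 nA3 nA4 nA6 nA7 hl3 hl4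
  rw [hpr, hpρ] at hok
  exact ⟨k3e1Cmp Y n₁ nrm p x S R G nr, rfl, hok⟩

end

end Claimed.Agent.R252

end PkS3e1Main
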