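import Claimed.Agent.R252.Base.Sys
import Claimed.Agent.R252.S3b.Sh

/-! PACKED FILE (helper215, closed unit S3e1 of row 252, FROZEN): parts S3e1.GeoContract, S3e1.Defs, S3e1.FrameContract.  Each part is wrapped in its own `section`.  -- KEEP -/

section PkS3e1GeoContract

/-!
# ROW 252 (S0492), unit S3e1 (sub-architect helper215, chief helper70): CONTRACT, file 3: THE COMMON SPATIAL FRAME (planar geometry)
`03-comparison.tex` l.1037-1046 (two strips), l.1092-1130 (coarse moving box `D`, deterministic from the source label `A`; the witness label `A'` lists `D`), (a02:coarse-jacobian).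

PAPER-FREE, Mathlib only, NO trigonometry.  Prefix `k3e1_` / `k3e1` / `K3e1`.  Every `sorry` is a leaf `L-252-S3e1-G*`: prove IN PLACE, statement verbatim, helpers directly above.

CONVENTIONS.  Plane `Fin 2 → ℝ`, sup norm written coordinatewise.  An UNORIENTED NORMAL is normalised in the sup norm: `k3e1Nr ty s = (1,s)` (`ty = false`) or `(s,1)` (`ty = true`), `|s| ≤ 1`.
"sine of the angle" := `|k3e1Crs n n'|` (comparable, both vectors have Euclidean length in `[1,√2]`).   `q₀` old time length, `q₁ ≥ q₀` new block length, block `[tI, tI+q₁]`, midpoint `tm`,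
`g` old eccentricity, `gs = g^# ∈ [g,1]` new eccentricity.   If `gs > 1/2` the frame uses the fixed axes.
A line `y(t) = a + t V` FITS the chart `c` on `[s₀,s₀+q₀]`: `|y - y_c|_∞ ≤ ρt`, `|n_c · (y - y_c)| ≤ ρn` there.
BASIC TOOL (affine extrapolation): `|φ| ≤ M` on `[s₀,s₀+q₀]`, `φ` affine `⟹` `|φ(t)| ≤ 3 (q₁/q₀) M` for `|t - s₀| ≤ q₁`, and `|φ'| ≤ 2M/q₀`.
-/

set_option autoImplicit false

namespace Claimed.Agent.R252

noncomputable section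

def k3e1Dot (a b : Fin 2 → ℝ) : ℝ := a 0 * b 0 + a 1 * b 1

def k3e1Crs (a b : Fin 2 → ℝ) : ℝ := a 0 * b 1 - a 1 * b 0

/-- rotation by a right angle -/
def k3e1Rot (a : Fin 2 → ℝ) : Fin 2 → ℝ := ![-a 1, a 0]

/-- the normal of type `ty` and slope `s` -/
def k3e1Nr (ty : Bool) (s : ℝ) : Fin 2 → ℝ := if ty then ![s, 1] else ![1, s]

/-- the largest column of a matrix -/
def k3e1Col (D : Matrix (Fin 2) (Fin 2) ℝ) : Fin 2 → ℝ :=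
  if max |D 0 1| |D 1 1| ≤ max |D 0 0| |D 1 0| then fun i => D i 0 else fun i => D i 1

/-- type of the normal of the parallelogram `D [-1,1]²` (orthogonal to the largest column) -/
def k3e1Ty (D : Matrix (Fin 2) (Fin 2) ℝ) : Bool := decide (|k3e1Col D 1| < |k3e1Col D 0|)

/-- slope of that normal -/
def k3e1Sl (D : Matrix (Fin 2) (Fin 2) ℝ) : ℝ :=
  if |k3e1Col D 1| < |k3e1Col D 0| then -k3e1Col D 1 / k3e1Col D 0 else -k3e1Col D 0 / k3e1Col D 1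

/-- planar data of an old chart: normal and affine centre -/
structure K3e1Ch where
  ty : Bool
  s : ℝ
  y0 : Fin 2 → ℝ
  y1 : Fin 2 → ℝ

def K3e1Ch.nr (c : K3e1Ch) : Fin 2 → ℝ := k3e1Nr c.ty c.s

def K3e1Ch.yc (c : K3e1Ch) (t : ℝ) : Fin 2 → ℝ := c.y0 + t • c.y1

/-- the line `a + t V` fits the chart on `[s₀, s₀+q₀]` -/
def k3e1Fit (c : K3e1Ch) (a V : Fin 2 → ℝ) (s₀ q₀ ρt ρn : ℝ) : Prop :=
  ∀ t ∈ Set.Icc s₀ (s₀ + q₀), (∀ i, |(a + t • V - c.yc t) i| ≤ ρt) ∧ |k3e1Dot c.nr (a + t • V - c.yc t)| ≤ ρn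

/-- **a coarse moving box**: type and slope index of the rounded normal, index of the normal velocity, indices of the midpoint position -/
structure K3e1Fr where
  ty : Bool
  ks : ℤ
  kv : ℤ
  kp : ℤ
  kn : ℤ
  deriving DecidableEq

/-- the rounded normal -/
def K3e1Fr.nr (F : K3e1Fr) (gs : ℝ) : Fin 2 → ℝ := k3e1Nr F.ty (F.ks * gs)

/-- tangential offset of the point `y` from the centre of the box -/
def K3e1Fr.xt (F : K3e1Fr) (gs q₁ : ℝ) (y : Fin 2 → ℝ) : ℝ := k3e1Dot (k3e1Rot (F.nr gs)) y - F.kp * q₁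

/-- normal offset of the point `y` at time `t` from the moving centre -/
def K3e1Fr.xn (F : K3e1Fr) (gs q₁ tm t : ℝ) (y : Fin 2 → ℝ) : ℝ := k3e1Dot (F.nr gs) y - (F.kn * (q₁ * gs) + (t - tm) * (F.kv * gs))

/-- the box with a given rounded normal nearest to the chart `c` -/
def k3e1FrAt (gs q₁ tm : ℝ) (c : K3e1Ch) (ty : Bool) (ks : ℤ) : K3e1Fr :=
  ⟨ty, ks, ⌊k3e1Dot (k3e1Nr ty (ks * gs)) c.y1 / gs⌋, ⌊k3e1Dot (k3e1Rot (k3e1Nr ty (ks * gs))) (c.yc tm) / q₁⌋,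
    ⌊k3e1Dot (k3e1Nr ty (ks * gs)) (c.yc tm) / (q₁ * gs)⌋⟩

/-- **the coarse moving box of a chart** (`D`, deterministic from `A`) -/
def k3e1FrOf (gs q₁ tm : ℝ) (c : K3e1Ch) : K3e1Fr :=
  if gs ≤ 1 / 2 then k3e1FrAt gs q₁ tm c c.ty ⌊c.s / gs⌋ else k3e1FrAt gs q₁ tm c false 0

/-- the boxes with the same rounded normal whose three indices differ by at most `ρ` -/
def k3e1Nb (ρ : ℕ) (F : K3e1Fr) : Finset K3e1Fr :=
  ((Finset.Icc (F.kv - ρ) (F.kv + ρ) ×ˢ Finset.Icc (F.kp - ρ) (F.kp + ρ)) ×ˢ Finset.Icc (F.kn - ρ) (F.kn + ρ)).image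
    fun p => ⟨F.ty, F.ks, p.1.1, p.1.2, p.2⟩

/-- **the compatibility list of the witness chart** -/
def k3e1DL (gs q₁ tm : ℝ) (ρ : ℕ) (c' : K3e1Ch) : Finset K3e1Fr :=
  if gs ≤ 1 / 2 then
    ((Finset.Icc (⌊c'.s / gs⌋ - 2) (⌊c'.s / gs⌋ + 2)).biUnion fun ks => k3e1Nb ρ (k3e1FrAt gs q₁ tm c' c'.ty ks)) ∪
      ((Finset.Icc (⌊c'.s⁻¹ / gs⌋ - 4) (⌊c'.s⁻¹ / gs⌋ + 4)).biUnion fun ks => k3e1Nb ρ (k3e1FrAt gs q₁ tm c' (!c'.ty) ks))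
  else k3e1Nb ρ (k3e1FrAt gs q₁ tm c' false 0)

theorem k3e1_geo_eqns_cite : True := by
  have := @k3e1Dot.eq_1
  have := @k3e1Crs.eq_1
  have := @k3e1Rot.eq_1
  have := @k3e1Nr.eq_1
  have := @k3e1Col.eq_1
  have := @k3e1Ty.eq_1
  have := @k3e1Sl.eq_1
  have := @K3e1Ch.nr.eq_1
  have := @K3e1Ch.yc.eq_1
  have := @k3e1Fit.eq_1
  have := @K3e1Fr.nr.eq_1
  have := @K3e1Fr.xt.eq_1
  have := @K3e1Fr.xn.eq_1
  have := @k3e1FrAt.eq_1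
  have := @k3e1FrOf.eq_1
  have := @k3e1Nb.eq_1
  have := @k3e1DL.eq_1
  trivial

/-- **LEAF L-252-S3e1-G1** (~60 l.).  Affine extrapolation.  (`φ(t) = (1-x) φ(s₀) + x φ(s₀+q₀)`, `x = (t-s₀)/q₀`, `|x| ≤ m`, `|1-x| + |x| ≤ 2m+1 ≤ 3m`.) -/
theorem k3e1_extrap1 (α β s₀ q₀ m M : ℝ) (hq : 0 < q₀) (hm : 1 ≤ m) (h : ∀ t ∈ Set.Icc s₀ (s₀ + q₀), |α + β * t| ≤ M) :
    (∀ t, |t - s₀| ≤ m * q₀ → |α + β * t| ≤ 3 * m * M) ∧ |β| * q₀ ≤ 2 * M := by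
  have h0 := h s₀ ⟨le_rfl, by linarith⟩
  have h1 := h (s₀ + q₀) ⟨by linarith, le_rfl⟩
  have hM : 0 ≤ M := le_trans (abs_nonneg _) h0
  have hβ : |β| * q₀ ≤ 2 * M := by
    have e : β * q₀ = (α + β * (s₀ + q₀)) - (α + β * s₀) := by ring
    calc |β| * q₀ = |β * q₀| := by rw [abs_mul, abs_of_pos hq]
      _ = |(α + β * (s₀ + q₀)) - (α + β * s₀)| := by rw [e]
      _ ≤ |α + β * (s₀ + q₀)| + |α + β * s₀| := abs_sub _ _
      _ ≤ 2 * M := by linarith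
  refine ⟨fun t ht => ?_, hβ⟩
  have e : α + β * t = (α + β * s₀) + β * (t - s₀) := by ring
  have h2 : |β * (t - s₀)| ≤ m * (2 * M) := by
    rw [abs_mul]
    calc |β| * |t - s₀| ≤ |β| * (m * q₀) := mul_le_mul_of_nonneg_left ht (abs_nonneg _)
      _ = m * (|β| * q₀) := by ring
      _ ≤ m * (2 * M) := mul_le_mul_of_nonneg_left hβ (by linarith)
  rw [e]
  refine (abs_add_le _ _).trans ?_
  nlinarith

/-- **LEAF L-252-S3e1-G1** ((a02:old-test-extrapolation), ~80 l.).  Quadratic extrapolation.  Lagrange at `s₀, s₀+q₀/2, s₀+q₀`: with `x = (t-s₀)/q₀`: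
`p(t) = 2(x-1/2)(x-1) p₀ - 4x(x-1) p₁ + 2x(x-1/2) p₂` (`ring`/`field_simp`), `|x| ≤ m`: the three weights are `≤ 6m², 8m², 3m²`. -/
theorem k3e1_extrap2 (α β γ s₀ q₀ m M : ℝ) (hq : 0 < q₀) (hm : 1 ≤ m) (h : ∀ t ∈ Set.Icc s₀ (s₀ + q₀), |α + β * t + γ * t ^ 2| ≤ M) :
    ∀ t, |t - s₀| ≤ m * q₀ → |α + β * t + γ * t ^ 2| ≤ 17 * m ^ 2 * M := by
  intro t ht
  have h0 := h s₀ ⟨le_rfl, by linarith⟩
  have h1 := h (s₀ + q₀ / 2) ⟨by linarith, by linarith⟩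
  have h2 := h (s₀ + q₀) ⟨by linarith, le_rfl⟩
  have hM : 0 ≤ M := le_trans (abs_nonneg _) h0
  set x := (t - s₀) / q₀ with hx
  have htx : t = s₀ + x * q₀ := by rw [hx]; field_simp; ring
  have hxm : |x| ≤ m := by
    rw [hx, abs_div, abs_of_pos hq, div_le_iff₀ hq]; exact ht
  set p0 := α + β * s₀ + γ * s₀ ^ 2 with hp0
  set p1 := α + β * (s₀ + q₀ / 2) + γ * (s₀ + q₀ / 2) ^ 2 with hp1
  set p2 := α + β * (s₀ + q₀) + γ * (s₀ + q₀) ^ 2 with hp2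
  have e : α + β * t + γ * t ^ 2 = 2 * (x - 1 / 2) * (x - 1) * p0 - 4 * x * (x - 1) * p1 + 2 * x * (x - 1 / 2) * p2 := by
    rw [htx, hp0, hp1, hp2]; ring
  have a1 : |x - 1 / 2| ≤ 3 / 2 * m := by
    refine (abs_sub _ _).trans ?_
    rw [abs_of_pos (by norm_num : (0 : ℝ) < 1 / 2)]; linarith
  have a2 : |x - 1| ≤ 2 * m := by
    refine (abs_sub _ _).trans ?_
    rw [abs_one]; linarith
  have hm0 : 0 ≤ m := by linarith
  have w0 : |2 * (x - 1 / 2) * (x - 1) * p0| ≤ 6 * m ^ 2 * M := by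
    rw [abs_mul, abs_mul, abs_mul, abs_two]
    calc 2 * |x - 1 / 2| * |x - 1| * |p0| ≤ 2 * (3 / 2 * m) * (2 * m) * M := by gcongr
      _ = 6 * m ^ 2 * M := by ring
  have w1 : |4 * x * (x - 1) * p1| ≤ 8 * m ^ 2 * M := by
    rw [abs_mul, abs_mul, abs_mul, abs_of_pos (by norm_num : (0 : ℝ) < 4)]
    calc 4 * |x| * |x - 1| * |p1| ≤ 4 * m * (2 * m) * M := by gcongr
      _ = 8 * m ^ 2 * M := by ring
  have w2 : |2 * x * (x - 1 / 2) * p2| ≤ 3 * m ^ 2 * M := by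
    rw [abs_mul, abs_mul, abs_mul, abs_two]
    calc 2 * |x| * |x - 1 / 2| * |p2| ≤ 2 * m * (3 / 2 * m) * M := by gcongr
      _ = 3 * m ^ 2 * M := by ring
  rw [e]
  refine (abs_add_le _ _).trans ?_
  have := abs_sub (2 * (x - 1 / 2) * (x - 1) * p0) (4 * x * (x - 1) * p1)
  linarith

theorem k3e1_strip_aux (d0 d1 e0 e1 z z' K : ℝ) (hz' : |z'| ≤ K) (hmax : max |e0| |e1| ≤ max |d0| |d1|) :
    |(if |d1| < |d0| then -d1 / d0 else -d0 / d1)| ≤ 1 ∧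
    |k3e1Dot (k3e1Nr (decide (|d1| < |d0|)) (if |d1| < |d0| then -d1 / d0 else -d0 / d1))
      ![z * d0 + z' * e0, z * d1 + z' * e1]| * (|d0| + |d1| + |e0| + |e1|) ≤ 4 * K * |d0 * e1 - d1 * e0| := by
  have hK : 0 ≤ K := le_trans (abs_nonneg _) hz'
  have he0 : |e0| ≤ max |d0| |d1| := le_trans (le_max_left _ _) hmax
  have he1 : |e1| ≤ max |d0| |d1| := le_trans (le_max_right _ _) hmax
  by_cases h : |d1| < |d0|
  · have hd0 : 0 < |d0| := lt_of_le_of_lt (abs_nonneg _) h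
    have hd0' : d0 ≠ 0 := abs_pos.1 hd0
    rw [max_eq_left h.le] at he0 he1
    simp only [h, if_true, decide_true, k3e1Nr, k3e1Dot, Matrix.cons_val_zero, Matrix.cons_val_one]
    constructor
    · rw [abs_div, abs_neg, div_le_one hd0]; exact h.le
    · have e : -d1 / d0 * (z * d0 + z' * e0) + 1 * (z * d1 + z' * e1) = z' * (d0 * e1 - d1 * e0) / d0 := by
        field_simp; ring
      rw [e, abs_div, abs_mul, div_mul_eq_mul_div, div_le_iff₀ hd0]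
      have hΔ := abs_nonneg (d0 * e1 - d1 * e0)
      calc |z'| * |d0 * e1 - d1 * e0| * (|d0| + |d1| + |e0| + |e1|)
          ≤ K * |d0 * e1 - d1 * e0| * (|d0| + |d0| + |d0| + |d0|) := by gcongr
        _ = 4 * K * |d0 * e1 - d1 * e0| * |d0| := by ring
  · have h' : |d0| ≤ |d1| := not_lt.1 h
    rw [max_eq_right h'] at he0 he1
    simp only [h, if_false, decide_false, k3e1Nr, k3e1Dot, Matrix.cons_val_zero, Matrix.cons_val_one,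
      Bool.false_eq_true]
    by_cases hd1 : d1 = 0
    · have hd0 : d0 = 0 := by rw [hd1, abs_zero] at h'; exact abs_eq_zero.1 (le_antisymm h' (abs_nonneg _))
      have g0 : e0 = 0 := by rw [hd1, abs_zero] at he0; exact abs_eq_zero.1 (le_antisymm he0 (abs_nonneg _))
      have g1 : e1 = 0 := by rw [hd1, abs_zero] at he1; exact abs_eq_zero.1 (le_antisymm he1 (abs_nonneg _))
      subst hd1 hd0 g0 g1
      simp
    · have hd1' : 0 < |d1| := abs_pos.2 hd1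
      constructor
      · rw [abs_div, abs_neg, div_le_one hd1']; exact h'
      · have e : 1 * (z * d0 + z' * e0) + -d0 / d1 * (z * d1 + z' * e1) = -(z' * (d0 * e1 - d1 * e0)) / d1 := by
          field_simp; ring
        rw [e, abs_div, abs_neg, abs_mul, div_mul_eq_mul_div, div_le_iff₀ hd1']
        have hΔ := abs_nonneg (d0 * e1 - d1 * e0)
        calc |z'| * |d0 * e1 - d1 * e0| * (|d0| + |d1| + |e0| + |e1|)
            ≤ K * |d0 * e1 - d1 * e0| * (|d1| + |d1| + |d1| + |d1|) := by gcongr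
          _ = 4 * K * |d0 * e1 - d1 * e0| * |d1| := by ring

/-- **LEAF L-252-S3e1-G2** (~120 l.).  The parallelogram `D [-Kζ,Kζ]²` lies in the strip of half width `4 Kζ |det D| / |D|` orthogonal to `k3e1Nr (k3e1Ty D) (k3e1Sl D)`; the slope is `≤ 1`.
PROOF.  `d` = largest column, `d'` = the other one, `μ = max |d 0| |d 1| ≥ (∑ |D i k|)/4`.  `n = ± Rot d / μ`, `n · d = 0`, `n · d' = ± det D / μ`.  If `μ = 0` then `D = 0` and both sides vanish.  Four cases (which column, which entry). -/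
theorem k3e1_strip (D : Matrix (Fin 2) (Fin 2) ℝ) (ζ : Fin 2 → ℝ) (Kζ : ℝ) (hζ : ∀ i, |ζ i| ≤ Kζ) :
    |k3e1Sl D| ≤ 1 ∧ |k3e1Dot (k3e1Nr (k3e1Ty D) (k3e1Sl D)) (D.mulVec ζ)| * (∑ i, ∑ k, |D i k|) ≤ 4 * Kζ * |D.det| := by
  have hmv : D.mulVec ζ = ![D 0 0 * ζ 0 + D 0 1 * ζ 1, D 1 0 * ζ 0 + D 1 1 * ζ 1] := by
    funext i
    fin_cases i <;> simp [Matrix.mulVec, dotProduct, Fin.sum_univ_two]
  have hsum : (∑ i, ∑ k, |D i k|) = |D 0 0| + |D 0 1| + (|D 1 0| + |D 1 1|) := by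
    simp [Fin.sum_univ_two]
  rw [hmv, hsum, Matrix.det_fin_two]
  unfold k3e1Sl k3e1Ty
  by_cases hc : max |D 0 1| |D 1 1| ≤ max |D 0 0| |D 1 0|
  · have hcol : k3e1Col D = fun i => D i 0 := by unfold k3e1Col; rw [if_pos hc]
    rw [hcol]
    have := k3e1_strip_aux (D 0 0) (D 1 0) (D 0 1) (D 1 1) (ζ 0) (ζ 1) Kζ (hζ 1) hc
    refine ⟨this.1, ?_⟩
    have h2 := this.2
    have e1 : ![ζ 0 * D 0 0 + ζ 1 * D 0 1, ζ 0 * D 1 0 + ζ 1 * D 1 1] =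
        ![D 0 0 * ζ 0 + D 0 1 * ζ 1, D 1 0 * ζ 0 + D 1 1 * ζ 1] := by
      congr 1
      · ring
      · congr 1; ring
    rw [e1] at h2
    have e2 : D 0 0 * D 1 1 - D 1 0 * D 0 1 = D 0 0 * D 1 1 - D 0 1 * D 1 0 := by ring
    rw [e2] at h2
    have e3 : |D 0 0| + |D 0 1| + (|D 1 0| + |D 1 1|) = |D 0 0| + |D 1 0| + |D 0 1| + |D 1 1| := by ring
    rw [e3]
    exact h2
  · have hcol : k3e1Col D = fun i => D i 1 := by unfold k3e1Col; rw [if_neg hc]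
    rw [hcol]
    have := k3e1_strip_aux (D 0 1) (D 1 1) (D 0 0) (D 1 0) (ζ 1) (ζ 0) Kζ (hζ 0) (not_le.1 hc).le
    refine ⟨this.1, ?_⟩
    have h2 := this.2
    have e1 : ![ζ 1 * D 0 1 + ζ 0 * D 0 0, ζ 1 * D 1 1 + ζ 0 * D 1 0] =
        ![D 0 0 * ζ 0 + D 0 1 * ζ 1, D 1 0 * ζ 0 + D 1 1 * ζ 1] := by
      congr 1
      · ring
      · congr 1; ring
    rw [e1] at h2
    have e2 : |D 0 1 * D 1 0 - D 1 1 * D 0 0| = |D 0 0 * D 1 1 - D 0 1 * D 1 0| := by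
      rw [← abs_neg]; congr 1; ring
    rw [e2] at h2
    have e3 : |D 0 0| + |D 0 1| + (|D 1 0| + |D 1 1|) = |D 0 1| + |D 1 1| + |D 0 0| + |D 1 0| := by ring
    rw [e3]
    exact h2

/-- **LEAF L-252-S3e1-G3** (l.1037-1046, ~50 l.).  Two transversal strips.  (`u = V - V'`: `u 0 = ((n·u) n' 1 - (n'·u) n 1)/Crs n n'`, `u 1 = ((n'·u) n 0 - (n·u) n' 0)/Crs n n'`.) -/
theorem k3e1_two_strips (n n' V V' : Fin 2 → ℝ) (p p' w σ : ℝ) (hσ : 0 < σ) (hn : ∀ i, |n i| ≤ 1) (hn' : ∀ i, |n' i| ≤ 1) (hc : σ ≤ |k3e1Crs n n'|)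
    (h1 : |k3e1Dot n V - p| ≤ w) (h2 : |k3e1Dot n' V - p'| ≤ w) (h3 : |k3e1Dot n V' - p| ≤ w) (h4 : |k3e1Dot n' V' - p'| ≤ w) (i : Fin 2) :
    |V i - V' i| ≤ 4 * w / σ := by
  have hw : 0 ≤ w := le_trans (abs_nonneg _) h1
  unfold k3e1Dot at h1 h2 h3 h4
  unfold k3e1Crs at hc
  set A := n 0 * (V 0 - V' 0) + n 1 * (V 1 - V' 1) with hA
  set B := n' 0 * (V 0 - V' 0) + n' 1 * (V 1 - V' 1) with hB
  have hA2 : |A| ≤ 2 * w := by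
    have e : A = (n 0 * V 0 + n 1 * V 1 - p) - (n 0 * V' 0 + n 1 * V' 1 - p) := by rw [hA]; ring
    rw [e]; exact (abs_sub _ _).trans (by linarith)
  have hB2 : |B| ≤ 2 * w := by
    have e : B = (n' 0 * V 0 + n' 1 * V 1 - p') - (n' 0 * V' 0 + n' 1 * V' 1 - p') := by rw [hB]; ring
    rw [e]; exact (abs_sub _ _).trans (by linarith)
  have hC : 0 < |n 0 * n' 1 - n 1 * n' 0| := lt_of_lt_of_le hσ hc
  have key : ∀ x a b : ℝ, |a| ≤ 1 → |b| ≤ 1 → x * (n 0 * n' 1 - n 1 * n' 0) = A * a - B * b → |x| ≤ 4 * w / σ := by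
    intro x a b ha hb hx
    have h5 : |x| * |n 0 * n' 1 - n 1 * n' 0| ≤ 4 * w := by
      rw [← abs_mul, hx]
      refine (abs_sub _ _).trans ?_
      rw [abs_mul, abs_mul]
      have := mul_le_mul hA2 ha (abs_nonneg _) (by positivity : (0 : ℝ) ≤ 2 * w)
      have := mul_le_mul hB2 hb (abs_nonneg _) (by positivity : (0 : ℝ) ≤ 2 * w)
      linarith
    rw [le_div_iff₀ hσ]
    exact (mul_le_mul_of_nonneg_left hc (abs_nonneg _)).trans h5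
  fin_cases i
  · refine key _ (n' 1) (n 1) (hn' 1) (hn 1) ?_
    simp only [hA, hB]
    show (V 0 - V' 0) * _ = _
    ring
  · refine key _ (-n' 0) (-n 0) (by rw [abs_neg]; exact hn' 0) (by rw [abs_neg]; exact hn 0) ?_
    simp only [hA, hB]
    show (V 1 - V' 1) * _ = _
    ring

/-- **LEAF L-252-S3e1-G3** (~40 l.).  The velocity of a fitting line lies in the strip of its chart (`k3e1_extrap1`, second part, for `φ(t) = n_c · (y(t) - y_c(t))` and for the coordinates). -/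
theorem k3e1_fit_vel (c : K3e1Ch) (a V : Fin 2 → ℝ) (s₀ q₀ ρt ρn : ℝ) (hq : 0 < q₀) (h : k3e1Fit c a V s₀ q₀ ρt ρn) :
    (∀ i, |V i - c.y1 i| * q₀ ≤ 2 * ρt) ∧ |k3e1Dot c.nr V - k3e1Dot c.nr c.y1| * q₀ ≤ 2 * ρn := by
  constructor
  · intro i
    refine (k3e1_extrap1 (a i - c.y0 i) (V i - c.y1 i) s₀ q₀ 1 ρt hq le_rfl fun t ht => ?_).2
    have := (h t ht).1 i
    simp only [K3e1Ch.yc, Pi.sub_apply, Pi.add_apply, Pi.smul_apply, smul_eq_mul] at this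
    convert this using 2
    ring
  · refine (k3e1_extrap1 (k3e1Dot c.nr a - k3e1Dot c.nr c.y0) (k3e1Dot c.nr V - k3e1Dot c.nr c.y1) s₀ q₀ 1 ρn hq le_rfl
      fun t ht => ?_).2
    have := (h t ht).2
    simp only [K3e1Ch.yc, k3e1Dot, Pi.sub_apply, Pi.add_apply, Pi.smul_apply, smul_eq_mul] at this ⊢
    convert this using 2
    ring


theorem k3e1_floor_frac (x w : ℝ) (hw : 0 < w) : 0 ≤ x - ⌊x / w⌋ * w ∧ x - ⌊x / w⌋ * w < w := by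
  have h1 := Int.floor_le (x / w)
  have h2 := Int.lt_floor_add_one (x / w)
  rw [le_div_iff₀ hw] at h1
  rw [div_lt_iff₀ hw] at h2
  constructor <;> linarith

theorem k3e1_dot_le (n e : Fin 2 → ℝ) (N M : ℝ) (hn : |n 0| + |n 1| ≤ N) (he : ∀ i, |e i| ≤ M) :
    |k3e1Dot n e| ≤ N * M ∧ |k3e1Dot (k3e1Rot n) e| ≤ N * M := by
  have hM : 0 ≤ M := le_trans (abs_nonneg _) (he 0)
  have a0 := mul_le_mul_of_nonneg_left (he 0) (abs_nonneg (n 0))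
  have a1 := mul_le_mul_of_nonneg_left (he 1) (abs_nonneg (n 1))
  have b0 := mul_le_mul_of_nonneg_left (he 1) (abs_nonneg (n 0))
  have b1 := mul_le_mul_of_nonneg_left (he 0) (abs_nonneg (n 1))
  have hNM := mul_le_mul_of_nonneg_right hn hM
  constructor
  · unfold k3e1Dot
    refine (abs_add_le _ _).trans ?_
    rw [abs_mul, abs_mul]; linarith
  · unfold k3e1Dot k3e1Rot
    simp only [Matrix.cons_val_zero, Matrix.cons_val_one]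
    refine (abs_add_le _ _).trans ?_
    rw [abs_mul, abs_mul, abs_neg]; linarith

theorem k3e1_trace_core (c : K3e1Ch) (a V n : Fin 2 → ℝ) (q₁ tm t gs K : ℝ) (hq₁ : 0 < q₁) (hgs : 0 < gs) (hK : 1 ≤ K)
    (ht : |t - tm| ≤ q₁ / 2) (hn : |n 0| + |n 1| ≤ 5 / 2) (he : ∀ i, |(a + t • V - c.yc t) i| ≤ 3 * K * q₁)
    (hne : |k3e1Dot n (a + t • V - c.yc t)| ≤ 6 * K * q₁ * gs) (hy1 : ∀ i, |c.y1 i| ≤ 3 * K) :
    |k3e1Dot (k3e1Rot n) (a + t • V) - (⌊k3e1Dot (k3e1Rot n) (c.yc tm) / q₁⌋ : ℝ) * q₁| ≤ 13 * K * q₁ ∧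
    |k3e1Dot n (a + t • V) - ((⌊k3e1Dot n (c.yc tm) / (q₁ * gs)⌋ : ℝ) * (q₁ * gs) +
      (t - tm) * ((⌊k3e1Dot n c.y1 / gs⌋ : ℝ) * gs))| ≤ 8 * K * q₁ * gs := by
  have hid : ∀ v : Fin 2 → ℝ, k3e1Dot v (a + t • V) =
      k3e1Dot v (a + t • V - c.yc t) + k3e1Dot v (c.yc tm) + (t - tm) * k3e1Dot v c.y1 := by
    intro v
    simp only [k3e1Dot, K3e1Ch.yc, Pi.sub_apply, Pi.add_apply, Pi.smul_apply, smul_eq_mul]
    ring
  have hKq : 0 < K * q₁ := by positivity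
  constructor
  · obtain ⟨f1, f2⟩ := k3e1_floor_frac (k3e1Dot (k3e1Rot n) (c.yc tm)) q₁ hq₁
    have b1 := (k3e1_dot_le n _ _ _ hn he).2
    have b2 := (k3e1_dot_le n _ _ _ hn hy1).2
    have b3 : |(t - tm) * k3e1Dot (k3e1Rot n) c.y1| ≤ q₁ / 2 * (5 / 2 * (3 * K)) := by
      rw [abs_mul]; exact mul_le_mul ht b2 (abs_nonneg _) (by positivity)
    rw [hid]
    rw [abs_le] at b1 b3 ⊢
    have : q₁ ≤ K * q₁ := by nlinarith
    constructor <;> nlinarith [b1.1, b1.2, b3.1, b3.2]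
  · obtain ⟨f1, f2⟩ := k3e1_floor_frac (k3e1Dot n (c.yc tm)) (q₁ * gs) (by positivity)
    obtain ⟨g1, g2⟩ := k3e1_floor_frac (k3e1Dot n c.y1) gs hgs
    have b3 : |(t - tm) * (k3e1Dot n c.y1 - (⌊k3e1Dot n c.y1 / gs⌋ : ℝ) * gs)| ≤ q₁ / 2 * gs := by
      rw [abs_mul, abs_of_nonneg g1]; exact mul_le_mul ht g2.le g1 (by positivity)
    rw [hid]
    rw [abs_le] at hne b3 ⊢
    have hqg : 0 < q₁ * gs := by positivity
    have : q₁ * gs ≤ K * q₁ * gs := by nlinarith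
    constructor <;> nlinarith [hne.1, hne.2, b3.1, b3.2]

/-- **LEAF L-252-S3e1-G4** (l.1092-1108, ~250 l.).  **The whole trace on the new block lies in the coarse moving box.**
PROOF.  `e(t) = y(t) - y_c(t)`, `m = q₁/q₀`.  `k3e1_extrap1`: on the block `|e i| ≤ 3 K q₁`, `|n_c·e| ≤ 3 K q₁ g`; `|e' i| ≤ 2K`, so `|y1 i| ≤ 3K`.   `n̂ - n_c` has one non-zero entry, of size `≤ gs` (`Int.floor`), `|n̂|₁ ≤ 5/2`.
`|n̂·e| ≤ 3Kq₁g + 3Kq₁gs ≤ 6Kq₁gs` (case `gs > 1/2`: `n̂ = (1,0)`, `|n̂·e| ≤ 3Kq₁ ≤ 6Kq₁gs`).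
`xn = n̂·e(t) + [n̂·y_c(tm) - kn q₁gs] + (t-tm)[n̂·y1 - kv gs]`, the brackets are in `[0,q₁gs)`, `[0,gs)`.   `xt = τ̂·e(t) + (t-tm) τ̂·y1 + [τ̂·y_c(tm) - kp q₁]`: `≤ 7.5Kq₁ + 3.75Kq₁ + q₁`. -/
theorem k3e1_trace (c : K3e1Ch) (a V : Fin 2 → ℝ) (s₀ q₀ q₁ tI g gs K : ℝ) (hq₀ : 0 < q₀) (hq : q₀ ≤ q₁) (hK : 1 ≤ K) (hg : 0 < g) (hgs : g ≤ gs) (hgs1 : gs ≤ 1)
    (hs : |c.s| ≤ 1) (hI : Set.Icc s₀ (s₀ + q₀) ⊆ Set.Icc tI (tI + q₁)) (hV : ∀ i, |V i| ≤ K) (h : k3e1Fit c a V s₀ q₀ (K * q₀) (K * q₀ * g)) :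
    ∀ t ∈ Set.Icc tI (tI + q₁), |(k3e1FrOf gs q₁ (tI + q₁ / 2) c).xt gs q₁ (a + t • V)| ≤ 13 * K * q₁ ∧
      |(k3e1FrOf gs q₁ (tI + q₁ / 2) c).xn gs q₁ (tI + q₁ / 2) t (a + t • V)| ≤ 8 * K * q₁ * gs := by
  intro t ht
  have hq₁ : 0 < q₁ := lt_of_lt_of_le hq₀ hq
  have hgs0 : 0 < gs := lt_of_lt_of_le hg hgs
  have hs₀ : s₀ ∈ Set.Icc tI (tI + q₁) := hI ⟨le_rfl, by linarith⟩
  have hm : 1 ≤ q₁ / q₀ := by rw [le_div_iff₀ hq₀]; linarith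
  have hts : |t - s₀| ≤ q₁ / q₀ * q₀ := by
    rw [div_mul_cancel₀ _ hq₀.ne', abs_le]
    constructor <;> linarith [ht.1, ht.2, hs₀.1, hs₀.2]
  have htm : |t - (tI + q₁ / 2)| ≤ q₁ / 2 := by
    rw [abs_le]; constructor <;> linarith [ht.1, ht.2]
  -- coordinates of the deviation
  have hE := fun i => k3e1_extrap1 (a i - c.y0 i) (V i - c.y1 i) s₀ q₀ (q₁ / q₀) (K * q₀) hq₀ hm (fun t' ht' => by
    have := (h t' ht').1 i
    simp only [K3e1Ch.yc, Pi.sub_apply, Pi.add_apply, Pi.smul_apply, smul_eq_mul] at this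
    convert this using 2
    ring)
  have he : ∀ i, |(a + t • V - c.yc t) i| ≤ 3 * K * q₁ := by
    intro i
    have := (hE i).1 t hts
    simp only [K3e1Ch.yc, Pi.sub_apply, Pi.add_apply, Pi.smul_apply, smul_eq_mul]
    have e1 : 3 * (q₁ / q₀) * (K * q₀) = 3 * K * q₁ := by field_simp
    rw [e1] at this
    convert this using 2
    ring
  have hy1 : ∀ i, |c.y1 i| ≤ 3 * K := by
    intro i
    have h1 := (hE i).2
    have h2 : |V i - c.y1 i| ≤ 2 * K := by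
      have : |V i - c.y1 i| * q₀ ≤ (2 * K) * q₀ := by linarith
      exact le_of_mul_le_mul_right this hq₀
    have h3 : c.y1 i = V i - (V i - c.y1 i) := by ring
    rw [h3]
    exact (abs_sub _ _).trans (by linarith [hV i])
  have hN := k3e1_extrap1 (k3e1Dot c.nr a - k3e1Dot c.nr c.y0) (k3e1Dot c.nr V - k3e1Dot c.nr c.y1) s₀ q₀ (q₁ / q₀)
    (K * q₀ * g) hq₀ hm (fun t' ht' => by
      have := (h t' ht').2
      simp only [K3e1Ch.yc, k3e1Dot, Pi.sub_apply, Pi.add_apply, Pi.smul_apply, smul_eq_mul] at this ⊢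
      convert this using 2
      ring)
  have hne : |k3e1Dot c.nr (a + t • V - c.yc t)| ≤ 3 * K * q₁ * g := by
    have := hN.1 t hts
    have e1 : 3 * (q₁ / q₀) * (K * q₀ * g) = 3 * K * q₁ * g := by field_simp
    rw [e1] at this
    simp only [K3e1Ch.yc, k3e1Dot, Pi.sub_apply, Pi.add_apply, Pi.smul_apply, smul_eq_mul] at this ⊢
    convert this using 2
    ring
  have hKq : 0 < K * q₁ := by positivity
  unfold k3e1FrOf
  by_cases hh : gs ≤ 1 / 2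
  · rw [if_pos hh]
    simp only [k3e1FrAt, K3e1Fr.xt, K3e1Fr.xn, K3e1Fr.nr]
    obtain ⟨f1, f2⟩ := k3e1_floor_frac c.s gs hgs0
    set sh : ℝ := (⌊c.s / gs⌋ : ℝ) * gs with hsh
    have hs' := abs_le.1 hs
    have hsh1 : |sh| ≤ 3 / 2 := by rw [abs_le]; constructor <;> linarith [hs'.1, hs'.2]
    refine k3e1_trace_core c a V (k3e1Nr c.ty sh) q₁ (tI + q₁ / 2) t gs K hq₁ hgs0 hK htm ?_ he ?_ hy1
    · unfold k3e1Nr
      cases c.ty <;> simp <;> linarith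
    · have hd : ∃ j : Fin 2, k3e1Dot (k3e1Nr c.ty sh) (a + t • V - c.yc t) =
          k3e1Dot c.nr (a + t • V - c.yc t) + (sh - c.s) * (a + t • V - c.yc t) j := by
        unfold K3e1Ch.nr k3e1Nr k3e1Dot
        cases c.ty
        · exact ⟨1, by simp; ring⟩
        · exact ⟨0, by simp; ring⟩
      obtain ⟨j, hj⟩ := hd
      rw [hj]
      refine (abs_add_le _ _).trans ?_
      have h5 : |(sh - c.s) * (a + t • V - c.yc t) j| ≤ gs * (3 * K * q₁) := by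
        rw [abs_mul]
        refine mul_le_mul ?_ (he j) (abs_nonneg _) hgs0.le
        rw [abs_le]; constructor <;> linarith
      have h6 : 3 * K * q₁ * g ≤ 3 * K * q₁ * gs := mul_le_mul_of_nonneg_left hgs (by positivity)
      linarith
  · rw [if_neg hh]
    simp only [k3e1FrAt, K3e1Fr.xt, K3e1Fr.xn, K3e1Fr.nr]
    push Not at hh
    refine k3e1_trace_core c a V (k3e1Nr false (((0 : ℤ) : ℝ) * gs)) q₁ (tI + q₁ / 2) t gs K hq₁ hgs0 hK htm ?_ he ?_ hy1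
    · unfold k3e1Nr
      simp
      norm_num
    · have : k3e1Dot (k3e1Nr false (((0 : ℤ) : ℝ) * gs)) (a + t • V - c.yc t) = (a + t • V - c.yc t) 0 := by
        unfold k3e1Nr k3e1Dot
        simp
      rw [this]
      refine (he 0).trans ?_
      nlinarith

theorem k3e1_dl_floor_mem (x y : ℝ) (ρ : ℕ) (h : |x - y| + 1 ≤ ρ) :
    ⌊x⌋ ∈ Finset.Icc (⌊y⌋ - (ρ : ℤ)) (⌊y⌋ + ρ) := by
  have h1 := abs_le.1 (show |x - y| ≤ (ρ : ℝ) - 1 by linarith)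
  have hx1 := Int.floor_le x
  have hx2 := Int.lt_floor_add_one x
  have hy1 := Int.floor_le y
  have hy2 := Int.lt_floor_add_one y
  rw [Finset.mem_Icc]
  constructor
  · have : ((⌊y⌋ - (ρ : ℤ) : ℤ) : ℝ) < (⌊x⌋ : ℝ) + 1 := by push_cast; linarith [h1.1]
    have h2 : (⌊y⌋ - (ρ : ℤ) : ℤ) < ⌊x⌋ + 1 := by exact_mod_cast this
    omega
  · have : ((⌊x⌋ : ℤ) : ℝ) < ((⌊y⌋ + (ρ : ℤ) : ℤ) : ℝ) := by push_cast; linarith [h1.2]
    have h2 : ⌊x⌋ < ⌊y⌋ + (ρ : ℤ) := by exact_mod_cast this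
    omega

theorem k3e1_dl_floor_near (x y : ℝ) (d : ℕ) (h : |x - y| ≤ d) :
    ⌊x⌋ ∈ Finset.Icc (⌊y⌋ - (d : ℤ)) (⌊y⌋ + d) := by
  have h1 := abs_le.1 h
  have hx1 := Int.floor_le x
  have hx2 := Int.lt_floor_add_one x
  have hy1 := Int.floor_le y
  have hy2 := Int.lt_floor_add_one y
  rw [Finset.mem_Icc]
  constructor
  · have : ((⌊y⌋ - (d : ℤ) : ℤ) : ℝ) < (⌊x⌋ : ℝ) + 1 := by push_cast; linarith [h1.1]
    have h2 : (⌊y⌋ - (d : ℤ) : ℤ) < ⌊x⌋ + 1 := by exact_mod_cast this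
    omega
  · have : ((⌊x⌋ : ℤ) : ℝ) < ((⌊y⌋ + (d : ℤ) + 1 : ℤ) : ℝ) := by push_cast; linarith [h1.2]
    have h2 : ⌊x⌋ < ⌊y⌋ + (d : ℤ) + 1 := by exact_mod_cast this
    omega

theorem k3e1_dl_dot_le (n m x : Fin 2 → ℝ) (δ X : ℝ) (h : |n 0 - m 0| + |n 1 - m 1| ≤ δ) (hx : ∀ i, |x i| ≤ X) :
    |k3e1Dot m x| ≤ |k3e1Dot n x| + δ * X := by
  have hX : 0 ≤ X := le_trans (abs_nonneg _) (hx 0)
  have e : k3e1Dot m x = k3e1Dot n x - ((n 0 - m 0) * x 0 + (n 1 - m 1) * x 1) := by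
    simp only [k3e1Dot]; ring
  rw [e]
  have h1 : |(n 0 - m 0) * x 0| ≤ |n 0 - m 0| * X := by
    rw [abs_mul]; exact mul_le_mul_of_nonneg_left (hx 0) (abs_nonneg _)
  have h2 : |(n 1 - m 1) * x 1| ≤ |n 1 - m 1| * X := by
    rw [abs_mul]; exact mul_le_mul_of_nonneg_left (hx 1) (abs_nonneg _)
  have h3 : (|n 0 - m 0| + |n 1 - m 1|) * X ≤ δ * X := mul_le_mul_of_nonneg_right h hX
  calc |k3e1Dot n x - ((n 0 - m 0) * x 0 + (n 1 - m 1) * x 1)|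
      ≤ |k3e1Dot n x| + |(n 0 - m 0) * x 0 + (n 1 - m 1) * x 1| := abs_sub _ _
    _ ≤ |k3e1Dot n x| + (|(n 0 - m 0) * x 0| + |(n 1 - m 1) * x 1|) := by gcongr; exact abs_add_le _ _
    _ ≤ |k3e1Dot n x| + δ * X := by nlinarith

theorem k3e1_dl_dot_sup (m x : Fin 2 → ℝ) (δ X : ℝ) (h : |m 0| + |m 1| ≤ δ) (hx : ∀ i, |x i| ≤ X) :
    |k3e1Dot m x| ≤ δ * X := by
  have := k3e1_dl_dot_le (fun _ => 0) m x δ X (by simpa using h) hx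
  simpa [k3e1Dot] using this

theorem k3e1_dl_cross (n n' x : Fin 2 → ℝ) (gs X : ℝ) (hn : ∀ i, |n i| ≤ 1) (hn' : ∀ i, |n' i| ≤ 1)
    (h1 : 1 ≤ k3e1Dot n' n') (hc : |k3e1Crs n n'| ≤ gs) (hx : ∀ i, |x i| ≤ X) :
    |k3e1Dot n x| ≤ 2 * |k3e1Dot n' x| + 2 * gs * X := by
  have hX : 0 ≤ X := le_trans (abs_nonneg _) (hx 0)
  have id : k3e1Dot n x * k3e1Dot n' n' = k3e1Dot n n' * k3e1Dot n' x + k3e1Crs n n' * k3e1Crs x n' := by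
    simp only [k3e1Dot, k3e1Crs]; ring
  have a1 : |k3e1Dot n n'| ≤ 2 := by
    have := k3e1_dl_dot_sup n n' 2 1 (by linarith [hn 0, hn 1]) hn'
    linarith
  have a2 : |k3e1Crs x n'| ≤ 2 * X := by
    have e : k3e1Crs x n' = k3e1Dot ![n' 1, - n' 0] x := by simp [k3e1Crs, k3e1Dot]; ring
    rw [e]
    exact k3e1_dl_dot_sup _ x 2 X (by simp; linarith [hn' 0, hn' 1]) hx
  have a3 : |k3e1Dot n x| ≤ |k3e1Dot n x| * k3e1Dot n' n' := le_mul_of_one_le_right (abs_nonneg _) h1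
  have a4 : |k3e1Dot n x| * k3e1Dot n' n' = |k3e1Dot n x * k3e1Dot n' n'| := by
    rw [abs_mul, abs_of_nonneg (by linarith : (0:ℝ) ≤ k3e1Dot n' n')]
  have a5 : |k3e1Dot n n' * k3e1Dot n' x| ≤ 2 * |k3e1Dot n' x| := by
    rw [abs_mul]; exact mul_le_mul_of_nonneg_right a1 (abs_nonneg _)
  have a6 : |k3e1Crs n n' * k3e1Crs x n'| ≤ gs * (2 * X) := by
    rw [abs_mul]; exact mul_le_mul hc a2 (abs_nonneg _) (le_trans (abs_nonneg _) hc)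
  calc |k3e1Dot n x| ≤ |k3e1Dot n x * k3e1Dot n' n'| := by rw [← a4]; exact a3
    _ = |k3e1Dot n n' * k3e1Dot n' x + k3e1Crs n n' * k3e1Crs x n'| := by rw [id]
    _ ≤ |k3e1Dot n n' * k3e1Dot n' x| + |k3e1Crs n n' * k3e1Crs x n'| := abs_add_le _ _
    _ ≤ 2 * |k3e1Dot n' x| + 2 * gs * X := by linarith


theorem k3e1_dl_fit (c : K3e1Ch) (a V : Fin 2 → ℝ) (s₀ q₀ q₁ tI g K : ℝ) (hq₀ : 0 < q₀) (hq : q₀ ≤ q₁)
    (hI : Set.Icc s₀ (s₀ + q₀) ⊆ Set.Icc tI (tI + q₁)) (h : k3e1Fit c a V s₀ q₀ (K * q₀) (K * q₀ * g)) :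
    (∀ t ∈ Set.Icc tI (tI + q₁), (∀ i, |(a + t • V - c.yc t) i| ≤ 3 * K * q₁) ∧
      |k3e1Dot c.nr (a + t • V - c.yc t)| ≤ 3 * K * q₁ * g) ∧
    (∀ i, |(V - c.y1) i| ≤ 2 * K) ∧ |k3e1Dot c.nr (V - c.y1)| ≤ 2 * K * g := by
  have hm : 1 ≤ q₁ / q₀ := by rw [le_div_iff₀ hq₀]; linarith
  have hmq : q₁ / q₀ * q₀ = q₁ := by field_simp
  have hs₀ : s₀ ∈ Set.Icc tI (tI + q₁) := hI ⟨le_refl _, by linarith⟩
  have hco : ∀ (t : ℝ) (i : Fin 2), (a + t • V - c.yc t) i = (a i - c.y0 i) + (V i - c.y1 i) * t := by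
    intro t i; simp [K3e1Ch.yc]; ring
  have hdo : ∀ t : ℝ, k3e1Dot c.nr (a + t • V - c.yc t) = k3e1Dot c.nr (a - c.y0) + k3e1Dot c.nr (V - c.y1) * t := by
    intro t; simp only [k3e1Dot, hco, Pi.sub_apply]; ring
  have E1 : ∀ i, _ := fun i => k3e1_extrap1 (a i - c.y0 i) (V i - c.y1 i) s₀ q₀ (q₁ / q₀) (K * q₀) hq₀ hm
    (fun t ht => by rw [← hco]; exact (h t ht).1 i)
  have E2 := k3e1_extrap1 (k3e1Dot c.nr (a - c.y0)) (k3e1Dot c.nr (V - c.y1)) s₀ q₀ (q₁ / q₀) (K * q₀ * g) hq₀ hm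
    (fun t ht => by rw [← hdo]; exact (h t ht).2)
  have e1 : 3 * (q₁ / q₀) * (K * q₀) = 3 * K * q₁ := by field_simp
  have e2 : 3 * (q₁ / q₀) * (K * q₀ * g) = 3 * K * q₁ * g := by field_simp
  refine ⟨fun t ht => ?_, fun i => ?_, ?_⟩
  · have hts : |t - s₀| ≤ q₁ / q₀ * q₀ := by
      rw [hmq, abs_le]; constructor <;> linarith [ht.1, ht.2, hs₀.1, hs₀.2]
    refine ⟨fun i => ?_, ?_⟩
    · rw [hco, ← e1]; exact (E1 i).1 t hts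
    · rw [hdo, ← e2]; exact E2.1 t hts
  · have := (E1 i).2
    have h2 : |V i - c.y1 i| * q₀ ≤ (2 * K) * q₀ := by linarith
    simpa using le_of_mul_le_mul_right h2 hq₀
  · have := E2.2
    have h2 : |k3e1Dot c.nr (V - c.y1)| * q₀ ≤ (2 * K * g) * q₀ := by linarith
    exact le_of_mul_le_mul_right h2 hq₀

theorem k3e1_dl_nb (c c' : K3e1Ch) (ty : Bool) (ks : ℤ) (gs q₁ tm K : ℝ) (ρ : ℕ) (hgs : 0 < gs) (hq₁ : 0 < q₁) (hK : 1 ≤ K)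
    (hv : |k3e1Dot (k3e1Nr ty (ks * gs)) c.y1 - k3e1Dot (k3e1Nr ty (ks * gs)) c'.y1| ≤ 14 * K * gs)
    (hp : |k3e1Dot (k3e1Rot (k3e1Nr ty (ks * gs))) (c.yc tm) - k3e1Dot (k3e1Rot (k3e1Nr ty (ks * gs))) (c'.yc tm)| ≤ 15 * K * q₁)
    (hn : |k3e1Dot (k3e1Nr ty (ks * gs)) (c.yc tm) - k3e1Dot (k3e1Nr ty (ks * gs)) (c'.yc tm)| ≤ 21 * K * (q₁ * gs))
    (hρ : 30 * K ≤ ρ) :
    k3e1FrAt gs q₁ tm c ty ks ∈ k3e1Nb ρ (k3e1FrAt gs q₁ tm c' ty ks) := by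
  have key : ∀ (x y d C : ℝ), 0 < d → |x - y| ≤ C * K * d → C + 1 ≤ 30 → ⌊x / d⌋ ∈ Finset.Icc (⌊y / d⌋ - (ρ : ℤ)) (⌊y / d⌋ + ρ) := by
    intro x y d C hd hxy hC
    apply k3e1_dl_floor_mem
    have : |x / d - y / d| ≤ C * K := by
      rw [← sub_div, abs_div, abs_of_pos hd, div_le_iff₀ hd]; exact hxy
    nlinarith
  simp only [k3e1Nb, k3e1FrAt, Finset.mem_image, Finset.mem_product, Prod.exists]
  exact ⟨_, _, _, ⟨⟨key _ _ gs 14 hgs hv (by norm_num), key _ _ q₁ 15 hq₁ hp (by norm_num)⟩,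
    key _ _ (q₁ * gs) 21 (mul_pos hq₁ hgs) hn (by norm_num)⟩, rfl⟩


/-- the three differences for a rounded normal `m` close to `c.nr` -/
theorem k3e1_dl_three (c c' : K3e1Ch) (a V m : Fin 2 → ℝ) (s₀ s₀' q₀ q₁ tI g gs K : ℝ) (hq₀ : 0 < q₀) (hq : q₀ ≤ q₁) (hK : 1 ≤ K)
    (hg : 0 < g) (hgs : g ≤ gs)
    (hI : Set.Icc s₀ (s₀ + q₀) ⊆ Set.Icc tI (tI + q₁)) (hI' : Set.Icc s₀' (s₀' + q₀) ⊆ Set.Icc tI (tI + q₁))
    (h : k3e1Fit c a V s₀ q₀ (K * q₀) (K * q₀ * g)) (h' : k3e1Fit c' a V s₀' q₀ (K * q₀) (K * q₀ * g))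
    (hm : |c.nr 0 - m 0| + |c.nr 1 - m 1| ≤ gs) (hm1 : |m 0| + |m 1| ≤ 5 / 2)
    (hx : ∀ (x : Fin 2 → ℝ) (X : ℝ), (∀ i, |x i| ≤ X) → |k3e1Dot c.nr x| ≤ 2 * |k3e1Dot c'.nr x| + 2 * gs * X) :
    |k3e1Dot m c.y1 - k3e1Dot m c'.y1| ≤ 14 * K * gs ∧
    |k3e1Dot (k3e1Rot m) (c.yc (tI + q₁ / 2)) - k3e1Dot (k3e1Rot m) (c'.yc (tI + q₁ / 2))| ≤ 15 * K * q₁ ∧
    |k3e1Dot m (c.yc (tI + q₁ / 2)) - k3e1Dot m (c'.yc (tI + q₁ / 2))| ≤ 21 * K * (q₁ * gs) := by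
  have hq₁ : 0 < q₁ := lt_of_lt_of_le hq₀ hq
  have hgs0 : 0 < gs := lt_of_lt_of_le hg hgs
  obtain ⟨A1, A2, A3⟩ := k3e1_dl_fit c a V s₀ q₀ q₁ tI g K hq₀ hq hI h
  obtain ⟨B1, B2, B3⟩ := k3e1_dl_fit c' a V s₀' q₀ q₁ tI g K hq₀ hq hI' h'
  have htm : tI + q₁ / 2 ∈ Set.Icc tI (tI + q₁) := ⟨by linarith, by linarith⟩
  obtain ⟨A4, A5⟩ := A1 _ htm
  obtain ⟨B4, B5⟩ := B1 _ htm
  set tm := tI + q₁ / 2 with htm_def
  have hKg : K * g ≤ K * gs := mul_le_mul_of_nonneg_left hgs (by linarith)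
  have hKq : 0 < K * q₁ := mul_pos (by linarith) hq₁
  have hKqg : K * q₁ * g ≤ K * q₁ * gs := mul_le_mul_of_nonneg_left hgs hKq.le
  refine ⟨?_, ?_, ?_⟩
  · have e : k3e1Dot m c.y1 - k3e1Dot m c'.y1 = k3e1Dot m (V - c'.y1) - k3e1Dot m (V - c.y1) := by
      simp only [k3e1Dot, Pi.sub_apply]; ring
    have u1 := k3e1_dl_dot_le c.nr m (V - c.y1) gs (2 * K) hm A2
    have u2 := k3e1_dl_dot_le c.nr m (V - c'.y1) gs (2 * K) hm B2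
    have u3 := hx (V - c'.y1) (2 * K) B2
    rw [e]
    calc |k3e1Dot m (V - c'.y1) - k3e1Dot m (V - c.y1)| ≤ |k3e1Dot m (V - c'.y1)| + |k3e1Dot m (V - c.y1)| := abs_sub _ _
      _ ≤ 14 * K * gs := by nlinarith
  · have e : k3e1Dot (k3e1Rot m) (c.yc tm) - k3e1Dot (k3e1Rot m) (c'.yc tm)
        = k3e1Dot (k3e1Rot m) (a + tm • V - c'.yc tm) - k3e1Dot (k3e1Rot m) (a + tm • V - c.yc tm) := by
      simp only [k3e1Dot, Pi.sub_apply]; ring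
    have hr : |k3e1Rot m 0| + |k3e1Rot m 1| ≤ 5 / 2 := by simp [k3e1Rot]; linarith
    have u1 := k3e1_dl_dot_sup (k3e1Rot m) _ (5 / 2) (3 * K * q₁) hr A4
    have u2 := k3e1_dl_dot_sup (k3e1Rot m) _ (5 / 2) (3 * K * q₁) hr B4
    rw [e]
    calc _ ≤ |k3e1Dot (k3e1Rot m) (a + tm • V - c'.yc tm)| + |k3e1Dot (k3e1Rot m) (a + tm • V - c.yc tm)| := abs_sub _ _
      _ ≤ 15 * K * q₁ := by linarith
  · have e : k3e1Dot m (c.yc tm) - k3e1Dot m (c'.yc tm)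
        = k3e1Dot m (a + tm • V - c'.yc tm) - k3e1Dot m (a + tm • V - c.yc tm) := by
      simp only [k3e1Dot, Pi.sub_apply]; ring
    have u1 := k3e1_dl_dot_le c.nr m _ gs (3 * K * q₁) hm A4
    have u2 := k3e1_dl_dot_le c.nr m _ gs (3 * K * q₁) hm B4
    have u3 := hx _ (3 * K * q₁) B4
    rw [e]
    calc _ ≤ |k3e1Dot m (a + tm • V - c'.yc tm)| + |k3e1Dot m (a + tm • V - c.yc tm)| := abs_sub _ _
      _ ≤ 21 * K * (q₁ * gs) := by nlinarith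


/-- crude version for `gs > 1/2` -/
theorem k3e1_dl_three' (c c' : K3e1Ch) (a V m : Fin 2 → ℝ) (s₀ s₀' q₀ q₁ tI g gs K : ℝ) (hq₀ : 0 < q₀) (hq : q₀ ≤ q₁) (hK : 1 ≤ K)
    (hgs : 1 / 2 < gs)
    (hI : Set.Icc s₀ (s₀ + q₀) ⊆ Set.Icc tI (tI + q₁)) (hI' : Set.Icc s₀' (s₀' + q₀) ⊆ Set.Icc tI (tI + q₁))
    (h : k3e1Fit c a V s₀ q₀ (K * q₀) (K * q₀ * g)) (h' : k3e1Fit c' a V s₀' q₀ (K * q₀) (K * q₀ * g))
    (hm1 : |m 0| + |m 1| ≤ 1) :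
    |k3e1Dot m c.y1 - k3e1Dot m c'.y1| ≤ 14 * K * gs ∧
    |k3e1Dot (k3e1Rot m) (c.yc (tI + q₁ / 2)) - k3e1Dot (k3e1Rot m) (c'.yc (tI + q₁ / 2))| ≤ 15 * K * q₁ ∧
    |k3e1Dot m (c.yc (tI + q₁ / 2)) - k3e1Dot m (c'.yc (tI + q₁ / 2))| ≤ 21 * K * (q₁ * gs) := by
  have hq₁ : 0 < q₁ := lt_of_lt_of_le hq₀ hq
  obtain ⟨A1, A2, A3⟩ := k3e1_dl_fit c a V s₀ q₀ q₁ tI g K hq₀ hq hI h
  obtain ⟨B1, B2, B3⟩ := k3e1_dl_fit c' a V s₀' q₀ q₁ tI g K hq₀ hq hI' h'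
  have htm : tI + q₁ / 2 ∈ Set.Icc tI (tI + q₁) := ⟨by linarith, by linarith⟩
  obtain ⟨A4, A5⟩ := A1 _ htm
  obtain ⟨B4, B5⟩ := B1 _ htm
  set tm := tI + q₁ / 2 with htm_def
  have hKq : 0 < K * q₁ := mul_pos (by linarith) hq₁
  have hK0 : 0 < K := by linarith
  refine ⟨?_, ?_, ?_⟩
  · have e : k3e1Dot m c.y1 - k3e1Dot m c'.y1 = k3e1Dot m (V - c'.y1) - k3e1Dot m (V - c.y1) := by
      simp only [k3e1Dot, Pi.sub_apply]; ring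
    have u1 := k3e1_dl_dot_sup m (V - c.y1) 1 (2 * K) hm1 A2
    have u2 := k3e1_dl_dot_sup m (V - c'.y1) 1 (2 * K) hm1 B2
    rw [e]
    calc |k3e1Dot m (V - c'.y1) - k3e1Dot m (V - c.y1)| ≤ |k3e1Dot m (V - c'.y1)| + |k3e1Dot m (V - c.y1)| := abs_sub _ _
      _ ≤ 14 * K * gs := by nlinarith
  · have e : k3e1Dot (k3e1Rot m) (c.yc tm) - k3e1Dot (k3e1Rot m) (c'.yc tm)
        = k3e1Dot (k3e1Rot m) (a + tm • V - c'.yc tm) - k3e1Dot (k3e1Rot m) (a + tm • V - c.yc tm) := by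
      simp only [k3e1Dot, Pi.sub_apply]; ring
    have hr : |k3e1Rot m 0| + |k3e1Rot m 1| ≤ 1 := by simp [k3e1Rot]; linarith
    have u1 := k3e1_dl_dot_sup (k3e1Rot m) _ 1 (3 * K * q₁) hr A4
    have u2 := k3e1_dl_dot_sup (k3e1Rot m) _ 1 (3 * K * q₁) hr B4
    rw [e]
    calc _ ≤ |k3e1Dot (k3e1Rot m) (a + tm • V - c'.yc tm)| + |k3e1Dot (k3e1Rot m) (a + tm • V - c.yc tm)| := abs_sub _ _
      _ ≤ 15 * K * q₁ := by nlinarith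
  · have e : k3e1Dot m (c.yc tm) - k3e1Dot m (c'.yc tm)
        = k3e1Dot m (a + tm • V - c'.yc tm) - k3e1Dot m (a + tm • V - c.yc tm) := by
      simp only [k3e1Dot, Pi.sub_apply]; ring
    have u1 := k3e1_dl_dot_sup m _ 1 (3 * K * q₁) hm1 A4
    have u2 := k3e1_dl_dot_sup m _ 1 (3 * K * q₁) hm1 B4
    rw [e]
    calc _ ≤ |k3e1Dot m (a + tm • V - c'.yc tm)| + |k3e1Dot m (a + tm • V - c.yc tm)| := abs_sub _ _
      _ ≤ 21 * K * (q₁ * gs) := by nlinarith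

theorem k3e1_dl_nr_abs (ty : Bool) (s : ℝ) (hs : |s| ≤ 1) (i : Fin 2) : |k3e1Nr ty s i| ≤ 1 := by
  cases ty <;> fin_cases i <;> simp [k3e1Nr, hs]

theorem k3e1_dl_nr_sq (ty : Bool) (s : ℝ) : 1 ≤ k3e1Dot (k3e1Nr ty s) (k3e1Nr ty s) := by
  cases ty <;> simp [k3e1Nr, k3e1Dot] <;> nlinarith [mul_self_nonneg s]

theorem k3e1_dl_nr_diff (ty : Bool) (s s' : ℝ) :
    |k3e1Nr ty s 0 - k3e1Nr ty s' 0| + |k3e1Nr ty s 1 - k3e1Nr ty s' 1| = |s - s'| := by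
  cases ty <;> simp [k3e1Nr]

theorem k3e1_dl_nr_l1 (ty : Bool) (s : ℝ) : |k3e1Nr ty s 0| + |k3e1Nr ty s 1| = 1 + |s| := by
  cases ty <;> simp [k3e1Nr, add_comm]

theorem k3e1_dl_crs_same (ty : Bool) (s s' : ℝ) : |k3e1Crs (k3e1Nr ty s) (k3e1Nr ty s')| = |s - s'| := by
  cases ty <;> simp [k3e1Nr, k3e1Crs, abs_sub_comm]

theorem k3e1_dl_crs_diff (ty : Bool) (s s' : ℝ) : |k3e1Crs (k3e1Nr ty s) (k3e1Nr (!ty) s')| = |1 - s * s'| := by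
  cases ty <;> simp [k3e1Nr, k3e1Crs, abs_sub_comm]


/-- **LEAF L-252-S3e1-G5** (l.1110-1130, ~350 l.).  **The witness chart lists the box of the source chart.**
PROOF.  Slopes (`gs ≤ 1/2`): same type: `Crs = ±(s' - s)`, floors differ by `≤ 1`.  Different types: `Crs = ±(1 - s s')`, so `s s' ≥ 1/2`, `|s'| ≥ 1/2`, `|s - 1/s'| ≤ 2 gs`, floors differ by `≤ 2`.
Identity `(n·x) |n'|² = (n·n')(n'·x) + Crs n n' · Crs x n'` gives `|n_c·x| ≤ 2 |n_c'·x| + 2 gs |x|_∞`.   With `e, e₂` the deviations of the common line from the two centres (bounds as in `k3e1_trace`):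
`|n̂·(y1 - y1')| ≤ |n̂·e'| + |n̂·e₂'| ≤ 4Kgs + 10Kgs`;   `|n̂·(y_c - y_c')(tm)| ≤ 6Kq₁gs + 15Kq₁gs`;   `|τ̂·(y_c - y_c')(tm)| ≤ 15Kq₁`;   `|⌊x⌋ - ⌊y⌋| ≤ |x - y| + 1`.  Case `gs > 1/2`: crude sup bounds. -/
theorem k3e1_DL_mem (c c' : K3e1Ch) (a V : Fin 2 → ℝ) (s₀ s₀' q₀ q₁ tI g gs K : ℝ) (ρ : ℕ) (hq₀ : 0 < q₀) (hq : q₀ ≤ q₁) (hK : 1 ≤ K) (hg : 0 < g) (hgs : g ≤ gs) (hgs1 : gs ≤ 1)
    (hs : |c.s| ≤ 1) (hs' : |c'.s| ≤ 1) (hI : Set.Icc s₀ (s₀ + q₀) ⊆ Set.Icc tI (tI + q₁)) (hI' : Set.Icc s₀' (s₀' + q₀) ⊆ Set.Icc tI (tI + q₁))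
    (h : k3e1Fit c a V s₀ q₀ (K * q₀) (K * q₀ * g)) (h' : k3e1Fit c' a V s₀' q₀ (K * q₀) (K * q₀ * g))
    (hcr : gs ≤ 1 / 2 → |k3e1Crs c.nr c'.nr| ≤ gs) (hρ : 30 * K ≤ ρ) :
    k3e1FrOf gs q₁ (tI + q₁ / 2) c ∈ k3e1DL gs q₁ (tI + q₁ / 2) ρ c' := by
  have hq₁ : 0 < q₁ := lt_of_lt_of_le hq₀ hq
  have hgs0 : 0 < gs := lt_of_lt_of_le hg hgs
  by_cases hh : gs ≤ 1 / 2
  · have hc := hcr hh
    simp only [k3e1FrOf, k3e1DL, if_pos hh]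
    set ks : ℤ := ⌊c.s / gs⌋ with hks
    have f1 : (ks : ℝ) * gs ≤ c.s := by
      have := Int.floor_le (c.s / gs); rw [le_div_iff₀ hgs0] at this; exact this
    have f2 : c.s < ((ks : ℝ) + 1) * gs := by
      have := Int.lt_floor_add_one (c.s / gs); rw [div_lt_iff₀ hgs0] at this; exact this
    have f3 : |c.s - (ks : ℝ) * gs| ≤ gs := by
      rw [abs_le]; constructor <;> nlinarith
    have f4 : |(ks : ℝ) * gs| ≤ 3 / 2 := by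
      have := abs_le.1 hs
      rw [abs_le]; constructor <;> nlinarith
    obtain ⟨T1, T2, T3⟩ := k3e1_dl_three c c' a V (k3e1Nr c.ty (ks * gs)) s₀ s₀' q₀ q₁ tI g gs K hq₀ hq hK hg hgs hI hI' h h'
      (by rw [K3e1Ch.nr, k3e1_dl_nr_diff]; exact f3) (by rw [k3e1_dl_nr_l1]; linarith)
      (fun x X hx => k3e1_dl_cross c.nr c'.nr x gs X (k3e1_dl_nr_abs _ _ hs) (k3e1_dl_nr_abs _ _ hs') (k3e1_dl_nr_sq _ _) hc hx)
    have N := k3e1_dl_nb c c' c.ty ks gs q₁ (tI + q₁ / 2) K ρ hgs0 hq₁ hK T1 T2 T3 hρ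
    rw [Finset.mem_union]
    by_cases hty : c.ty = c'.ty
    · left
      rw [Finset.mem_biUnion]
      refine ⟨ks, ?_, by rw [← hty]; exact N⟩
      have d1 : |c.s - c'.s| ≤ gs := by
        rw [K3e1Ch.nr, K3e1Ch.nr, ← hty, k3e1_dl_crs_same] at hc; exact hc
      have d2 : |c.s / gs - c'.s / gs| ≤ ((2 : ℕ) : ℝ) := by
        rw [← sub_div, abs_div, abs_of_pos hgs0, div_le_iff₀ hgs0]; push_cast; linarith
      exact_mod_cast k3e1_dl_floor_near _ _ 2 d2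
    · right
      have hty' : c.ty = !c'.ty := by
        cases h1 : c.ty <;> cases h2 : c'.ty <;> simp_all
      have hty2 : c'.ty = !c.ty := by rw [hty']; simp
      rw [Finset.mem_biUnion]
      refine ⟨ks, ?_, by rw [← hty']; exact N⟩
      have d1 : |1 - c.s * c'.s| ≤ gs := by
        rw [K3e1Ch.nr, K3e1Ch.nr, hty2, k3e1_dl_crs_diff] at hc; exact hc
      have d1' := abs_le.1 d1
      have hss : 1 / 2 ≤ c.s * c'.s := by linarith [d1'.2]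
      have hs'2 : 1 / 2 ≤ |c'.s| := by
        have : c.s * c'.s ≤ |c.s| * |c'.s| := by rw [← abs_mul]; exact le_abs_self _
        nlinarith [abs_nonneg c'.s, abs_nonneg c.s]
      have hs'0 : c'.s ≠ 0 := by
        intro h0; rw [h0] at hs'2; simp at hs'2; linarith
      have d3 : |c.s - c'.s⁻¹| ≤ 2 * gs := by
        have e : c.s - c'.s⁻¹ = -(1 - c.s * c'.s) / c'.s := by field_simp; ring
        rw [e, abs_div, abs_neg, div_le_iff₀ (by linarith)]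
        nlinarith
      have d2 : |c.s / gs - c'.s⁻¹ / gs| ≤ ((4 : ℕ) : ℝ) := by
        rw [← sub_div, abs_div, abs_of_pos hgs0, div_le_iff₀ hgs0]; push_cast; linarith
      exact_mod_cast k3e1_dl_floor_near _ _ 4 d2
  · simp only [k3e1FrOf, k3e1DL, if_neg hh]
    have hh := not_le.1 hh
    obtain ⟨T1, T2, T3⟩ := k3e1_dl_three' c c' a V (k3e1Nr false (((0 : ℤ) : ℝ) * gs)) s₀ s₀' q₀ q₁ tI g gs K hq₀ hq hK hh hI hI' h h'
      (by rw [k3e1_dl_nr_l1]; simp)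
    exact k3e1_dl_nb c c' false 0 gs q₁ (tI + q₁ / 2) K ρ hgs0 hq₁ hK T1 T2 T3 hρ

theorem k3e1_Icc_card (k : ℤ) (ρ : ℕ) : (Finset.Icc (k - ρ) (k + ρ)).card = 2 * ρ + 1 := by
  rw [Int.card_Icc]
  have e : k + ρ + 1 - (k - ρ) = ((2 * ρ + 1 : ℕ) : ℤ) := by push_cast; ring
  rw [e, Int.toNat_natCast]

theorem k3e1_Nb_card (ρ : ℕ) (F : K3e1Fr) : (k3e1Nb ρ F).card ≤ (2 * ρ + 1) ^ 3 := by
  unfold k3e1Nb
  refine Finset.card_image_le.trans (le_of_eq ?_)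
  rw [Finset.card_product, Finset.card_product, k3e1_Icc_card, k3e1_Icc_card, k3e1_Icc_card]
  ring

/-- **LEAF L-252-S3e1-G6** (~60 l.).  (`Finset.card_image_le`, `Finset.card_product`, `Int.card_Icc`, `Finset.card_biUnion_le`, `Finset.card_union_le`.) -/
theorem k3e1_DL_card (gs q₁ tm : ℝ) (ρ : ℕ) (c' : K3e1Ch) : (k3e1DL gs q₁ tm ρ c').card ≤ 14 * (2 * ρ + 1) ^ 3 := by
  unfold k3e1DL
  split_ifs
  · refine (Finset.card_union_le _ _).trans ?_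
    have h1 : ((Finset.Icc (⌊c'.s / gs⌋ - 2) (⌊c'.s / gs⌋ + 2)).biUnion fun ks =>
        k3e1Nb ρ (k3e1FrAt gs q₁ tm c' c'.ty ks)).card ≤ 5 * (2 * ρ + 1) ^ 3 := by
      refine (Finset.card_biUnion_le_card_mul _ _ _ fun ks _ => k3e1_Nb_card ρ _).trans (le_of_eq ?_)
      have := k3e1_Icc_card ⌊c'.s / gs⌋ 2
      push_cast at this
      rw [this]
    have h2 : ((Finset.Icc (⌊c'.s⁻¹ / gs⌋ - 4) (⌊c'.s⁻¹ / gs⌋ + 4)).biUnion fun ks =>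
        k3e1Nb ρ (k3e1FrAt gs q₁ tm c' (!c'.ty) ks)).card ≤ 9 * (2 * ρ + 1) ^ 3 := by
      refine (Finset.card_biUnion_le_card_mul _ _ _ fun ks _ => k3e1_Nb_card ρ _).trans (le_of_eq ?_)
      have := k3e1_Icc_card ⌊c'.s⁻¹ / gs⌋ 4
      push_cast at this
      rw [this]
    linarith
  · refine (k3e1_Nb_card ρ _).trans ?_
    have : 0 ≤ (2 * ρ + 1) ^ 3 := Nat.zero_le _
    linarith

/-! ## the box as a chart: matrix, inverse, Jacobian -/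

/-- squared Euclidean length of the rounded normal -/
def K3e1Fr.nn (F : K3e1Fr) (gs : ℝ) : ℝ := k3e1Dot (F.nr gs) (F.nr gs)

/-- the matrix of the box dilated by `Λ`: columns `Λ q₁ τ̂/|n̂|²`, `Λ q₁ gs n̂/|n̂|²` -/
def K3e1Fr.mat (F : K3e1Fr) (gs q₁ Λ : ℝ) : Matrix (Fin 2) (Fin 2) ℝ :=
  Matrix.of fun i k => if k = 0 then Λ * q₁ * k3e1Rot (F.nr gs) i / F.nn gs else Λ * q₁ * gs * F.nr gs i / F.nn gs

/-- its inverse: rows `τ̂/(Λ q₁)`, `n̂/(Λ q₁ gs)` -/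
def K3e1Fr.inv (F : K3e1Fr) (gs q₁ Λ : ℝ) : Matrix (Fin 2) (Fin 2) ℝ :=
  Matrix.of fun i k => if i = 0 then k3e1Rot (F.nr gs) k / (Λ * q₁) else F.nr gs k / (Λ * q₁ * gs)

/-- the centre at time `0` and its velocity -/
def K3e1Fr.c1 (F : K3e1Fr) (gs : ℝ) : Fin 2 → ℝ := (F.kv * gs / F.nn gs) • F.nr gs

def K3e1Fr.c0 (F : K3e1Fr) (gs q₁ tm : ℝ) : Fin 2 → ℝ :=
  (F.kp * q₁ / F.nn gs) • k3e1Rot (F.nr gs) + ((F.kn * (q₁ * gs) - tm * (F.kv * gs)) / F.nn gs) • F.nr gs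

theorem k3e1_geo_eqns_cite2 : True := by
  have := @K3e1Fr.nn.eq_1
  have := @K3e1Fr.mat.eq_1
  have := @K3e1Fr.inv.eq_1
  have := @K3e1Fr.c1.eq_1
  have := @K3e1Fr.c0.eq_1
  trivial

/-- **LEAF L-252-S3e1-G7** (~150 l.).  The box is a chart: `D Di = 1`, the chart coordinates are the scaled offsets, `J = Λ² q₁² gs / |n̂|² ≤ Λ² q₁² gs`, size `≤ 4 Λ q₁`.
(`1 ≤ |n̂|²`: one entry of `n̂` is `1`.  `Matrix.det_fin_two`, `Fin.sum_univ_two`, `field_simp`, `ring`; both types.) -/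
theorem k3e1_box_chart (F : K3e1Fr) (gs q₁ tm Λ : ℝ) (hgs : 0 < gs) (hgs1 : gs ≤ 1) (hq : 0 < q₁) (hΛ : 0 < Λ) (hks : |(F.ks : ℝ) * gs| ≤ 2) :
    F.mat gs q₁ Λ * F.inv gs q₁ Λ = 1 ∧
    (∀ (t : ℝ) (y : Fin 2 → ℝ), (F.inv gs q₁ Λ).mulVec (y - (F.c0 gs q₁ tm + t • F.c1 gs)) = ![F.xt gs q₁ y / (Λ * q₁), F.xn gs q₁ tm t y / (Λ * q₁ * gs)]) ∧
    |(F.mat gs q₁ Λ).det| = Λ ^ 2 * q₁ ^ 2 * gs / F.nn gs ∧ 1 ≤ F.nn gs ∧ (∑ i, ∑ k, |F.mat gs q₁ Λ i k|) ≤ 6 * Λ * q₁ := by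
  obtain ⟨x, hx⟩ : ∃ x : ℝ, x = F.nr gs 0 := ⟨_, rfl⟩
  obtain ⟨y', hy'⟩ : ∃ y : ℝ, y = F.nr gs 1 := ⟨_, rfl⟩
  have hnn : F.nn gs = x ^ 2 + y' ^ 2 := by
    rw [K3e1Fr.nn, k3e1Dot, ← hx, ← hy']
    ring
  have hxy : (x = 1 ∧ |y'| ≤ 2) ∨ (y' = 1 ∧ |x| ≤ 2) := by
    rw [hx, hy']
    unfold K3e1Fr.nr k3e1Nr
    cases F.ty
    · left
      simpa using hks
    · right
      simpa using hks
  have h1 : 1 ≤ x ^ 2 + y' ^ 2 := by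
    rcases hxy with ⟨h, -⟩ | ⟨h, -⟩
    · rw [h]; nlinarith [sq_nonneg y']
    · rw [h]; nlinarith [sq_nonneg x]
  have hN : 0 < x ^ 2 + y' ^ 2 := by linarith
  have hr0 : k3e1Rot (F.nr gs) 0 = -y' := by simp [k3e1Rot, hy']
  have hr1 : k3e1Rot (F.nr gs) 1 = x := by simp [k3e1Rot, hx]
  have m00 : F.mat gs q₁ Λ 0 0 = Λ * q₁ * (-y') / (x ^ 2 + y' ^ 2) := by simp [K3e1Fr.mat, hr0, hnn]
  have m10 : F.mat gs q₁ Λ 1 0 = Λ * q₁ * x / (x ^ 2 + y' ^ 2) := by simp [K3e1Fr.mat, hr1, hnn]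
  have m01 : F.mat gs q₁ Λ 0 1 = Λ * q₁ * gs * x / (x ^ 2 + y' ^ 2) := by simp [K3e1Fr.mat, ← hx, hnn]
  have m11 : F.mat gs q₁ Λ 1 1 = Λ * q₁ * gs * y' / (x ^ 2 + y' ^ 2) := by simp [K3e1Fr.mat, ← hy', hnn]
  have i00 : F.inv gs q₁ Λ 0 0 = -y' / (Λ * q₁) := by simp [K3e1Fr.inv, hr0]
  have i01 : F.inv gs q₁ Λ 0 1 = x / (Λ * q₁) := by simp [K3e1Fr.inv, hr1]
  have i10 : F.inv gs q₁ Λ 1 0 = x / (Λ * q₁ * gs) := by simp [K3e1Fr.inv, ← hx]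
  have i11 : F.inv gs q₁ Λ 1 1 = y' / (Λ * q₁ * gs) := by simp [K3e1Fr.inv, ← hy']
  refine ⟨?_, ?_, ?_, hnn ▸ h1, ?_⟩
  · ext i k
    fin_cases i <;> fin_cases k
    · simp only [Fin.zero_eta, Fin.isValue, Matrix.mul_apply, Fin.sum_univ_two, m00, m01, i00, i10, Matrix.one_apply_eq]
      field_simp
      ring
    · simp only [Fin.zero_eta, Fin.mk_one, Fin.isValue, Matrix.mul_apply, Fin.sum_univ_two, m00, m01, i01, i11]
      rw [Matrix.one_apply_ne (by decide)]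
      field_simp
      ring
    · simp only [Fin.zero_eta, Fin.mk_one, Fin.isValue, Matrix.mul_apply, Fin.sum_univ_two, m10, m11, i00, i10]
      rw [Matrix.one_apply_ne (by decide)]
      field_simp
      ring
    · simp only [Fin.mk_one, Fin.isValue, Matrix.mul_apply, Fin.sum_univ_two, m10, m11, i01, i11, Matrix.one_apply_eq]
      field_simp
  · intro t y
    ext i
    fin_cases i
    · simp only [Fin.zero_eta, Fin.isValue, Matrix.mulVec, dotProduct, Fin.sum_univ_two, i00, i01, Pi.sub_apply, Pi.add_apply,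
        Pi.smul_apply, smul_eq_mul, K3e1Fr.c0, K3e1Fr.c1, hr0, hr1, ← hx, ← hy', hnn, Matrix.cons_val_zero, K3e1Fr.xt, k3e1Dot]
      field_simp
      ring
    · simp only [Fin.mk_one, Fin.isValue, Matrix.mulVec, dotProduct, Fin.sum_univ_two, i10, i11, Pi.sub_apply, Pi.add_apply,
        Pi.smul_apply, smul_eq_mul, K3e1Fr.c0, K3e1Fr.c1, hr0, hr1, ← hx, ← hy', hnn, Matrix.cons_val_one, Matrix.cons_val_zero,
        K3e1Fr.xn, k3e1Dot]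
      field_simp
      ring
  · rw [Matrix.det_fin_two, m00, m01, m10, m11, hnn]
    have e : Λ * q₁ * (-y') / (x ^ 2 + y' ^ 2) * (Λ * q₁ * gs * y' / (x ^ 2 + y' ^ 2))
        - Λ * q₁ * gs * x / (x ^ 2 + y' ^ 2) * (Λ * q₁ * x / (x ^ 2 + y' ^ 2)) = -(Λ ^ 2 * q₁ ^ 2 * gs / (x ^ 2 + y' ^ 2)) := by
      field_simp
      ring
    rw [e, abs_neg, abs_of_pos (by positivity)]
  · simp only [Fin.sum_univ_two, m00, m01, m10, m11]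
    have hT : (|x| + |y'|) / (x ^ 2 + y' ^ 2) ≤ 3 / 2 := by
      rw [div_le_iff₀ hN]
      rcases hxy with ⟨h, -⟩ | ⟨h, -⟩
      · rw [h, abs_one]
        nlinarith [sq_abs y', sq_nonneg (|y'| - 1)]
      · rw [h, abs_one]
        nlinarith [sq_abs x, sq_nonneg (|x| - 1)]
    have hT0 : 0 ≤ (|x| + |y'|) / (x ^ 2 + y' ^ 2) := by positivity
    have a00 : |Λ * q₁ * (-y') / (x ^ 2 + y' ^ 2)| = Λ * q₁ * |y'| / (x ^ 2 + y' ^ 2) := by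
      rw [abs_div, abs_mul, abs_neg, abs_of_pos (mul_pos hΛ hq), abs_of_pos hN]
    have a10 : |Λ * q₁ * x / (x ^ 2 + y' ^ 2)| = Λ * q₁ * |x| / (x ^ 2 + y' ^ 2) := by
      rw [abs_div, abs_mul, abs_of_pos (mul_pos hΛ hq), abs_of_pos hN]
    have a01 : |Λ * q₁ * gs * x / (x ^ 2 + y' ^ 2)| = Λ * q₁ * gs * |x| / (x ^ 2 + y' ^ 2) := by
      rw [abs_div, abs_mul, abs_of_pos (mul_pos (mul_pos hΛ hq) hgs), abs_of_pos hN]
    have a11 : |Λ * q₁ * gs * y' / (x ^ 2 + y' ^ 2)| = Λ * q₁ * gs * |y'| / (x ^ 2 + y' ^ 2) := by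
      rw [abs_div, abs_mul, abs_of_pos (mul_pos (mul_pos hΛ hq) hgs), abs_of_pos hN]
    rw [a00, a10, a01, a11]
    have e : Λ * q₁ * |y'| / (x ^ 2 + y' ^ 2) + Λ * q₁ * gs * |x| / (x ^ 2 + y' ^ 2)
        + (Λ * q₁ * |x| / (x ^ 2 + y' ^ 2) + Λ * q₁ * gs * |y'| / (x ^ 2 + y' ^ 2))
        = Λ * q₁ * ((1 + gs) * ((|x| + |y'|) / (x ^ 2 + y' ^ 2))) := by
      field_simp
      ring
    rw [e]
    have h3 : (1 + gs) * ((|x| + |y'|) / (x ^ 2 + y' ^ 2)) ≤ 2 * (3 / 2) :=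
      mul_le_mul (by linarith) hT hT0 (by norm_num)
    have h4 : 0 < Λ * q₁ := mul_pos hΛ hq
    nlinarith

end

end Claimed.Agent.R252

end PkS3e1GeoContract

section PkS3e1Defs

/-!
# ROW 252 (S0492), unit S3e1 (sub-architect helper215, chief helper70), file 0: PAIRS INDEXED BY LABEL PAIRS: DEFINITIONS  (design note D1)      -- KEEP
No sorry.   `Y` = old terminal system (level `n₀ = Y.n`), `n₁ ≤ n₀` = level of the longer blocks, `q₁ = kbQ n₁`.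
* `k3e1Bk Y n₁ c`    the block of level `n₁` which contains the interval of the old label `c`;     `k3e1Adm Y n₁ c c'` : same world, same block;
* `k3e1PrC Y c c'`   `= {(l, t₀, t) | (l,t₀) ∈ Y.S c, (l,t) ∈ Y.S c'}`  (pairwise disjoint for label pairs of one world);
* `k3e1Law P n₁ γ`   `= ν_γ × dt₀/q₁ × dt/q₁`  (on `block × block` this is `ν_γ × unif × unif`);
* `k3e1PM Y n₁ X`    `= ∑_{(c,c') admissible} ω q₁ · Law (PrC c c' ∩ X c c')`  : the pair mass of a family of events;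
* `k3e1Z0`, `k3e1Om0` the source base point in the coordinates of a frame, the normalised hidden value `ω₀ = B w (t₀)` at the source.
-/

set_option autoImplicit false

namespace Claimed.Agent.R252

open MeasureTheory
open scoped ENNReal BigOperators

noncomputable section

variable {v : KbVer} {P : KbPb v}

/-- the block of level `n₁` which contains the interval of the old label `c` -/
def k3e1Bk (Y : KbSys P) (n₁ : ℕ) (c : Y.C) : ℕ := Y.iv c / 2 ^ (Y.n - n₁)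

/-- the closed block -/
def k3e1Ic (Y : KbSys P) (n₁ : ℕ) (c : Y.C) : Set ℝ := Set.Icc ((k3e1Bk Y n₁ c : ℝ) * kbQ n₁) (((k3e1Bk Y n₁ c : ℝ) + 1) * kbQ n₁)

/-- label pairs of one world and one block -/
def k3e1Adm (Y : KbSys P) (n₁ : ℕ) (c c' : Y.C) : Prop := Y.wd c = Y.wd c' ∧ k3e1Bk Y n₁ c = k3e1Bk Y n₁ c'

/-- the pairs `(l, t₀, t)` with source label `c` and witness label `c'` -/
def k3e1PrC (Y : KbSys P) (c c' : Y.C) : Set (P.Lam × ℝ × ℝ) := {x | (x.1, x.2.1) ∈ Y.S c ∧ (x.1, x.2.2) ∈ Y.S c'}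

/-- `ν_γ × dt₀/q₁ × dt/q₁` -/
def k3e1Law (P : KbPb v) (n₁ : ℕ) (γ : P.W) : Measure (P.Lam × ℝ × ℝ) := ((2 : ℝ≥0∞) ^ n₁ * 2 ^ n₁) • (P.nu γ).prod (KbPb.tm.prod KbPb.tm)

open Classical in
/-- **the pair mass** of a family of events -/
def k3e1PM (Y : KbSys P) (n₁ : ℕ) (X : Y.C → Y.C → Set (P.Lam × ℝ × ℝ)) : ℝ≥0∞ :=
  ∑ c, ∑ c', if k3e1Adm Y n₁ c c' then P.om (Y.wd c) * ENNReal.ofReal (kbQ n₁) * k3e1Law P n₁ (Y.wd c) (k3e1PrC Y c c' ∩ X c c') else 0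

/-- the source base point of a pair with source label `c` in the coordinates of the frame `F` -/
def k3e1Z0 (Y : KbSys P) (n₁ : ℕ) (F : K3bFrm v) (c : Y.C) (x : P.Lam × ℝ × ℝ) : Fin (v.j + 1) → ℝ := F.zl n₁ (k3e1Bk Y n₁ c) (P.co (Y.wd c) x.1) x.2.1

/-- the normalised hidden value at the source -/
def k3e1Om0 (Y : KbSys P) (c : Y.C) (x : P.Lam × ℝ × ℝ) : ℝ := P.B (Y.wd c) * kbW (P.co (Y.wd c) x.1) x.2.1

theorem k3e1_defs_eqns_cite : True := by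
  have := @k3e1Bk.eq_1
  have := @k3e1Ic.eq_1
  have := @k3e1Adm.eq_1
  have := @k3e1PrC.eq_1
  have := @k3e1Law.eq_1
  have := @k3e1PM.eq_1
  have := @k3e1Z0.eq_1
  have := @k3e1Om0.eq_1
  trivial

end

end Claimed.Agent.R252

end PkS3e1Defs

section PkS3e1FrameContract

/-!
# ROW 252 (S0492), unit S3e1 (sub-architect helper215, chief helper70): CONTRACT, file 7: THE COARSE MOVING FRAMES IN BOTH MODEL VERSIONS
`03-comparison.tex` l.1037-1046, l.1092-1137.   Wiring of the planar geometry `S3e1/GeoContract.lean` (CLOSED) to the vocabulary `KbB v`, `KbChart v`, `KbTj v`, `K3bFrm v`.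

PAPER-FREE.  Prefix `k3e1_` / `k3e1`.  Every `sorry` is a leaf `L-252-S3e1-F*`: prove IN PLACE, statement verbatim, helper lemmas directly above (same prefix).
ALL PROOFS START WITH `cases v`.   Version two: `KbB .two` is DEFINITIONALLY `Fin 2 → ℝ` (`KbVer.j .two = 2` by `rfl`; use `show`/`change`, `Fin.sum_univ_two`, `pi_norm_le_iff_of_nonneg`, `Fin.forall_fin_two`), then cite `GeoContract`.
Version one (`Fin 1 → ℝ`, `g = gs = 1`): static grid of spacing `q₁`; direct proofs with `k3e1_extrap1` (`Fin.forall_fin_one`, `Matrix.det_fin_one`/`Matrix.det_unique`, `Fin.sum_univ_one`).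
DATA of an old chart: Euclidean unit normal `nrm` (`nrm ⬝ᵥ nrm = 1`, from `K3bAxes`), centre `ch.y0 + t ch.y1`.   `tI` = left end point of the new block, `tm = tI + q₁/2`, `Λ` = common dilation.
A trajectory `l` FITS `(nrm, ch)` on `[s₀, s₀+q₀)`: `‖y - y_c‖ ≤ K q₀`, `|nrm · (y - y_c)| ≤ K q₀ g`.   Passage to `k3e1Fit`: closed interval `[s₀, s₀ + q₀/2]`, constant `4K` (`q₀' = q₀/2`; sup-normalised normal `= nrm / (largest entry)`, largest entry `≥ 1/2`).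
-/

set_option autoImplicit false

namespace Claimed.Agent.R252

open scoped BigOperators

noncomputable section

/-- planar data of an old chart with Euclidean unit normal `nrm` -/
def k3e1ChN (nrm y0 y1 : Fin 2 → ℝ) : K3e1Ch :=
  ⟨decide (|nrm 0| < |nrm 1|), if |nrm 0| < |nrm 1| then nrm 0 / nrm 1 else nrm 1 / nrm 0, y0, y1⟩

/-- **the index of the coarse moving box of an old chart** -/
def k3e1FrC : (v : KbVer) → (gs q₁ tm : ℝ) → KbB v → KbChart v → K3e1Fr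
  | .one, _, q₁, tm, _, ch => ⟨false, 0, 0, ⌊ch.yc tm (0 : Fin 1) / q₁⌋, 0⟩
  | .two, gs, q₁, tm, nrm, ch => k3e1FrOf gs q₁ tm (k3e1ChN nrm ch.y0 ch.y1)

/-- **the frame of an index** -/
def k3e1Frm : (v : KbVer) → (gs q₁ tm Λ : ℝ) → K3e1Fr → K3bFrm v
  | .one, _, q₁, _, Λ, F => ⟨fun _ => F.kp * q₁, fun _ => 0, Matrix.of fun _ _ => Λ * q₁, Matrix.of fun _ _ => (Λ * q₁)⁻¹⟩
  | .two, gs, q₁, tm, Λ, F => ⟨F.c0 gs q₁ tm, F.c1 gs, F.mat gs q₁ Λ, F.inv gs q₁ Λ⟩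

/-- **the compatibility list of an old chart** -/
def k3e1CmpL : (v : KbVer) → (gs q₁ tm : ℝ) → (ρ : ℕ) → KbB v → KbChart v → Finset K3e1Fr
  | .one, _, q₁, tm, ρ, _, ch =>
      (Finset.Icc (⌊ch.yc tm (0 : Fin 1) / q₁⌋ - ρ) (⌊ch.yc tm (0 : Fin 1) / q₁⌋ + ρ)).image fun k => ⟨false, 0, 0, k, 0⟩
  | .two, gs, q₁, tm, ρ, nrm, ch => k3e1DL gs q₁ tm ρ (k3e1ChN nrm ch.y0 ch.y1)

/-- **the normals of two old charts are transversal** (never in version one, never if `gs > 1/2`) -/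
def k3e1Tr : (v : KbVer) → (gs : ℝ) → KbB v → KbB v → Prop
  | .one, _, _, _ => False
  | .two, gs, n, n' => gs ≤ 1 / 2 ∧ gs < |k3e1Crs (k3e1ChN n 0 0).nr (k3e1ChN n' 0 0).nr|

/-- the trajectory `l` fits the chart `(nrm, ch)` on `[s₀, s₀ + q₀)` -/
def k3e1FitB {v : KbVer} (nrm : KbB v) (ch : KbChart v) (l : KbTj v) (s₀ q₀ K g : ℝ) : Prop :=
  ∀ t ∈ Set.Ico s₀ (s₀ + q₀), ‖kbY l t - ch.yc t‖ ≤ K * q₀ ∧ |nrm ⬝ᵥ (kbY l t - ch.yc t)| ≤ K * q₀ * g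

theorem k3e1_frame_eqns_cite : True := by
  have := @k3e1ChN.eq_1
  have := @k3e1FrC.eq_1
  have := @k3e1FrC.eq_2
  have := @k3e1Frm.eq_1
  have := @k3e1Frm.eq_2
  have := @k3e1CmpL.eq_1
  have := @k3e1CmpL.eq_2
  have := @k3e1Tr.eq_1
  have := @k3e1Tr.eq_2
  have := @k3e1FitB.eq_1
  trivial

/-! ## 1. normals      (LEAF L-252-S3e1-F1) -/

theorem k3e1_chN_aux (a b : ℝ) (hab : |a| ≤ |b|) (h : a * a + b * b = 1) : 1 / 2 ≤ |b| ∧ |a / b| ≤ 1 := by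
  have h1 : a * a ≤ b * b := by
    have := mul_self_le_mul_self (abs_nonneg a) hab
    rwa [abs_mul_abs_self, abs_mul_abs_self] at this
  have h2 : 1 / 2 ≤ |b| := by
    by_contra hc
    have hc := not_le.1 hc
    have : |b| * |b| < 1 / 2 * (1 / 2) := mul_self_lt_mul_self (abs_nonneg _) hc
    rw [abs_mul_abs_self] at this
    linarith
  refine ⟨h2, ?_⟩
  rw [abs_div, div_le_one (by linarith)]
  exact hab

theorem k3e1_chN_aux2 (b x : ℝ) (hb : 1 / 2 ≤ |b|) : |x / b| ≤ 2 * |x| := by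
  rw [abs_div, div_le_iff₀ (by linarith)]
  nlinarith [abs_nonneg x]

/-- the sup-normalised normal: slope `≤ 1`, and `|n̂ · e| ≤ 2 |nrm · e|` (`μ = max |nrm 0| |nrm 1|`, `1 = nrm 0² + nrm 1² ≤ 2 μ²`, so `μ ≥ 1/2`; `n̂ = nrm / (entry of size μ)`) -/
theorem k3e1_chN (nrm y0 y1 : Fin 2 → ℝ) (h : nrm 0 * nrm 0 + nrm 1 * nrm 1 = 1) :
    |(k3e1ChN nrm y0 y1).s| ≤ 1 ∧ ∀ e : Fin 2 → ℝ, |k3e1Dot (k3e1ChN nrm y0 y1).nr e| ≤ 2 * |nrm 0 * e 0 + nrm 1 * e 1| := by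
  by_cases hc : |nrm 0| < |nrm 1|
  · obtain ⟨h2, h3⟩ := k3e1_chN_aux (nrm 0) (nrm 1) hc.le h
    have hb : nrm 1 ≠ 0 := by
      intro h0
      rw [h0, abs_zero] at h2
      linarith
    have es : (k3e1ChN nrm y0 y1).s = nrm 0 / nrm 1 := by simp [k3e1ChN, hc]
    have en : (k3e1ChN nrm y0 y1).nr = ![nrm 0 / nrm 1, 1] := by simp [k3e1ChN, K3e1Ch.nr, k3e1Nr, hc]
    refine ⟨by rw [es]; exact h3, fun e => ?_⟩
    rw [en]
    have e1 : k3e1Dot ![nrm 0 / nrm 1, 1] e = (nrm 0 * e 0 + nrm 1 * e 1) / nrm 1 := by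
      simp only [k3e1Dot, Matrix.cons_val_zero, Matrix.cons_val_one]
      field_simp
    rw [e1]
    exact k3e1_chN_aux2 _ _ h2
  · obtain ⟨h2, h3⟩ := k3e1_chN_aux (nrm 1) (nrm 0) (not_lt.1 hc) (by linarith)
    have hb : nrm 0 ≠ 0 := by
      intro h0
      rw [h0, abs_zero] at h2
      linarith
    have es : (k3e1ChN nrm y0 y1).s = nrm 1 / nrm 0 := by simp [k3e1ChN, hc]
    have en : (k3e1ChN nrm y0 y1).nr = ![1, nrm 1 / nrm 0] := by simp [k3e1ChN, K3e1Ch.nr, k3e1Nr, hc]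
    refine ⟨by rw [es]; exact h3, fun e => ?_⟩
    rw [en]
    have e1 : k3e1Dot ![1, nrm 1 / nrm 0] e = (nrm 0 * e 0 + nrm 1 * e 1) / nrm 0 := by
      simp only [k3e1Dot, Matrix.cons_val_zero, Matrix.cons_val_one]
      field_simp
    rw [e1]
    exact k3e1_chN_aux2 _ _ h2

theorem k3e1_dot_two (a b : KbB .two) : a ⬝ᵥ b = a (0 : Fin 2) * b (0 : Fin 2) + a (1 : Fin 2) * b (1 : Fin 2) :=
  Fin.sum_univ_two fun i => a i * b i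

/-- passage to `k3e1Fit` -/
theorem k3e1_fit_of (nrm : KbB .two) (ch : KbChart .two) (l : KbTj .two) (s₀ q₀ K g : ℝ) (hq : 0 < q₀) (hK : 0 ≤ K) (hg : 0 ≤ g) (hn : nrm ⬝ᵥ nrm = 1) (h : k3e1FitB nrm ch l s₀ q₀ K g) :
    k3e1Fit (k3e1ChN nrm ch.y0 ch.y1) l.1 l.2.1 s₀ (q₀ / 2) (4 * K * (q₀ / 2)) (4 * K * (q₀ / 2) * g) := by
  intro t ht
  have ht' : t ∈ Set.Ico s₀ (s₀ + q₀) := ⟨ht.1, by linarith [ht.2]⟩
  obtain ⟨h1, h2⟩ := h t ht'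
  have hn' : nrm (0 : Fin 2) * nrm (0 : Fin 2) + nrm (1 : Fin 2) * nrm (1 : Fin 2) = 1 := by rw [← k3e1_dot_two]; exact hn
  have hKq : 0 ≤ K * q₀ := mul_nonneg hK hq.le
  constructor
  · intro i
    have h3 : |(kbY l t - ch.yc t) i| ≤ K * q₀ := (norm_le_pi_norm (kbY l t - ch.yc t) i).trans h1
    refine le_trans h3 ?_
    linarith
  · have h3 := (k3e1_chN nrm ch.y0 ch.y1 hn').2 (kbY l t - ch.yc t)
    rw [k3e1_dot_two] at h2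
    refine le_trans h3 ?_
    calc 2 * |nrm (0 : Fin 2) * (kbY l t - ch.yc t) (0 : Fin 2) + nrm (1 : Fin 2) * (kbY l t - ch.yc t) (1 : Fin 2)|
        ≤ 2 * (K * q₀ * g) := by linarith
      _ = 4 * K * (q₀ / 2) * g := by ring

/-! ## 2. the frame is a chart      (LEAF L-252-S3e1-F2) -/

theorem k3e1_floor_abs (x w : ℝ) (hw : 0 < w) : |((⌊x / w⌋ : ℤ) : ℝ) * w| ≤ |x| + w := by
  obtain ⟨f1, f2⟩ := k3e1_floor_frac x w hw
  have h1 := le_abs_self x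
  have h2 := neg_abs_le x
  rw [abs_le]
  constructor <;> linarith

/-- the slope index of the box of a chart is bounded -/
theorem k3e1_frC_ks (v : KbVer) (gs q₁ tm : ℝ) (hgs : 0 < gs) (hgs1 : gs ≤ 1) (nrm : KbB v) (ch : KbChart v) (hn : nrm ⬝ᵥ nrm = 1) : |((k3e1FrC v gs q₁ tm nrm ch).ks : ℝ) * gs| ≤ 2 := by
  cases v
  · simp [k3e1FrC]
  · have hn' : nrm (0 : Fin 2) * nrm (0 : Fin 2) + nrm (1 : Fin 2) * nrm (1 : Fin 2) = 1 := by rw [← k3e1_dot_two]; exact hn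
    have hs := (k3e1_chN nrm ch.y0 ch.y1 hn').1
    show |((k3e1FrOf gs q₁ tm (k3e1ChN nrm ch.y0 ch.y1)).ks : ℝ) * gs| ≤ 2
    unfold k3e1FrOf
    split_ifs with hh
    · show |((⌊(k3e1ChN nrm ch.y0 ch.y1).s / gs⌋ : ℤ) : ℝ) * gs| ≤ 2
      have := k3e1_floor_abs (k3e1ChN nrm ch.y0 ch.y1).s gs hgs
      linarith
    · simp [k3e1FrAt]

theorem k3e1_nn_le (F : K3e1Fr) (gs : ℝ) (hks : |(F.ks : ℝ) * gs| ≤ 2) : F.nn gs ≤ 5 := by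
  have h1 : ((F.ks : ℝ) * gs) * ((F.ks : ℝ) * gs) ≤ 4 := by
    have := mul_self_le_mul_self (abs_nonneg _) hks
    rw [abs_mul_abs_self] at this
    linarith
  unfold K3e1Fr.nn K3e1Fr.nr k3e1Nr k3e1Dot
  cases F.ty
  · simp only [Bool.false_eq_true, if_false, Matrix.cons_val_zero, Matrix.cons_val_one]
    linarith
  · simp only [if_true, Matrix.cons_val_zero, Matrix.cons_val_one]
    linarith

/-- (`k3e1_box_chart`; `nn ≤ 5`) -/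
theorem k3e1_frm_chart (v : KbVer) (gs q₁ tm Λ : ℝ) (F : K3e1Fr) (hgs : 0 < gs) (hgs1 : gs ≤ 1) (hv : v = KbVer.one → gs = 1) (hq : 0 < q₁) (hΛ : 0 < Λ) (hks : |(F.ks : ℝ) * gs| ≤ 2) :
    (k3e1Frm v gs q₁ tm Λ F).M * (k3e1Frm v gs q₁ tm Λ F).Mi = 1 ∧ kbMn (k3e1Frm v gs q₁ tm Λ F).M ≤ 6 * Λ * q₁ ∧
      |(k3e1Frm v gs q₁ tm Λ F).M.det| ≤ (Λ * q₁) ^ v.j * gs ∧ (Λ * q₁) ^ v.j * gs ≤ 5 * |(k3e1Frm v gs q₁ tm Λ F).M.det| := by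
  have hΛq : 0 < Λ * q₁ := mul_pos hΛ hq
  cases v
  · have hg1 : gs = 1 := hv rfl
    have eM : (k3e1Frm KbVer.one gs q₁ tm Λ F).M = Matrix.of fun _ _ => Λ * q₁ := rfl
    have eMi : (k3e1Frm KbVer.one gs q₁ tm Λ F).Mi = Matrix.of fun _ _ => (Λ * q₁)⁻¹ := rfl
    have edet : (k3e1Frm KbVer.one gs q₁ tm Λ F).M.det = Λ * q₁ := by
      rw [eM]
      exact Matrix.det_fin_one _
    have ej : KbVer.one.j = 1 := rfl
    refine ⟨?_, ?_, ?_, ?_⟩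
    · rw [eM, eMi]
      ext i k
      have hi : i = k := Subsingleton.elim (α := Fin 1) i k
      subst hi
      rw [Matrix.mul_apply, Matrix.one_apply_eq]
      have : ∑ m : Fin KbVer.one.j, (Matrix.of fun _ _ => Λ * q₁ : Matrix (Fin KbVer.one.j) (Fin KbVer.one.j) ℝ) i m
          * (Matrix.of fun _ _ => (Λ * q₁)⁻¹ : Matrix (Fin KbVer.one.j) (Fin KbVer.one.j) ℝ) m i = (Λ * q₁) * (Λ * q₁)⁻¹ :=
        Fin.sum_univ_one _
      rw [this]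
      exact mul_inv_cancel₀ hΛq.ne'
    · rw [eM]
      have : kbMn (Matrix.of fun _ _ => Λ * q₁ : Matrix (Fin KbVer.one.j) (Fin KbVer.one.j) ℝ) = |Λ * q₁| := by
        unfold kbMn
        exact (Fin.sum_univ_one _).trans (Fin.sum_univ_one _)
      rw [this, abs_of_pos hΛq]
      nlinarith
    · rw [edet, hg1, ej, abs_of_pos hΛq]
      simp
    · rw [edet, hg1, ej, abs_of_pos hΛq]
      simp only [pow_one, mul_one]
      linarith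
  · obtain ⟨h1, -, h3, h4, h5⟩ := k3e1_box_chart F gs q₁ tm Λ hgs hgs1 hq hΛ hks
    have h6 := k3e1_nn_le F gs hks
    have ej : KbVer.two.j = 2 := rfl
    have hN : 0 < F.nn gs := by linarith
    have hX : 0 < Λ ^ 2 * q₁ ^ 2 * gs := by positivity
    refine ⟨h1, h5, ?_, ?_⟩
    · show |(F.mat gs q₁ Λ).det| ≤ (Λ * q₁) ^ 2 * gs
      rw [h3, div_le_iff₀ hN]
      nlinarith
    · show (Λ * q₁) ^ 2 * gs ≤ 5 * |(F.mat gs q₁ Λ).det|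
      rw [h3, mul_div_assoc', le_div_iff₀ hN]
      nlinarith

theorem k3e1_div_abs_le (x N : ℝ) (hN : 1 ≤ N) : |x / N| ≤ |x| := by
  rw [abs_div, abs_of_pos (by linarith : (0 : ℝ) < N)]
  exact div_le_self (abs_nonneg _) hN

theorem k3e1_frAt_cen (gs q₁ tm Q0 Q1 : ℝ) (hgs : 0 < gs) (hgs1 : gs ≤ 1) (hq : 0 < q₁) (hq1 : q₁ ≤ 1) (htm : |tm| ≤ 1) (c : K3e1Ch)
    (ty : Bool) (ks : ℤ) (hks : |(ks : ℝ) * gs| ≤ 2) (h0 : ∀ i, |c.y0 i| ≤ Q0) (h1 : ∀ i, |c.y1 i| ≤ Q1) :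
    (∀ i, |(k3e1FrAt gs q₁ tm c ty ks).c0 gs q₁ tm i| ≤ 27 * (Q0 + Q1) + 9) ∧
      ∀ i, |(k3e1FrAt gs q₁ tm c ty ks).c1 gs i| ≤ 9 * Q1 + 3 := by
  obtain ⟨n, hn⟩ : ∃ n : Fin 2 → ℝ, n = k3e1Nr ty ((ks : ℝ) * gs) := ⟨_, rfl⟩
  have hl1 : |n 0| + |n 1| ≤ 3 := by rw [hn, k3e1_dl_nr_l1]; linarith
  have hN : 1 ≤ k3e1Dot n n := by rw [hn]; exact k3e1_dl_nr_sq _ _
  have hni : ∀ i, |n i| ≤ 3 := by
    intro i
    fin_cases i
    · show |n 0| ≤ 3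
      linarith [abs_nonneg (n 1)]
    · show |n 1| ≤ 3
      linarith [abs_nonneg (n 0)]
  have hri : ∀ i, |k3e1Rot n i| ≤ 3 := by
    intro i
    fin_cases i
    · show |-n 1| ≤ 3
      rw [abs_neg]
      exact hni 1
    · exact hni 0
  have hQ1 : 0 ≤ Q1 := le_trans (abs_nonneg _) (h1 0)
  have hQ0 : 0 ≤ Q0 := le_trans (abs_nonneg _) (h0 0)
  have hyc : ∀ i, |c.yc tm i| ≤ Q0 + Q1 := by
    intro i
    simp only [K3e1Ch.yc, Pi.add_apply, Pi.smul_apply, smul_eq_mul]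
    calc |c.y0 i + tm * c.y1 i| ≤ |c.y0 i| + |tm| * |c.y1 i| := by rw [← abs_mul]; exact abs_add_le _ _
      _ ≤ Q0 + 1 * Q1 := add_le_add (h0 i) (mul_le_mul htm (h1 i) (abs_nonneg _) zero_le_one)
      _ = _ := by ring
  have hqg : q₁ * gs ≤ 1 := by nlinarith
  obtain ⟨kv, hkvd⟩ : ∃ kv : ℝ, kv = ((⌊k3e1Dot n c.y1 / gs⌋ : ℤ) : ℝ) * gs := ⟨_, rfl⟩
  obtain ⟨kp, hkpd⟩ : ∃ kp : ℝ, kp = ((⌊k3e1Dot (k3e1Rot n) (c.yc tm) / q₁⌋ : ℤ) : ℝ) * q₁ := ⟨_, rfl⟩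
  obtain ⟨kn, hknd⟩ : ∃ kn : ℝ, kn = ((⌊k3e1Dot n (c.yc tm) / (q₁ * gs)⌋ : ℤ) : ℝ) * (q₁ * gs) := ⟨_, rfl⟩
  have hkv : |kv| ≤ 3 * Q1 + 1 := by
    rw [hkvd]
    exact (k3e1_floor_abs _ _ hgs).trans (by linarith [(k3e1_dot_le n c.y1 3 Q1 hl1 h1).1])
  have hkp : |kp| ≤ 3 * (Q0 + Q1) + 1 := by
    rw [hkpd]
    exact (k3e1_floor_abs _ _ hq).trans (by linarith [(k3e1_dot_le n (c.yc tm) 3 (Q0 + Q1) hl1 hyc).2])
  have hkn : |kn| ≤ 3 * (Q0 + Q1) + 1 := by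
    rw [hknd]
    exact (k3e1_floor_abs _ _ (mul_pos hq hgs)).trans (by linarith [(k3e1_dot_le n (c.yc tm) 3 (Q0 + Q1) hl1 hyc).1])
  have key : ∀ x y : ℝ, |y| ≤ 3 → |x / k3e1Dot n n * y| ≤ 3 * |x| := by
    intro x y hy
    rw [abs_mul]
    calc |x / k3e1Dot n n| * |y| ≤ |x| * 3 := mul_le_mul (k3e1_div_abs_le _ _ hN) hy (abs_nonneg _) (abs_nonneg _)
      _ = 3 * |x| := mul_comm _ _
  constructor
  · intro i
    have e : (k3e1FrAt gs q₁ tm c ty ks).c0 gs q₁ tm i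
        = kp / k3e1Dot n n * k3e1Rot n i + (kn - tm * kv) / k3e1Dot n n * n i := by
      rw [hkpd, hknd, hkvd, hn]
      rfl
    rw [e]
    have b1 := key kp _ (hri i)
    have b2 := key (kn - tm * kv) _ (hni i)
    have b3 : |kn - tm * kv| ≤ |kn| + |kv| := by
      refine (abs_sub _ _).trans ?_
      rw [abs_mul]
      have : |tm| * |kv| ≤ 1 * |kv| := mul_le_mul_of_nonneg_right htm (abs_nonneg _)
      linarith
    refine (abs_add_le _ _).trans ?_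
    linarith
  · intro i
    have e : (k3e1FrAt gs q₁ tm c ty ks).c1 gs i = kv / k3e1Dot n n * n i := by
      rw [hkvd, hn]
      rfl
    rw [e]
    have b1 := key kv _ (hni i)
    linarith

/-- the centre of the box of a chart is bounded by the centre of the chart.
(Version two: `|kv gs| ≤ |n̂·y1| + gs`, `|kp q₁| ≤ |τ̂·y_c(tm)| + q₁`, `|kn q₁ gs| ≤ |n̂·y_c(tm)| + q₁ gs`, `|n̂ i|, |τ̂ i| ≤ 2`, `nn ≥ 1`, `|tm| ≤ 1`, `q₁ ≤ 1`.) -/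
theorem k3e1_frm_cen (v : KbVer) (gs q₁ tm Λ Q : ℝ) (hgs : 0 < gs) (hgs1 : gs ≤ 1) (hq : 0 < q₁) (hq1 : q₁ ≤ 1) (htm : |tm| ≤ 1) (nrm : KbB v) (ch : KbChart v) (hn : nrm ⬝ᵥ nrm = 1)
    (hQ : ‖ch.y0‖ + ‖ch.y1‖ ≤ Q) :
    ‖(k3e1Frm v gs q₁ tm Λ (k3e1FrC v gs q₁ tm nrm ch)).y0‖ + ‖(k3e1Frm v gs q₁ tm Λ (k3e1FrC v gs q₁ tm nrm ch)).y1‖ ≤ 100 * (Q + 1) := by
  have hQ0 : 0 ≤ Q := le_trans (add_nonneg (norm_nonneg _) (norm_nonneg _)) hQ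
  cases v
  · have e0 : ‖(k3e1Frm KbVer.one gs q₁ tm Λ (k3e1FrC KbVer.one gs q₁ tm nrm ch)).y0‖ ≤ Q + 1 := by
      rw [pi_norm_le_iff_of_nonneg (by linarith)]
      intro i
      show |((⌊ch.yc tm (0 : Fin 1) / q₁⌋ : ℤ) : ℝ) * q₁| ≤ Q + 1
      refine (k3e1_floor_abs _ _ hq).trans ?_
      have h1 : |ch.yc tm (0 : Fin 1)| ≤ ‖ch.y0‖ + ‖ch.y1‖ := by
        show |ch.y0 (0 : Fin 1) + tm * ch.y1 (0 : Fin 1)| ≤ _
        refine (abs_add_le _ _).trans (add_le_add (norm_le_pi_norm ch.y0 (0 : Fin 1)) ?_)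
        rw [abs_mul]
        calc |tm| * |ch.y1 (0 : Fin 1)| ≤ 1 * ‖ch.y1‖ := mul_le_mul htm (norm_le_pi_norm ch.y1 (0 : Fin 1)) (abs_nonneg _) zero_le_one
          _ = _ := one_mul _
      linarith
    have e1 : ‖(k3e1Frm KbVer.one gs q₁ tm Λ (k3e1FrC KbVer.one gs q₁ tm nrm ch)).y1‖ ≤ 0 := by
      rw [pi_norm_le_iff_of_nonneg le_rfl]
      intro i
      show ‖(0 : ℝ)‖ ≤ 0
      simp
    linarith
  · have hks := k3e1_frC_ks KbVer.two gs q₁ tm hgs hgs1 nrm ch hn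
    have h0 : ∀ i, |(k3e1ChN nrm ch.y0 ch.y1).y0 i| ≤ ‖ch.y0‖ := fun i => norm_le_pi_norm ch.y0 i
    have h1 : ∀ i, |(k3e1ChN nrm ch.y0 ch.y1).y1 i| ≤ ‖ch.y1‖ := fun i => norm_le_pi_norm ch.y1 i
    have hF : ∃ (ty : Bool) (ks : ℤ), k3e1FrC KbVer.two gs q₁ tm nrm ch = k3e1FrAt gs q₁ tm (k3e1ChN nrm ch.y0 ch.y1) ty ks := by
      show ∃ (ty : Bool) (ks : ℤ), k3e1FrOf gs q₁ tm (k3e1ChN nrm ch.y0 ch.y1) = _
      unfold k3e1FrOf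
      split_ifs
      · exact ⟨_, _, rfl⟩
      · exact ⟨_, _, rfl⟩
    obtain ⟨ty, ks, hF⟩ := hF
    rw [hF] at hks ⊢
    obtain ⟨b0, b1⟩ := k3e1_frAt_cen gs q₁ tm ‖ch.y0‖ ‖ch.y1‖ hgs hgs1 hq hq1 htm (k3e1ChN nrm ch.y0 ch.y1) ty ks hks h0 h1
    have n0 := norm_nonneg ch.y0
    have n1 := norm_nonneg ch.y1
    have e0 : ‖(k3e1Frm KbVer.two gs q₁ tm Λ (k3e1FrAt gs q₁ tm (k3e1ChN nrm ch.y0 ch.y1) ty ks)).y0‖ ≤ 27 * (‖ch.y0‖ + ‖ch.y1‖) + 9 := by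
      rw [pi_norm_le_iff_of_nonneg (by linarith)]
      exact b0
    have e1 : ‖(k3e1Frm KbVer.two gs q₁ tm Λ (k3e1FrAt gs q₁ tm (k3e1ChN nrm ch.y0 ch.y1) ty ks)).y1‖ ≤ 9 * ‖ch.y1‖ + 3 := by
      rw [pi_norm_le_iff_of_nonneg (by linarith)]
      exact b1
    linarith

/-! ## 3. traces, lists, strips      (LEAVES L-252-S3e1-F3, F4, F5) -/

/-- version one: scalar extrapolation of the deviation from the centre -/
theorem k3e1_trace_one (a V c0 c1 s₀ q₀ q₁ tI K t : ℝ) (hq₀ : 0 < q₀) (hq : q₀ ≤ q₁) (hs₀ : s₀ ∈ Set.Icc tI (tI + q₁))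
    (h : ∀ t ∈ Set.Ico s₀ (s₀ + q₀), |(a + t * V) - (c0 + t * c1)| ≤ K * q₀) (ht : t ∈ Set.Icc tI (tI + q₁)) :
    |(a + t * V) - (c0 + t * c1)| ≤ 6 * K * q₁ ∧ |V - c1| ≤ 4 * K := by
  have hq2 : 0 < q₀ / 2 := by positivity
  have hm : 1 ≤ q₁ / (q₀ / 2) := by
    rw [le_div_iff₀ hq2]
    linarith
  obtain ⟨e1, e2⟩ := k3e1_extrap1 (a - c0) (V - c1) s₀ (q₀ / 2) (q₁ / (q₀ / 2)) (K * q₀) hq2 hm (fun t' ht' => by
    have := h t' ⟨ht'.1, by linarith [ht'.2]⟩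
    have e : a - c0 + (V - c1) * t' = (a + t' * V) - (c0 + t' * c1) := by ring
    rw [e]
    exact this)
  constructor
  · have h1 := e1 t (by
      rw [div_mul_cancel₀ _ hq2.ne', abs_le]
      constructor <;> linarith [ht.1, ht.2, hs₀.1, hs₀.2])
    have e : a - c0 + (V - c1) * t = (a + t * V) - (c0 + t * c1) := by ring
    rw [e] at h1
    have e3 : 3 * (q₁ / (q₀ / 2)) * (K * q₀) = 6 * K * q₁ := by field_simp; ring
    rw [e3] at h1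
    exact h1
  · have : |V - c1| * (q₀ / 2) ≤ (4 * K) * (q₀ / 2) := by linarith
    exact le_of_mul_le_mul_right this hq2

/-- **LEAF L-252-S3e1-F3** (l.1092-1108).  **The whole trace on the new block lies in the unit box of the frame.**
Version two: `k3e1_fit_of`, `k3e1_trace` with `K := 4K`, `q₀ := q₀/2` (offsets `≤ 52 K q₁`, `32 K q₁ gs`), `k3e1_box_chart` second part (coordinates = offsets `/ (Λ q₁)`, `/ (Λ q₁ gs)`), `k3e1_frC_ks`.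
Version one: `e(t) = y(t) - y_c(t)` affine, `|e| ≤ K q₀` on `[s₀, s₀+q₀/2]`: `k3e1_extrap1` (`m = 2 q₁/q₀`): `|e| ≤ 6 K q₁` on the block, `|e'| ≤ 4K`, `|y1| ≤ 5K`, `|y_c(t) - y_c(tm)| ≤ 5 K q₁/2`, floor error `≤ q₁`. -/
theorem k3e1_frm_trace (v : KbVer) (gs q₁ tI g K Λ s₀ q₀ : ℝ) (nrm : KbB v) (ch : KbChart v) (l : KbTj v) (hq₀ : 0 < q₀) (hq : q₀ ≤ q₁) (hK : 1 ≤ K) (hg : 0 < g) (hgs : g ≤ gs) (hgs1 : gs ≤ 1)
    (hv : v = KbVer.one → gs = 1) (hn : nrm ⬝ᵥ nrm = 1) (hI : Set.Ico s₀ (s₀ + q₀) ⊆ Set.Icc tI (tI + q₁)) (hV : ‖kbV l‖ ≤ K) (h : k3e1FitB nrm ch l s₀ q₀ K g) (hΛ : 52 * K ≤ Λ) :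
    ∀ t ∈ Set.Icc tI (tI + q₁), ‖(k3e1Frm v gs q₁ (tI + q₁ / 2) Λ (k3e1FrC v gs q₁ (tI + q₁ / 2) nrm ch)).Mi.mulVec
      (kbY l t - (k3e1Frm v gs q₁ (tI + q₁ / 2) Λ (k3e1FrC v gs q₁ (tI + q₁ / 2) nrm ch)).yc t)‖ ≤ 1 := by
  intro t ht
  have hq₁ : 0 < q₁ := lt_of_lt_of_le hq₀ hq
  have hK0 : 0 ≤ K := by linarith
  have hΛ0 : 0 < Λ := by linarith
  have hΛq : 0 < Λ * q₁ := mul_pos hΛ0 hq₁
  have hs₀ : s₀ ∈ Set.Icc tI (tI + q₁) := hI ⟨le_rfl, by linarith⟩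
  cases v
  · obtain ⟨b1, b2'⟩ := k3e1_trace_one (l.1 (0 : Fin 1)) (l.2.1 (0 : Fin 1)) (ch.y0 (0 : Fin 1)) (ch.y1 (0 : Fin 1)) s₀ q₀ q₁ tI K t hq₀ hq hs₀
      (fun t' ht' => (norm_le_pi_norm (kbY l t' - ch.yc t') (0 : Fin 1)).trans (h t' ht').1) ht
    have b2 : |ch.y1 (0 : Fin 1)| ≤ 5 * K := by
      have hV0 : |l.2.1 (0 : Fin 1)| ≤ K := (norm_le_pi_norm (kbV l) (0 : Fin 1)).trans hV
      have e : ch.y1 (0 : Fin 1) = l.2.1 (0 : Fin 1) - (l.2.1 (0 : Fin 1) - ch.y1 (0 : Fin 1)) := by ring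
      have h3 : |ch.y1 (0 : Fin 1)| ≤ |l.2.1 (0 : Fin 1)| + |l.2.1 (0 : Fin 1) - ch.y1 (0 : Fin 1)| := by
        calc |ch.y1 (0 : Fin 1)| = |l.2.1 (0 : Fin 1) - (l.2.1 (0 : Fin 1) - ch.y1 (0 : Fin 1))| := by rw [← e]
          _ ≤ _ := abs_sub _ _
      linarith
    rw [pi_norm_le_iff_of_nonneg zero_le_one]
    intro i
    obtain ⟨kq, hkq⟩ : ∃ kq : ℝ, kq = ((⌊ch.yc (tI + q₁ / 2) (0 : Fin 1) / q₁⌋ : ℤ) : ℝ) * q₁ := ⟨_, rfl⟩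
    have e : (k3e1Frm KbVer.one gs q₁ (tI + q₁ / 2) Λ (k3e1FrC KbVer.one gs q₁ (tI + q₁ / 2) nrm ch)).Mi.mulVec
        (kbY l t - (k3e1Frm KbVer.one gs q₁ (tI + q₁ / 2) Λ (k3e1FrC KbVer.one gs q₁ (tI + q₁ / 2) nrm ch)).yc t) i
        = (Λ * q₁)⁻¹ * ((l.1 (0 : Fin 1) + t * l.2.1 (0 : Fin 1)) - (kq + t * 0)) := by
      rw [hkq]
      exact Fin.sum_univ_one (fun k : Fin 1 => (Λ * q₁)⁻¹ * ((l.1 k + t * l.2.1 k)
        - (((⌊ch.yc (tI + q₁ / 2) (0 : Fin 1) / q₁⌋ : ℤ) : ℝ) * q₁ + t * 0)))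
    rw [e, Real.norm_eq_abs, abs_mul, abs_of_pos (inv_pos.2 hΛq), inv_mul_le_iff₀ hΛq, mul_one]
    obtain ⟨f1, f2⟩ := k3e1_floor_frac (ch.yc (tI + q₁ / 2) (0 : Fin 1)) q₁ hq₁
    rw [← hkq] at f1 f2
    have eyc : ch.yc (tI + q₁ / 2) (0 : Fin 1) = ch.y0 (0 : Fin 1) + (tI + q₁ / 2) * ch.y1 (0 : Fin 1) := rfl
    rw [eyc] at f1 f2
    have htm : |t - (tI + q₁ / 2)| ≤ q₁ / 2 := by
      rw [abs_le]
      constructor <;> linarith [ht.1, ht.2]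
    have b3 : |(t - (tI + q₁ / 2)) * ch.y1 (0 : Fin 1)| ≤ q₁ / 2 * (5 * K) := by
      rw [abs_mul]
      exact mul_le_mul htm b2 (abs_nonneg _) (by positivity)
    have b4 : |ch.y0 (0 : Fin 1) + (tI + q₁ / 2) * ch.y1 (0 : Fin 1) - kq| ≤ q₁ := by
      rw [abs_of_nonneg f1]
      exact f2.le
    have e2 : l.1 (0 : Fin 1) + t * l.2.1 (0 : Fin 1) - (kq + t * 0)
        = (l.1 (0 : Fin 1) + t * l.2.1 (0 : Fin 1) - (ch.y0 (0 : Fin 1) + t * ch.y1 (0 : Fin 1)))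
          + (t - (tI + q₁ / 2)) * ch.y1 (0 : Fin 1) + (ch.y0 (0 : Fin 1) + (tI + q₁ / 2) * ch.y1 (0 : Fin 1) - kq) := by ring
    rw [e2]
    refine (abs_add_le _ _).trans ?_
    have b5 := abs_add_le (l.1 (0 : Fin 1) + t * l.2.1 (0 : Fin 1) - (ch.y0 (0 : Fin 1) + t * ch.y1 (0 : Fin 1)))
      ((t - (tI + q₁ / 2)) * ch.y1 (0 : Fin 1))
    have b6 : 52 * K * q₁ ≤ Λ * q₁ := mul_le_mul_of_nonneg_right hΛ hq₁.le
    nlinarith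
  · have hgs0 : 0 < gs := lt_of_lt_of_le hg hgs
    have hn' : nrm (0 : Fin 2) * nrm (0 : Fin 2) + nrm (1 : Fin 2) * nrm (1 : Fin 2) = 1 := by rw [← k3e1_dot_two]; exact hn
    have hs := (k3e1_chN nrm ch.y0 ch.y1 hn').1
    have hfit := k3e1_fit_of nrm ch l s₀ q₀ K g hq₀ hK0 hg.le hn h
    have htr := k3e1_trace (k3e1ChN nrm ch.y0 ch.y1) l.1 l.2.1 s₀ (q₀ / 2) q₁ tI g gs (4 * K) (by positivity) (by linarith) (by linarith)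
      hg hgs hgs1 hs (fun t' ht' => hI ⟨ht'.1, by linarith [ht'.2]⟩)
      (fun i => ((norm_le_pi_norm (kbV l) i).trans hV).trans (by linarith)) hfit t ht
    have hks := k3e1_frC_ks KbVer.two gs q₁ (tI + q₁ / 2) hgs0 hgs1 nrm ch hn
    obtain ⟨-, hbox, -, -, -⟩ := k3e1_box_chart (k3e1FrC KbVer.two gs q₁ (tI + q₁ / 2) nrm ch) gs q₁ (tI + q₁ / 2) Λ hgs0 hgs1 hq₁ hΛ0 hks
    have hb := hbox t (kbY l t)
    have e : (k3e1Frm KbVer.two gs q₁ (tI + q₁ / 2) Λ (k3e1FrC KbVer.two gs q₁ (tI + q₁ / 2) nrm ch)).Mi.mulVec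
        (kbY l t - (k3e1Frm KbVer.two gs q₁ (tI + q₁ / 2) Λ (k3e1FrC KbVer.two gs q₁ (tI + q₁ / 2) nrm ch)).yc t)
        = ![(k3e1FrC KbVer.two gs q₁ (tI + q₁ / 2) nrm ch).xt gs q₁ (kbY l t) / (Λ * q₁),
            (k3e1FrC KbVer.two gs q₁ (tI + q₁ / 2) nrm ch).xn gs q₁ (tI + q₁ / 2) t (kbY l t) / (Λ * q₁ * gs)] := hb
    have hΛqg : 0 < Λ * q₁ * gs := mul_pos hΛq hgs0
    have hall : ∀ k : Fin 2, ‖(![(k3e1FrC KbVer.two gs q₁ (tI + q₁ / 2) nrm ch).xt gs q₁ (kbY l t) / (Λ * q₁),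
            (k3e1FrC KbVer.two gs q₁ (tI + q₁ / 2) nrm ch).xn gs q₁ (tI + q₁ / 2) t (kbY l t) / (Λ * q₁ * gs)] : Fin 2 → ℝ) k‖ ≤ 1 := by
      intro k
      fin_cases k
      · show ‖(k3e1FrC KbVer.two gs q₁ (tI + q₁ / 2) nrm ch).xt gs q₁ (kbY l t) / (Λ * q₁)‖ ≤ 1
        rw [Real.norm_eq_abs, abs_div, abs_of_pos hΛq, div_le_one hΛq]
        refine le_trans htr.1 ?_
        have : 52 * K * q₁ ≤ Λ * q₁ := mul_le_mul_of_nonneg_right hΛ hq₁.le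
        linarith
      · show ‖(k3e1FrC KbVer.two gs q₁ (tI + q₁ / 2) nrm ch).xn gs q₁ (tI + q₁ / 2) t (kbY l t) / (Λ * q₁ * gs)‖ ≤ 1
        rw [Real.norm_eq_abs, abs_div, abs_of_pos hΛqg, div_le_one hΛqg]
        refine le_trans htr.2 ?_
        have : 52 * K * (q₁ * gs) ≤ Λ * (q₁ * gs) := mul_le_mul_of_nonneg_right hΛ (mul_pos hq₁ hgs0).le
        have h0 : 0 ≤ K * (q₁ * gs) := mul_nonneg hK0 (mul_pos hq₁ hgs0).le
        nlinarith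
    rw [pi_norm_le_iff_of_nonneg zero_le_one]
    intro i
    rw [congrFun e i]
    exact hall i

/-- **LEAF L-252-S3e1-F4** (l.1110-1130).  **The witness chart lists the box of the source chart** unless the normals are transversal.   (Version two: `k3e1_DL_mem` with `K := 4K`, `q₀ := q₀/2`; `(k3e1ChN n y0 y1).nr` does not depend on `y0, y1`.
Version one: both centres are within `6 K q₁` of the common line at `tm`: the floors differ by `≤ 12 K + 1`.) -/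
theorem k3e1_frm_list (v : KbVer) (gs q₁ tI g K s₀ s₀' q₀ : ℝ) (ρ : ℕ) (nrm nrm' : KbB v) (ch ch' : KbChart v) (l : KbTj v) (hq₀ : 0 < q₀) (hq : q₀ ≤ q₁) (hK : 1 ≤ K) (hg : 0 < g) (hgs : g ≤ gs)
    (hgs1 : gs ≤ 1) (hn : nrm ⬝ᵥ nrm = 1) (hn' : nrm' ⬝ᵥ nrm' = 1) (hI : Set.Ico s₀ (s₀ + q₀) ⊆ Set.Icc tI (tI + q₁)) (hI' : Set.Ico s₀' (s₀' + q₀) ⊆ Set.Icc tI (tI + q₁))
    (h : k3e1FitB nrm ch l s₀ q₀ K g) (h' : k3e1FitB nrm' ch' l s₀' q₀ K g) (htr : ¬ k3e1Tr v gs nrm nrm') (hρ : 120 * K ≤ ρ) :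
    k3e1FrC v gs q₁ (tI + q₁ / 2) nrm ch ∈ k3e1CmpL v gs q₁ (tI + q₁ / 2) ρ nrm' ch' := by
  have hq₁ : 0 < q₁ := lt_of_lt_of_le hq₀ hq
  have hK0 : 0 ≤ K := by linarith
  have hs₀ : s₀ ∈ Set.Icc tI (tI + q₁) := hI ⟨le_rfl, by linarith⟩
  have hs₀' : s₀' ∈ Set.Icc tI (tI + q₁) := hI' ⟨le_rfl, by linarith⟩
  cases v
  · have htm : tI + q₁ / 2 ∈ Set.Icc tI (tI + q₁) := ⟨by linarith, by linarith⟩
    obtain ⟨b1, -⟩ := k3e1_trace_one (l.1 (0 : Fin 1)) (l.2.1 (0 : Fin 1)) (ch.y0 (0 : Fin 1)) (ch.y1 (0 : Fin 1)) s₀ q₀ q₁ tI K (tI + q₁ / 2) hq₀ hq hs₀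
      (fun t' ht' => (norm_le_pi_norm (kbY l t' - ch.yc t') (0 : Fin 1)).trans (h t' ht').1) htm
    obtain ⟨b2, -⟩ := k3e1_trace_one (l.1 (0 : Fin 1)) (l.2.1 (0 : Fin 1)) (ch'.y0 (0 : Fin 1)) (ch'.y1 (0 : Fin 1)) s₀' q₀ q₁ tI K (tI + q₁ / 2) hq₀ hq hs₀'
      (fun t' ht' => (norm_le_pi_norm (kbY l t' - ch'.yc t') (0 : Fin 1)).trans (h' t' ht').1) htm
    have eyc : ch.yc (tI + q₁ / 2) (0 : Fin 1) = ch.y0 (0 : Fin 1) + (tI + q₁ / 2) * ch.y1 (0 : Fin 1) := rfl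
    have eyc' : ch'.yc (tI + q₁ / 2) (0 : Fin 1) = ch'.y0 (0 : Fin 1) + (tI + q₁ / 2) * ch'.y1 (0 : Fin 1) := rfl
    have b3 : |ch.yc (tI + q₁ / 2) (0 : Fin 1) - ch'.yc (tI + q₁ / 2) (0 : Fin 1)| ≤ 12 * K * q₁ := by
      rw [eyc, eyc']
      have e : ch.y0 (0 : Fin 1) + (tI + q₁ / 2) * ch.y1 (0 : Fin 1) - (ch'.y0 (0 : Fin 1) + (tI + q₁ / 2) * ch'.y1 (0 : Fin 1))
          = (l.1 (0 : Fin 1) + (tI + q₁ / 2) * l.2.1 (0 : Fin 1) - (ch'.y0 (0 : Fin 1) + (tI + q₁ / 2) * ch'.y1 (0 : Fin 1)))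
            - (l.1 (0 : Fin 1) + (tI + q₁ / 2) * l.2.1 (0 : Fin 1) - (ch.y0 (0 : Fin 1) + (tI + q₁ / 2) * ch.y1 (0 : Fin 1))) := by ring
      rw [e]
      refine (abs_sub _ _).trans ?_
      linarith
    have b4 : |ch.yc (tI + q₁ / 2) (0 : Fin 1) / q₁ - ch'.yc (tI + q₁ / 2) (0 : Fin 1) / q₁| + 1 ≤ ρ := by
      rw [← sub_div, abs_div, abs_of_pos hq₁]
      have : |ch.yc (tI + q₁ / 2) (0 : Fin 1) - ch'.yc (tI + q₁ / 2) (0 : Fin 1)| / q₁ ≤ 12 * K := by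
        rw [div_le_iff₀ hq₁]
        exact b3
      linarith
    exact Finset.mem_image.2 ⟨_, k3e1_dl_floor_mem _ _ ρ b4, rfl⟩
  · have hnn : nrm (0 : Fin 2) * nrm (0 : Fin 2) + nrm (1 : Fin 2) * nrm (1 : Fin 2) = 1 := by rw [← k3e1_dot_two]; exact hn
    have hnn' : nrm' (0 : Fin 2) * nrm' (0 : Fin 2) + nrm' (1 : Fin 2) * nrm' (1 : Fin 2) = 1 := by rw [← k3e1_dot_two]; exact hn'
    exact k3e1_DL_mem (k3e1ChN nrm ch.y0 ch.y1) (k3e1ChN nrm' ch'.y0 ch'.y1) l.1 l.2.1 s₀ s₀' (q₀ / 2) q₁ tI g gs (4 * K) ρ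
      (by positivity) (by linarith) (by linarith) hg hgs hgs1 (k3e1_chN nrm ch.y0 ch.y1 hnn).1 (k3e1_chN nrm' ch'.y0 ch'.y1 hnn').1
      (fun t' ht' => hI ⟨ht'.1, by linarith [ht'.2]⟩) (fun t' ht' => hI' ⟨ht'.1, by linarith [ht'.2]⟩)
      (k3e1_fit_of nrm ch l s₀ q₀ K g hq₀ hK0 hg.le hn h) (k3e1_fit_of nrm' ch' l s₀' q₀ K g hq₀ hK0 hg.le hn' h')
      (fun hh => not_lt.1 fun hlt => htr ⟨hh, hlt⟩) (by linarith)

/-- (`k3e1_DL_card`; version one: `Finset.card_image_le`, `Int.card_Icc`) -/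
theorem k3e1_cmpL_card (v : KbVer) (gs q₁ tm : ℝ) (ρ : ℕ) (nrm : KbB v) (ch : KbChart v) : (k3e1CmpL v gs q₁ tm ρ nrm ch).card ≤ 14 * (2 * ρ + 1) ^ 3 := by
  cases v
  · refine Finset.card_image_le.trans ?_
    rw [k3e1_Icc_card]
    have h1 : 1 ≤ 2 * ρ + 1 := by omega
    have h2 : 2 * ρ + 1 ≤ (2 * ρ + 1) ^ 3 := by
      calc 2 * ρ + 1 = (2 * ρ + 1) ^ 1 := (pow_one _).symm
        _ ≤ (2 * ρ + 1) ^ 3 := Nat.pow_le_pow_right h1 (by norm_num)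
    omega
  · exact k3e1_DL_card gs q₁ tm ρ _

/-- **LEAF L-252-S3e1-F5** (l.1037-1046).  **Transversal normals confine the velocity.**
PROOF.  Version one: `k3e1Tr` is `False`.  Version two: if no trajectory fits both charts take `V₀ = 0`; otherwise `V₀` = the velocity of one of them.  `k3e1_fit_of`, `k3e1_fit_vel`: `|n̂·V - n̂·y1| (q₀/2) ≤ 2 · 4K (q₀/2) g`, so both velocities lie in the two strips of half width `w = 8 K g`;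
`k3e1_two_strips` with `σ = gs` (`|n̂ i| ≤ 1`: `k3e1_chN`): `|V i - V₀ i| ≤ 32 K g / gs`. -/
theorem k3e1_frm_strips (v : KbVer) (gs g K q₀ : ℝ) (nrm nrm' : KbB v) (ch ch' : KbChart v) (s₀ s₀' : ℝ) (hq₀ : 0 < q₀) (hK : 0 ≤ K) (hg : 0 ≤ g) (hgs : 0 < gs) (hn : nrm ⬝ᵥ nrm = 1) (hn' : nrm' ⬝ᵥ nrm' = 1)
    (htr : k3e1Tr v gs nrm nrm') :
    ∃ V₀ : KbB v, ∀ l : KbTj v, k3e1FitB nrm ch l s₀ q₀ K g → k3e1FitB nrm' ch' l s₀' q₀ K g → ‖kbV l - V₀‖ ≤ 32 * K * g / gs := by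
  cases v
  · exact htr.elim
  · have hnn : nrm (0 : Fin 2) * nrm (0 : Fin 2) + nrm (1 : Fin 2) * nrm (1 : Fin 2) = 1 := by rw [← k3e1_dot_two]; exact hn
    have hnn' : nrm' (0 : Fin 2) * nrm' (0 : Fin 2) + nrm' (1 : Fin 2) * nrm' (1 : Fin 2) = 1 := by rw [← k3e1_dot_two]; exact hn'
    have hq2 : 0 < q₀ / 2 := by positivity
    have hs := (k3e1_chN nrm ch.y0 ch.y1 hnn).1
    have hs' := (k3e1_chN nrm' ch'.y0 ch'.y1 hnn').1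
    have hvel : ∀ l : KbTj KbVer.two, k3e1FitB nrm ch l s₀ q₀ K g →
        |k3e1Dot (k3e1ChN nrm ch.y0 ch.y1).nr l.2.1 - k3e1Dot (k3e1ChN nrm ch.y0 ch.y1).nr (k3e1ChN nrm ch.y0 ch.y1).y1| ≤ 8 * K * g := by
      intro l hl
      have h1 := (k3e1_fit_vel _ _ _ _ _ _ _ hq2 (k3e1_fit_of nrm ch l s₀ q₀ K g hq₀ hK hg hn hl)).2
      have h2 : |k3e1Dot (k3e1ChN nrm ch.y0 ch.y1).nr l.2.1 - k3e1Dot (k3e1ChN nrm ch.y0 ch.y1).nr (k3e1ChN nrm ch.y0 ch.y1).y1| * (q₀ / 2)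
          ≤ (8 * K * g) * (q₀ / 2) := by linarith
      exact le_of_mul_le_mul_right h2 hq2
    have hvel' : ∀ l : KbTj KbVer.two, k3e1FitB nrm' ch' l s₀' q₀ K g →
        |k3e1Dot (k3e1ChN nrm' ch'.y0 ch'.y1).nr l.2.1 - k3e1Dot (k3e1ChN nrm' ch'.y0 ch'.y1).nr (k3e1ChN nrm' ch'.y0 ch'.y1).y1| ≤ 8 * K * g := by
      intro l hl
      have h1 := (k3e1_fit_vel _ _ _ _ _ _ _ hq2 (k3e1_fit_of nrm' ch' l s₀' q₀ K g hq₀ hK hg hn' hl)).2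
      have h2 : |k3e1Dot (k3e1ChN nrm' ch'.y0 ch'.y1).nr l.2.1 - k3e1Dot (k3e1ChN nrm' ch'.y0 ch'.y1).nr (k3e1ChN nrm' ch'.y0 ch'.y1).y1| * (q₀ / 2)
          ≤ (8 * K * g) * (q₀ / 2) := by linarith
      exact le_of_mul_le_mul_right h2 hq2
    by_cases hex : ∃ l₀ : KbTj KbVer.two, k3e1FitB nrm ch l₀ s₀ q₀ K g ∧ k3e1FitB nrm' ch' l₀ s₀' q₀ K g
    · obtain ⟨l₀, h0, h0'⟩ := hex
      refine ⟨kbV l₀, fun l hl hl' => ?_⟩
      rw [pi_norm_le_iff_of_nonneg (by positivity)]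
      intro i
      have h1 := k3e1_two_strips (k3e1ChN nrm ch.y0 ch.y1).nr (k3e1ChN nrm' ch'.y0 ch'.y1).nr l.2.1 l₀.2.1 _ _ (8 * K * g) gs hgs
        (k3e1_dl_nr_abs _ _ hs) (k3e1_dl_nr_abs _ _ hs') htr.2.le (hvel l hl) (hvel' l hl') (hvel l₀ h0) (hvel' l₀ h0') i
      have e : 4 * (8 * K * g) / gs = 32 * K * g / gs := by ring
      rw [e] at h1
      exact h1
    · exact ⟨0, fun l hl hl' => absurd ⟨l, hl, hl'⟩ hex⟩

end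

end Claimed.Agent.R252

end PkS3e1FrameContract
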