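import Claimed.Agent.R252.Base.Pb
import Claimed.Agent.R252.S2s.Sat
import Claimed.Agent.R252.S3b.Sh
import Claimed.Agent.R252.S3e1.PkA
import Claimed.Agent.R252.S3e3.Contract

/-! PACKED FILE (helper215, closed unit S3e1 of row 252, FROZEN): parts S3e1.PairContract, S3e1.CapContract, S3e1.LiftContract.  Each part is wrapped in its own `section`.  -- KEEP -/

section PkS3e1PairContract

/-!
# ROW 252 (S0492), unit S3e1 (post BP-252-S3e1, sub-architect helper215, chief helper70): CONTRACT, file 1: THE PAIR LAW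
`03-comparison.tex` l.935-1020 (proof of L3.5 `lem:terminal-extension`, part 1): two independent times in one longer block, Jensen, marginal domination, "the other time is still uniform", count of the old labels.

PAPER-FREE, Mathlib + the definition `KbPb.tm` (`= volume.restrict (Icc 0 1)`).  Prefix `k3e1_` / `k3e1`.  Every `sorry` is a leaf `L-252-S3e1-*`: prove IN PLACE, statement verbatim, helper lemmas directly above (same prefix).

ONE WORLD.  `Ω` = trajectories, `ν` = prior, `S ⊆ Ω × ℝ` = selected incidences of the old terminal system, blocks of level `n` (length `q₁ = 2^{-n}`).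
`k3e1Pi ν n S = q₁⁻¹ · (ν × dt₀ × dt) |_{both selected, same block}` `= ∑_I q₁ · (ν × dt₀/q₁ × dt/q₁)|_{I × I, both selected}`: the paper's pair experiment, all blocks at once, weight `q₁` per block.  NOT normalised.
-/

set_option autoImplicit false

namespace Claimed.Agent.R252

open MeasureTheory
open scoped ENNReal BigOperators

noncomputable section

/-- index of the dyadic block of level `n` which contains `t` -/
def k3e1Blk (n : ℕ) (t : ℝ) : ℤ := ⌊t * 2 ^ n⌋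

variable {Ω : Type} [MeasurableSpace Ω]

/-- the pair event: `x = (ℓ, t₀, t)`, both incidences selected, both times in the same block -/
def k3e1Pr (n : ℕ) (S : Set (Ω × ℝ)) : Set (Ω × ℝ × ℝ) :=
  {x | (x.1, x.2.1) ∈ S ∧ (x.1, x.2.2) ∈ S ∧ k3e1Blk n x.2.1 = k3e1Blk n x.2.2}

/-- **the pair law** of one world -/
def k3e1Pi (ν : Measure Ω) (n : ℕ) (S : Set (Ω × ℝ)) : Measure (Ω × ℝ × ℝ) :=
  (2 ^ n : ℝ≥0∞) • (ν.prod (KbPb.tm.prod KbPb.tm)).restrict (k3e1Pr n S)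

theorem k3e1_pair_eqns_cite : True := by
  have := @k3e1Blk.eq_1
  have := @k3e1Pr.eq_1
  have := @k3e1Pi.eq_1
  trivial

/-- **LEAF L-252-S3e1-P1.**  (`Int.floor` is measurable: `Int.measurable_floor`/`measurable_floor`; `measurableSet_eq_fun`; preimages of `S` under measurable maps.) -/
theorem k3e1_blk_meas (n : ℕ) : Measurable (k3e1Blk n) := by
  unfold k3e1Blk
  exact (measurable_id.mul_const _).floor

/-- **LEAF L-252-S3e1-P1.** -/
theorem k3e1_pr_meas (n : ℕ) {S : Set (Ω × ℝ)} (hS : MeasurableSet S) : MeasurableSet (k3e1Pr n S) := by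
  have h1 : Measurable fun x : Ω × ℝ × ℝ => (x.1, x.2.1) := measurable_fst.prodMk (measurable_fst.comp measurable_snd)
  have h2 : Measurable fun x : Ω × ℝ × ℝ => (x.1, x.2.2) := measurable_fst.prodMk (measurable_snd.comp measurable_snd)
  have h3 : MeasurableSet {x : Ω × ℝ × ℝ | k3e1Blk n x.2.1 = k3e1Blk n x.2.2} :=
    measurableSet_eq_fun ((k3e1_blk_meas n).comp (measurable_fst.comp measurable_snd))
      ((k3e1_blk_meas n).comp (measurable_snd.comp measurable_snd))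
  exact (h1 hS).inter ((h2 hS).inter h3)

/-- **LEAF L-252-S3e1-P1.**  A block has length `2^{-n}`: `{t | ⌊t 2^n⌋ = k} = Ico (k/2^n) ((k+1)/2^n)` (`Int.floor_eq_iff`), `Real.volume_Ico`. -/
theorem k3e1_blk_vol (n : ℕ) (k : ℤ) : volume {t : ℝ | k3e1Blk n t = k} = (2 ^ n : ℝ≥0∞)⁻¹ := by
  have hp : (0 : ℝ) < 2 ^ n := by positivity
  have e : {t : ℝ | k3e1Blk n t = k} = Set.Ico ((k : ℝ) / 2 ^ n) (((k : ℝ) + 1) / 2 ^ n) := by
    ext t
    simp only [Set.mem_ofPred_eq, k3e1Blk, Int.floor_eq_iff, Set.mem_Ico]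
    rw [div_le_iff₀ hp, lt_div_iff₀ hp]
  rw [e, Real.volume_Ico]
  have e2 : ((k : ℝ) + 1) / 2 ^ n - (k : ℝ) / 2 ^ n = (2 ^ n)⁻¹ := by
    field_simp
    ring
  rw [e2, ENNReal.ofReal_inv_of_pos hp, ENNReal.ofReal_pow (by norm_num)]
  norm_num

theorem k3e1_tm_prob : IsProbabilityMeasure KbPb.tm := by
  unfold KbPb.tm
  refine ⟨?_⟩
  rw [Measure.restrict_apply MeasurableSet.univ, Set.univ_inter, Real.volume_Icc]
  norm_num

theorem k3e1_tm_le (A : Set ℝ) : KbPb.tm A ≤ volume A := by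
  unfold KbPb.tm
  exact Measure.restrict_apply_le _ _

theorem k3e1_sqrt_sq (a : ℝ≥0∞) : (a ^ (1 / 2 : ℝ)) ^ 2 = a := by
  rw [← ENNReal.rpow_natCast, ← ENNReal.rpow_mul]
  norm_num

/-- Cauchy-Schwarz for finite sums in `ℝ≥0∞` -/
theorem k3e1_cs_sum {ι : Type*} (s : Finset ι) (f g : ι → ℝ≥0∞) :
    (∑ i ∈ s, f i * g i) ^ 2 ≤ (∑ i ∈ s, f i ^ 2) * ∑ i ∈ s, g i ^ 2 := by
  have h := ENNReal.inner_le_Lp_mul_Lq s f g Real.HolderConjugate.two_two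
  simp only [ENNReal.rpow_two] at h
  calc (∑ i ∈ s, f i * g i) ^ 2 ≤ ((∑ i ∈ s, f i ^ 2) ^ (1 / 2 : ℝ) * (∑ i ∈ s, g i ^ 2) ^ (1 / 2 : ℝ)) ^ 2 :=
        pow_le_pow_left' h 2
    _ = _ := by rw [mul_pow, k3e1_sqrt_sq, k3e1_sqrt_sq]

/-- Jensen for a probability measure -/
theorem k3e1_jensen (ν : Measure Ω) [IsProbabilityMeasure ν] (F : Ω → ℝ≥0∞) (hF : Measurable F) :
    (∫⁻ l, F l ∂ν) ^ 2 ≤ ∫⁻ l, F l ^ 2 ∂ν := by
  have h := ENNReal.lintegral_mul_le_Lp_mul_Lq ν Real.HolderConjugate.two_two hF.aemeasurable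
    (aemeasurable_const (b := (1 : ℝ≥0∞)))
  simp only [ENNReal.rpow_two, Pi.mul_apply, mul_one, one_pow, lintegral_const, measure_univ, ENNReal.one_rpow] at h
  calc (∫⁻ l, F l ∂ν) ^ 2 ≤ ((∫⁻ l, F l ^ 2 ∂ν) ^ (1 / 2 : ℝ)) ^ 2 := pow_le_pow_left' h 2
    _ = _ := k3e1_sqrt_sq _

/-- the blocks `0, …, 2^n - 1` cover almost all of `[0,1]` -/
theorem k3e1_blk_cover (n : ℕ) (A : Set ℝ) :
    KbPb.tm A ≤ ∑ k ∈ Finset.range (2 ^ n), KbPb.tm (A ∩ {t | k3e1Blk n t = (k : ℤ)}) := by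
  have hsub : A ⊆ ((Set.Icc (0 : ℝ) 1)ᶜ ∪ {1}) ∪ ⋃ k ∈ Finset.range (2 ^ n), (A ∩ {t | k3e1Blk n t = (k : ℤ)}) := by
    intro t ht
    by_cases h1 : t ∈ Set.Icc (0 : ℝ) 1
    · by_cases h2 : t = 1
      · exact Or.inl (Or.inr h2)
      · right
        have hlt : t < 1 := lt_of_le_of_ne h1.2 h2
        have hp : (0 : ℝ) < 2 ^ n := by positivity
        have h0 : 0 ≤ k3e1Blk n t := Int.floor_nonneg.2 (mul_nonneg h1.1 hp.le)
        have h3 : k3e1Blk n t < 2 ^ n := by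
          unfold k3e1Blk
          rw [Int.floor_lt]
          push_cast
          nlinarith
        simp only [Set.mem_iUnion, Finset.mem_range, exists_prop]
        refine ⟨(k3e1Blk n t).toNat, ?_, ht, ?_⟩
        · zify
          rw [Int.toNat_of_nonneg h0]
          exact h3
        · exact (Int.toNat_of_nonneg h0).symm
    · exact Or.inl (Or.inl h1)
  have hz : KbPb.tm ((Set.Icc (0 : ℝ) 1)ᶜ ∪ {1}) = 0 := by
    refine measure_union_null ?_ ?_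
    · unfold KbPb.tm
      exact Measure.restrict_apply_eq_zero' measurableSet_Icc |>.2 (by simp)
    · exact le_antisymm ((k3e1_tm_le _).trans (by simp)) zero_le
  refine (measure_mono hsub).trans ((measure_union_le _ _).trans ?_)
  rw [hz, zero_add]
  exact measure_biUnion_finset_le _ _

/-- **LEAF L-252-S3e1-P2** (l.947-957, ~200 l.).  **Jensen**: the pair mass is at least the square of the selected mass.
PROOF.  `x_k(ℓ) := tm {t | (ℓ,t) ∈ S ∧ blk t = k}`, `k ∈ Finset.range (2^n)` (the other blocks meet `[0,1]` in a null set: `k = 2^n` gives `{1}`).  Tonelli (`Measure.prod_apply`, `lintegral_prod`):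
`(ν × tm) S = ∫ ∑_k x_k dν`,   `Pi univ = 2^n ∫ ∑_k x_k² dν`  (for fixed `ℓ` the section of the pair event is `⋃_k (S_ℓ ∩ I_k) ×ˢ (S_ℓ ∩ I_k)`, disjoint).
`(∑_{k<2^n} x_k)² ≤ 2^n ∑ x_k²` (`inner_mul_le_norm_mul_norm`-free: `ENNReal.inner_le_Lp_mul_Lq` or `Finset.sum_mul_sq_le_sq_mul_sq` after `toReal`; all `x_k ≤ 1`), and `(∫ F dν)² ≤ ∫ F² dν` for a probability measure
(`ENNReal.lintegral_mul_le_Lp_mul_Lq` with `p = q = 2`, `g = 1`; or `F ≤ 1` bounded: pass to `ℝ`, `integral_mul_le_Lp_mul_Lq`, or `ConvexOn.map_integral_le`). -/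
theorem k3e1_pair_mass (ν : Measure Ω) [IsProbabilityMeasure ν] (n : ℕ) {S : Set (Ω × ℝ)} (hS : MeasurableSet S) :
    (ν.prod KbPb.tm) S ^ 2 ≤ k3e1Pi ν n S Set.univ := by
  have := k3e1_tm_prob
  have hI : ∀ k : ℤ, MeasurableSet {t : ℝ | k3e1Blk n t = k} := fun k =>
    k3e1_blk_meas n (measurableSet_singleton k)
  unfold k3e1Pi
  rw [Measure.smul_apply, Measure.restrict_apply MeasurableSet.univ, Set.univ_inter, smul_eq_mul,
    Measure.prod_apply hS, Measure.prod_apply (k3e1_pr_meas n hS), ← lintegral_const_mul' _ _ (by finiteness)]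
  refine (k3e1_jensen ν _ (measurable_measure_prodMk_left hS)).trans (lintegral_mono fun l => ?_)
  have hSl : MeasurableSet (Prod.mk l ⁻¹' S) := measurable_prodMk_left hS
  -- Cauchy-Schwarz over the blocks
  have h1 : KbPb.tm (Prod.mk l ⁻¹' S) ^ 2
      ≤ 2 ^ n * ∑ k ∈ Finset.range (2 ^ n), KbPb.tm (Prod.mk l ⁻¹' S ∩ {t | k3e1Blk n t = (k : ℤ)}) ^ 2 := by
    refine (pow_le_pow_left' (k3e1_blk_cover n _) 2).trans ?_
    have h2 := k3e1_cs_sum (Finset.range (2 ^ n)) (fun _ => (1 : ℝ≥0∞))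
      (fun k => KbPb.tm (Prod.mk l ⁻¹' S ∩ {t | k3e1Blk n t = (k : ℤ)}))
    simpa using h2
  refine h1.trans (mul_le_mul' le_rfl ?_)
  -- the diagonal squares
  have hd : (↑(Finset.range (2 ^ n)) : Set ℕ).PairwiseDisjoint fun k : ℕ =>
      (Prod.mk l ⁻¹' S ∩ {t | k3e1Blk n t = (k : ℤ)}) ×ˢ (Prod.mk l ⁻¹' S ∩ {t | k3e1Blk n t = (k : ℤ)}) := by
    intro k _ k' _ hkk
    refine Set.disjoint_left.2 fun z hz hz' => hkk ?_
    have e1 : k3e1Blk n z.1 = (k : ℤ) := hz.1.2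
    have e2 : k3e1Blk n z.1 = (k' : ℤ) := hz'.1.2
    exact_mod_cast e1.symm.trans e2
  have h3 := measure_biUnion_finset (μ := KbPb.tm.prod KbPb.tm) hd fun k _ =>
    (hSl.inter (hI k)).prod (hSl.inter (hI k))
  simp only [Measure.prod_prod, ← sq] at h3
  rw [← h3]
  refine measure_mono fun z hz => ?_
  simp only [Set.mem_iUnion, exists_prop] at hz
  obtain ⟨k, -, hz1, hz2⟩ := hz
  exact ⟨hz1.1, hz2.1, hz1.2.trans hz2.2.symm⟩

/-- Tonelli: integrate the last time first -/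
theorem k3e1_tonelli (ν : Measure Ω) [SFinite ν] {E : Set (Ω × ℝ × ℝ)} (hE : MeasurableSet E) :
    (ν.prod (KbPb.tm.prod KbPb.tm)) E = ∫⁻ z : Ω × ℝ, KbPb.tm {t | (z.1, z.2, t) ∈ E} ∂(ν.prod KbPb.tm) := by
  have := k3e1_tm_prob
  rw [← Measure.prodAssoc_prod, Measure.map_apply MeasurableEquiv.prodAssoc.measurable hE,
    Measure.prod_apply (MeasurableEquiv.prodAssoc.measurable hE)]
  rfl

/-- the general one-sided bound -/
theorem k3e1_pair_gen (ν : Measure Ω) [SFinite ν] (n : ℕ) {S T : Set (Ω × ℝ)} (hS : MeasurableSet S) (hT : MeasurableSet T)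
    (B : Set (Ω × ℝ × ℝ)) (hB : MeasurableSet B) (c : ℝ≥0∞) (hBT : ∀ x ∈ B, (x.1, x.2.1) ∈ T)
    (h : ∀ l t₀, (l, t₀) ∈ S → (l, t₀) ∈ T → volume {t : ℝ | k3e1Blk n t = k3e1Blk n t₀ ∧ (l, t₀, t) ∈ B} ≤ c / 2 ^ n) :
    k3e1Pi ν n S B ≤ c * (ν.prod KbPb.tm) (S ∩ T) := by
  unfold k3e1Pi
  rw [Measure.smul_apply, Measure.restrict_apply hB, k3e1_tonelli ν (hB.inter (k3e1_pr_meas n hS)), smul_eq_mul]
  calc (2 ^ n : ℝ≥0∞) * ∫⁻ z : Ω × ℝ, KbPb.tm {t | (z.1, z.2, t) ∈ B ∩ k3e1Pr n S} ∂(ν.prod KbPb.tm)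
      ≤ (2 ^ n : ℝ≥0∞) * ∫⁻ z : Ω × ℝ, (S ∩ T).indicator (fun _ => c / 2 ^ n) z ∂(ν.prod KbPb.tm) := by
        refine mul_le_mul' le_rfl (lintegral_mono fun z => ?_)
        by_cases hz : z ∈ S ∩ T
        · rw [Set.indicator_of_mem hz]
          refine (k3e1_tm_le _).trans ((measure_mono fun t ht => ?_).trans (h z.1 z.2 hz.1 hz.2))
          exact ⟨ht.2.2.2.symm, ht.1⟩
        · rw [Set.indicator_of_notMem hz]
          refine le_of_eq (measure_mono_null (fun t ht => hz ⟨ht.2.1, hBT _ ht.1⟩) measure_empty)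
    _ = c * (ν.prod KbPb.tm) (S ∩ T) := by
        rw [lintegral_indicator (hS.inter hT), setLIntegral_const, ← mul_assoc, mul_comm (2 ^ n : ℝ≥0∞),
          ENNReal.div_mul_cancel (by positivity) (by finiteness)]

/-- exchange of the two times -/
theorem k3e1_pair_swap (ν : Measure Ω) [SFinite ν] (n : ℕ) {S : Set (Ω × ℝ)} (hS : MeasurableSet S) (B : Set (Ω × ℝ × ℝ))
    (hB : MeasurableSet B) : k3e1Pi ν n S ((fun x : Ω × ℝ × ℝ => (x.1, x.2.2, x.2.1)) ⁻¹' B) = k3e1Pi ν n S B := by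
  have := k3e1_tm_prob
  have hmp : MeasurePreserving (fun x : Ω × ℝ × ℝ => (x.1, x.2.2, x.2.1)) (ν.prod (KbPb.tm.prod KbPb.tm))
      (ν.prod (KbPb.tm.prod KbPb.tm)) :=
    (MeasurePreserving.id ν).prod (Measure.measurePreserving_swap (μ := KbPb.tm) (ν := KbPb.tm))
  unfold k3e1Pi
  rw [Measure.smul_apply, Measure.smul_apply, Measure.restrict_apply hB, Measure.restrict_apply (hmp.measurable hB),
    ← hmp.measure_preimage (hB.inter (k3e1_pr_meas n hS)).nullMeasurableSet]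
  congr 2
  ext x
  simp only [Set.mem_inter_iff, Set.mem_preimage, k3e1Pr, Set.mem_ofPred_eq]
  constructor
  · rintro ⟨h1, h2, h3, h4⟩
    exact ⟨h1, h3, h2, h4.symm⟩
  · rintro ⟨h1, h2, h3, h4⟩
    exact ⟨h1, h3, h2, h4.symm⟩

/-- **LEAF L-252-S3e1-P3** (l.957-959, ~120 l.).  **Marginal domination, source time.**
PROOF.  `Measure.le_iff`; for measurable `F`: `Measure.map_apply`, `Measure.restrict_apply`, `Measure.prod_apply` twice / `lintegral_prod`: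
`Pi {(ℓ,t₀) ∈ F} = 2^n ∫∫ 1_{F ∩ S}(ℓ,t₀) · tm {t | (ℓ,t) ∈ S ∧ blk t = blk t₀} ≤ 2^n · 2^{-n} (ν × tm)(F ∩ S)` (`k3e1_blk_vol`, `tm ≤ volume`).
It is convenient to reassociate with `MeasurableEquiv.prodAssoc` (`Measure.prod_assoc`-type lemma `MeasureTheory.Measure.prodAssoc_prod`). -/
theorem k3e1_pair_marg0 (ν : Measure Ω) [SFinite ν] (n : ℕ) {S : Set (Ω × ℝ)} (hS : MeasurableSet S) :
    (k3e1Pi ν n S).map (fun x => (x.1, x.2.1)) ≤ (ν.prod KbPb.tm).restrict S := by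
  have h1 : Measurable fun x : Ω × ℝ × ℝ => (x.1, x.2.1) := measurable_fst.prodMk (measurable_fst.comp measurable_snd)
  refine Measure.le_iff.2 fun F hF => ?_
  rw [Measure.map_apply h1 hF, Measure.restrict_apply hF]
  have h := k3e1_pair_gen ν n hS hF _ (h1 hF) 1 (fun x hx => hx) fun l t₀ _ _ => ?_
  · rwa [one_mul, Set.inter_comm] at h
  · rw [one_div, ← k3e1_blk_vol n (k3e1Blk n t₀)]
    exact measure_mono fun t ht => ht.1

/-- **LEAF L-252-S3e1-P3.**  **Marginal domination, witness time** (exchange the two times: `Measure.prod_swap`, or repeat the computation). -/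
theorem k3e1_pair_marg1 (ν : Measure Ω) [SFinite ν] (n : ℕ) {S : Set (Ω × ℝ)} (hS : MeasurableSet S) :
    (k3e1Pi ν n S).map (fun x => (x.1, x.2.2)) ≤ (ν.prod KbPb.tm).restrict S := by
  have h1 : Measurable fun x : Ω × ℝ × ℝ => (x.1, x.2.1) := measurable_fst.prodMk (measurable_fst.comp measurable_snd)
  have h2 : Measurable fun x : Ω × ℝ × ℝ => (x.1, x.2.2) := measurable_fst.prodMk (measurable_snd.comp measurable_snd)
  refine Measure.le_iff.2 fun F hF => ?_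
  have h := Measure.le_iff.1 (k3e1_pair_marg0 ν n hS) F hF
  rw [Measure.map_apply h1 hF, ← k3e1_pair_swap ν n hS _ (h1 hF)] at h
  rw [Measure.map_apply h2 hF]
  exact h

/-- **LEAF L-252-S3e1-P4** (l.1005-1020, ~120 l.).  **The other time is still uniform.**  If for every selected `(ℓ,t₀)` the bad witness times fill at most the fraction `ε` of the block, the bad pairs have mass `≤ ε · (selected mass)`.
PROOF.  As `k3e1_pair_marg0`: `Pi Bad ≤ 2^n ∫∫ 1_S(ℓ,t₀) · volume {t | blk t = blk t₀ ∧ (ℓ,t₀,t) ∈ Bad}`. -/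
theorem k3e1_pair_bad0 (ν : Measure Ω) [SFinite ν] (n : ℕ) {S : Set (Ω × ℝ)} (hS : MeasurableSet S) (Bad : Set (Ω × ℝ × ℝ)) (hB : MeasurableSet Bad)
    (ε : ℝ≥0∞) (h : ∀ l t₀, (l, t₀) ∈ S → volume {t : ℝ | k3e1Blk n t = k3e1Blk n t₀ ∧ (l, t₀, t) ∈ Bad} ≤ ε / 2 ^ n) :
    k3e1Pi ν n S Bad ≤ ε * (ν.prod KbPb.tm) S := by
  have h1 := k3e1_pair_gen ν n hS MeasurableSet.univ Bad hB ε (fun _ _ => Set.mem_univ _) fun l t₀ hl _ => h l t₀ hl
  rwa [Set.inter_univ] at h1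

/-- **LEAF L-252-S3e1-P4.**  The same with the roles of the two times exchanged. -/
theorem k3e1_pair_bad1 (ν : Measure Ω) [SFinite ν] (n : ℕ) {S : Set (Ω × ℝ)} (hS : MeasurableSet S) (Bad : Set (Ω × ℝ × ℝ)) (hB : MeasurableSet Bad)
    (ε : ℝ≥0∞) (h : ∀ l t, (l, t) ∈ S → volume {t₀ : ℝ | k3e1Blk n t₀ = k3e1Blk n t ∧ (l, t₀, t) ∈ Bad} ≤ ε / 2 ^ n) :
    k3e1Pi ν n S Bad ≤ ε * (ν.prod KbPb.tm) S := by
  have hm : Measurable fun x : Ω × ℝ × ℝ => (x.1, x.2.2, x.2.1) :=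
    measurable_fst.prodMk ((measurable_snd.comp measurable_snd).prodMk (measurable_fst.comp measurable_snd))
  rw [← k3e1_pair_swap ν n hS Bad hB]
  exact k3e1_pair_bad0 ν n hS _ (hm hB) ε fun l t₀ hl => h l t₀ hl

/-- **LEAF L-252-S3e1-P5** (~60 l.).  Jensen over the worlds.  (If some `om γ * m γ ^ 2 = ∞` trivial; else Cauchy-Schwarz `(∑ √om · √om m)² ≤ (∑ om)(∑ om m²)`: `ENNReal.inner_le_Lp_mul_Lq` with `p = q = 2`, or `toReal` + `Finset.sum_mul_sq_le_sq_mul_sq` / `inner_mul_le_norm_mul_norm`.) -/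
theorem k3e1_world_sq {W : Type} [Fintype W] (om m : W → ℝ≥0∞) (h : ∑ γ, om γ = 1) : (∑ γ, om γ * m γ) ^ 2 ≤ ∑ γ, om γ * m γ ^ 2 := by
  have h1 := k3e1_cs_sum Finset.univ (fun γ => om γ ^ (1 / 2 : ℝ)) (fun γ => om γ ^ (1 / 2 : ℝ) * m γ)
  simp only [mul_pow, k3e1_sqrt_sq, h, one_mul, ← mul_assoc, ← sq] at h1
  exact h1

/-- **LEAF L-252-S3e1-P5** ((a02:old-label-count), ~60 l.).  Labels `c` with subblock `iv c ∈ s`, assignments disjoint inside one subblock, each of prior mass `≥ φ`: at most `#s / φ` labels.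
PROOF.  `card C · φ ≤ ∑_c ν (A c) = ∑_{i ∈ s} ∑_{c : iv c = i} ν (A c) ≤ ∑_{i ∈ s} ν univ` (`Finset.sum_fiberwise_of_maps_to`, `measure_biUnion_finset`, `measure_mono`). -/
theorem k3e1_count {C : Type} [Fintype C] (ν : Measure Ω) (hν : ν Set.univ ≤ 1) (A : C → Set Ω) (hA : ∀ c, MeasurableSet (A c)) (iv : C → ℕ)
    (hd : ∀ c c', c ≠ c' → iv c = iv c' → Disjoint (A c) (A c')) (s : Finset ℕ) (hs : ∀ c, iv c ∈ s) (φ : ℝ≥0∞) (hφ : ∀ c, φ ≤ ν (A c)) :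
    (Fintype.card C : ℝ≥0∞) * φ ≤ s.card := by
  classical
  calc (Fintype.card C : ℝ≥0∞) * φ = ∑ _c : C, φ := by simp
    _ ≤ ∑ c : C, ν (A c) := Finset.sum_le_sum fun c _ => hφ c
    _ = ∑ i ∈ s, ∑ c ∈ Finset.univ.filter (fun c => iv c = i), ν (A c) :=
        (Finset.sum_fiberwise_of_maps_to (fun c _ => hs c) _).symm
    _ ≤ ∑ _i ∈ s, 1 := by
        refine Finset.sum_le_sum fun i _ => ?_
        rw [← measure_biUnion_finset (fun c hc c' hc' hcc => hd c c' hcc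
          (((Finset.mem_filter.1 hc).2).trans ((Finset.mem_filter.1 hc').2).symm)) fun c _ => hA c]
        exact (measure_mono (Set.subset_univ _)).trans hν
    _ = s.card := by simp

end

end Claimed.Agent.R252

end PkS3e1PairContract

section PkS3e1CapContract

/-!
# ROW 252 (S0492), unit S3e1 (sub-architect helper215, chief helper70): CONTRACT, file 5: CAPPED MASSES OF ONE INCIDENCE  (over `Base/Pb`, no chart system)
`03-comparison.tex` l.1048-1085 (the count behind (a02:normal-exception)), l.1139-1165 ((a02:source-base-density)), l.1277-1290 ((a02:matching-group-mass)).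

PAPER-FREE.  Imports `S2s/{Api,Sat}` (CLOSED: `k2s_cap_count`, `k2s_bin_ball`, `k2s_bin_ball_pi`, `k2s_quad_w`, `k2s_quad_cont`, `k2s_dw_cont`, `k2s_dy_*`; `k2s_pass_closed`, `k2s_cross_bins` are the MODELS of Sec. 1) and `S3b/Sh` (definition of `K3bFrm.z`).
Prefix `k3e1_` / `k3e1`.  Every `sorry` is a leaf `L-252-S3e1-C*`: prove IN PLACE, statement verbatim, helper lemmas directly above (same prefix).

PATTERN of all three mass bounds: `k2s_cap_count P hP ℓ γ hi m Z hZ U hU hZU hm` : incidences of `ℓ`-density `≤ hi` whose base lies in `Z (label) ⊆ U`, every base in `Z d` for at most `m` labels `d`, weigh `≤ m · hi · |U|`.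
-/

set_option autoImplicit false

namespace Claimed.Agent.R252

open MeasureTheory
open scoped ENNReal BigOperators

noncomputable section

variable {v : KbVer}

/-! ## 1. hidden bins which pass a value test and a derivative test      (LEAF L-252-S3e1-C1) -/

/-- the hidden values of the CLOSED bin `d` (requested width `wd`) with `|T| ≤ a`, `|T_w| ≥ b` at the base `o` -/
def k3e1Pass (T : KbTest v) (wd a b : ℝ) (d : ℤ) (o : ℝ × KbB v) : Set ℝ :=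
  {w | (d : ℝ) * kbDy wd ≤ w ∧ w ≤ ((d : ℝ) + 1) * kbDy wd ∧ |T o.1 o.2 w| ≤ a ∧ b ≤ |kbDw T o.1 o.2 w|}

theorem k3e1_cap_eqns_cite : True := by
  have := @k3e1Pass.eq_1
  trivial

/-- (copy of `k2s_pass_closed`) -/
theorem k3e1_pass_closed {T : KbTest v} (hT : KbIsQuad T) (wd a b : ℝ) (d : ℤ) : IsClosed {o | (k3e1Pass T wd a b d o).Nonempty} := by
  have g1 := k2s_quad_cont hT
  have g2 := k2s_dw_cont hT
  obtain ⟨lo, hlo⟩ : ∃ lo, lo = (d : ℝ) * kbDy wd := ⟨_, rfl⟩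
  obtain ⟨hi, hhi⟩ : ∃ hi, hi = ((d : ℝ) + 1) * kbDy wd := ⟨_, rfl⟩
  have hZ : IsClosed {p : (ℝ × KbB v) × Set.Icc lo hi | |T p.1.1 p.1.2 p.2| ≤ a ∧ b ≤ |kbDw T p.1.1 p.1.2 p.2|} := by
    have e : Continuous fun p : (ℝ × KbB v) × Set.Icc lo hi => ((p.1, (p.2 : ℝ)) : (ℝ × KbB v) × ℝ) := by fun_prop
    refine IsClosed.inter ?_ ?_
    · exact isClosed_le (g1.comp e).abs continuous_const
    · exact isClosed_le continuous_const (g2.comp e).abs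
  have himg := isClosedMap_fst_of_compactSpace _ hZ
  convert himg using 1
  ext o
  simp only [Set.mem_ofPred_eq, Set.mem_image]
  constructor
  · rintro ⟨w, h1, h2, h3, h4⟩
    exact ⟨(o, ⟨w, by rw [hlo]; exact h1, by rw [hhi]; exact h2⟩), ⟨h3, h4⟩, rfl⟩
  · rintro ⟨⟨o', w⟩, ⟨h3, h4⟩, rfl⟩
    exact ⟨w.1, by rw [← hlo]; exact w.2.1, by rw [← hhi]; exact w.2.2, h3, h4⟩

/-- (copy of `k2s_cross_bins`: `rmz_quad_bins A B C a b (kbDy wd) 0`, `kbDy wd ≥ wd`, the list `S ∪ S.image (· - 1)`) -/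
theorem k3e1_pass_bins {T : KbTest v} (hT : KbIsQuad T) {wd a b : ℝ} (hwd : 0 < wd) (ha : 0 ≤ a) (hb : 0 < b) (o : ℝ × KbB v) :
    ∃ L : Finset ℤ, (L.card : ℝ) ≤ 8 * (1 + a / (b * wd)) ∧ ∀ d, (k3e1Pass T wd a b d o).Nonempty → d ∈ L := by
  obtain ⟨A, B, C, hT', hD⟩ := k2s_quad_w hT o.1 o.2
  obtain ⟨δ, hδ⟩ : ∃ δ : ℝ, δ = kbDy wd := ⟨_, rfl⟩
  have hδ0 : 0 < δ := hδ ▸ k2s_dy_pos _
  have hδ1 : wd ≤ δ := hδ ▸ k2s_dy_ge hwd
  obtain ⟨S, hS, hS'⟩ := rmz_quad_bins A B C a b δ 0 ha hb hδ0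
  refine ⟨S ∪ S.image (· - 1), ?_, ?_⟩
  · have h1 : ((S ∪ S.image (· - 1)).card : ℝ) ≤ 2 * S.card := by
      have h0 := (Finset.card_union_le S (S.image (· - 1))).trans (Nat.add_le_add_left Finset.card_image_le _)
      have h2 : ((S ∪ S.image (· - 1)).card : ℝ) ≤ ((S.card + S.card : ℕ) : ℝ) := by exact_mod_cast h0
      push_cast at h2
      linarith
    have h3 : a / (b * δ) ≤ a / (b * wd) := div_le_div_of_nonneg_left ha (by positivity) (by gcongr)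
    linarith
  · rintro d ⟨w, hw1, hw2, hw3, hw4⟩
    rw [← hδ] at hw1 hw2
    have hmem := hS' w (by rw [← hT']; exact hw3) (by rw [← hD]; exact hw4)
    rw [sub_zero] at hmem
    have h1 : (d : ℝ) ≤ w / δ := by
      rw [le_div_iff₀ hδ0]
      exact hw1
    have h2 : w / δ ≤ (d : ℝ) + 1 := by
      rw [div_le_iff₀ hδ0]
      exact hw2
    have h3 : d ≤ ⌊w / δ⌋ := Int.le_floor.2 h1
    have h4 : ⌊w / δ⌋ ≤ d + 1 := by
      have h6 := Int.floor_le (w / δ)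
      have h5 : ((⌊w / δ⌋ : ℤ) : ℝ) ≤ ((d + 1 : ℤ) : ℝ) := by
        push_cast
        linarith
      exact_mod_cast h5
    rcases (by omega : ⌊w / δ⌋ = d ∨ ⌊w / δ⌋ = d + 1) with h | h
    · rw [h] at hmem
      exact Finset.mem_union_left _ hmem
    · rw [h] at hmem
      exact Finset.mem_union_right _ (Finset.mem_image.2 ⟨d + 1, hmem, by ring⟩)

/-- the hidden value of an incidence lies in the closed bin of its label -/
theorem k3e1_pass_mem (P : KbPb v) (γ : P.W) (T : KbTest v) (δ a b : ℝ) (x : P.Lam × ℝ) (h1 : |kbX T (P.co γ x.1) x.2| ≤ a) (h2 : b ≤ |kbX (kbDw T) (P.co γ x.1) x.2|) :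
    (k3e1Pass T (δ / P.B γ) a b (P.hid δ γ x) (P.bs γ x)).Nonempty := by
  have hb := (k2s_bin_iff (δ / P.B γ) (P.hw γ x) (P.hid δ γ x)).1 rfl
  exact ⟨P.hw γ x, hb.1, hb.2.le, h1, h2⟩

/-! ## 2. the three mass bounds -/

/-- natural-number form of a real bound of a list -/
theorem k3e1_floor_le {c : ℝ} (hc : 0 ≤ c) : ((⌊c⌋₊ : ℕ) : ℝ≥0∞) ≤ ENNReal.ofReal c := by
  rw [← ENNReal.ofReal_natCast]
  exact ENNReal.ofReal_le_ofReal (Nat.floor_le hc)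

/-- **LEAF L-252-S3e1-C2** ((a02:source-base-density), ~120 l.).  **value test + derivative floor + cap of `p_L`.**
PROOF.  `k2s_cap_count` with `ℓ = P.hid δ`, `Z d = U ∩ {o | (k3e1Pass T (δ/B) a b d o).Nonempty}`, `m = ⌊8 (1 + a B/(b δ))⌋₊` (`k3e1_pass_bins`, `a / (b (δ/B)) = a B / (b δ)`), `k3e1_pass_mem`. -/
theorem k3e1_den (P : KbPb v) (hP : P.WF) (γ : P.W) (T : KbTest v) (hT : KbIsQuad T) (δ a b hi : ℝ) (hδ : 0 < δ) (ha : 0 ≤ a) (hb : 0 < b) (hhi : 0 ≤ hi)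
    (U : Set (ℝ × KbB v)) (hU : MeasurableSet U) :
    P.mu γ {x | P.dn (P.hid δ) γ x ≤ ENNReal.ofReal hi ∧ P.bs γ x ∈ U ∧ |kbX T (P.co γ x.1) x.2| ≤ a ∧ b ≤ |kbX (kbDw T) (P.co γ x.1) x.2|}
      ≤ ENNReal.ofReal (8 * (1 + a * P.B γ / (b * δ)) * hi) * volume U := by
  have hB := hP.B_pos γ
  have hc : a / (b * (δ / P.B γ)) = a * P.B γ / (b * δ) := by
    field_simp
  have hc0 : 0 ≤ 8 * (1 + a * P.B γ / (b * δ)) := by positivity
  have h1 := k2s_cap_count P hP (P.hid δ) γ (ENNReal.ofReal hi) ⌊8 * (1 + a * P.B γ / (b * δ))⌋₊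
    (fun d => U ∩ {o | (k3e1Pass T (δ / P.B γ) a b d o).Nonempty})
    (fun d => hU.inter (k3e1_pass_closed hT _ a b d).measurableSet) U hU (fun d => Set.inter_subset_left)
    (fun o => by
      obtain ⟨L, hL, hmem⟩ := k3e1_pass_bins hT (div_pos hδ hB) ha hb o
      rw [hc] at hL
      exact ⟨L, Nat.le_floor hL, fun d hd => hmem d hd.2⟩)
  refine (measure_mono ?_).trans (h1.trans ?_)
  · rintro x ⟨hx1, hx2, hx3, hx4⟩
    exact ⟨hx1, hx2, k3e1_pass_mem P γ T δ a b x hx3 hx4⟩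
  · rw [ENNReal.ofReal_mul hc0]
    gcongr
    exact k3e1_floor_le hc0

/-- **LEAF L-252-S3e1-C3** ((a02:matching-group-mass), ~120 l.).  **a moving band + cap of `p_r`.**   `f` = reference graph in the normalised hidden variable `ω = B w`, as a function of the exact base.
PROOF.  `k2s_cap_count` with `ℓ = P.hid a`, `Z d = U ∩ {o | (f o - ρ)/B < (d+1) Dy ∧ d Dy ≤ (f o + ρ)/B}` (`Dy = kbDy (a/B)`; measurable), multiplicity by `k2s_bin_ball` (radius `ρ/B`, centre `f o / B`, width `a/B`): if `o ∈ Z d` the bin `d` contains a point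
`w` with `|w - f o/B| ≤ ρ/B` (take `w = max (d Dy) ((f o - ρ)/B)`), so `d = kbBin (a/B) w` (`k2s_bin_iff`) is in the list.  `m = ⌊2 ρ/a + 2⌋₊`. -/
theorem k3e1_band (P : KbPb v) (hP : P.WF) (γ : P.W) (a ρ hi : ℝ) (ha : 0 < a) (hρ : 0 ≤ ρ) (hhi : 0 ≤ hi) (U : Set (ℝ × KbB v)) (hU : MeasurableSet U)
    (f : ℝ × KbB v → ℝ) (hf : Measurable f) :
    P.mu γ {x | P.dn (P.hid a) γ x ≤ ENNReal.ofReal hi ∧ P.bs γ x ∈ U ∧ |P.B γ * P.hw γ x - f (P.bs γ x)| ≤ ρ}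
      ≤ ENNReal.ofReal ((2 * ρ / a + 2) * hi) * volume U := by
  have hB := hP.B_pos γ
  obtain ⟨Dy, hDy⟩ : ∃ Dy : ℝ, Dy = kbDy (a / P.B γ) := ⟨_, rfl⟩
  have hDy0 : 0 < Dy := hDy ▸ k2s_dy_pos _
  have hc0 : 0 ≤ 2 * ρ / a + 2 := by positivity
  have hc : 2 * (ρ / P.B γ) / (a / P.B γ) + 2 = 2 * ρ / a + 2 := by
    field_simp
  have h1 := k2s_cap_count P hP (P.hid a) γ (ENNReal.ofReal hi) ⌊2 * ρ / a + 2⌋₊
    (fun d => U ∩ {o | (f o - ρ) / P.B γ < ((d : ℝ) + 1) * Dy ∧ (d : ℝ) * Dy ≤ (f o + ρ) / P.B γ})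
    (fun d => hU.inter ((measurableSet_lt ((hf.sub_const ρ).div_const _) measurable_const).inter
      (measurableSet_le measurable_const ((hf.add_const ρ).div_const _)))) U hU (fun d => Set.inter_subset_left)
    (fun o => by
      obtain ⟨S, hS, hmem⟩ := k2s_bin_ball (div_pos ha hB) (div_nonneg hρ hB.le) (f o / P.B γ)
      rw [hc] at hS
      refine ⟨S, Nat.le_floor hS, ?_⟩
      rintro d ⟨-, hd1, hd2⟩
      have hw := hmem (max ((d : ℝ) * Dy) ((f o - ρ) / P.B γ)) (by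
        rw [abs_le]
        have e1 : (f o - ρ) / P.B γ = f o / P.B γ - ρ / P.B γ := by ring
        have e2 : (f o + ρ) / P.B γ = f o / P.B γ + ρ / P.B γ := by ring
        have e3 : 0 ≤ ρ / P.B γ := div_nonneg hρ hB.le
        constructor
        · have := le_max_right ((d : ℝ) * Dy) ((f o - ρ) / P.B γ)
          linarith
        · have : max ((d : ℝ) * Dy) ((f o - ρ) / P.B γ) ≤ (f o + ρ) / P.B γ := max_le hd2 (by linarith)
          linarith)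
      have hbin : kbBin (a / P.B γ) (max ((d : ℝ) * Dy) ((f o - ρ) / P.B γ)) = d := by
        rw [k2s_bin_iff, ← hDy]
        refine ⟨le_max_left _ _, max_lt ?_ hd1⟩
        nlinarith
      rwa [hbin] at hw)
  refine (measure_mono ?_).trans (h1.trans ?_)
  · rintro x ⟨hx1, hx2, hx3⟩
    refine ⟨hx1, hx2, ?_, ?_⟩
    · have hb := (k2s_bin_iff (a / P.B γ) (P.hw γ x) (P.hid a γ x)).1 rfl
      rw [← hDy] at hb
      refine lt_of_le_of_lt ?_ hb.2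
      rw [div_le_iff₀ hB]
      have := (abs_le.1 hx3).1
      linarith
    · have hb := (k2s_bin_iff (a / P.B γ) (P.hw γ x) (P.hid a γ x)).1 rfl
      rw [← hDy] at hb
      refine hb.1.trans ?_
      rw [le_div_iff₀ hB]
      have := (abs_le.1 hx3).2
      linarith
  · rw [ENNReal.ofReal_mul hc0]
    gcongr
    exact k3e1_floor_le hc0

/-- **LEAF L-252-S3e1-C4** (l.1048-1085, ~200 l.).  **value test + derivative floor + a list of partners, each confining the velocity + the joint cap.**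
`ι` = partner labels, `Lst d o` = list of the partners known from the observation, `V₀ i` = centre of the velocity cell of the partner `i`.
PROOF.  `k2s_cap_count` with `ℓ = P.hv δ β` (labels `(d, e) ∈ ℤ × (Fin j → ℤ)`), `Z (d,e) = U ∩ {Pass d nonempty} ∩ ⋃ i, ({o | i ∈ Lst d o} ∩ {o | e ∈ S i})`, `S i` = the list of `k2s_bin_ball_pi` (width `β`, radius `ρ`, centre `V₀ i`).
Multiplicity at `o`: `(L o).biUnion fun d => (Lst d o).biUnion fun i => (S i).image (d, ·)`: card `≤ 8(1 + aB/(bδ)) · mL · (2ρ/β + 2)^j`. -/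
theorem k3e1_ang (P : KbPb v) (hP : P.WF) (γ : P.W) (T : KbTest v) (hT : KbIsQuad T) (δ β a b hi ρ : ℝ) (hδ : 0 < δ) (hβ : 0 < β) (ha : 0 ≤ a) (hb : 0 < b) (hhi : 0 ≤ hi) (hρ : 0 ≤ ρ)
    (U : Set (ℝ × KbB v)) (hU : MeasurableSet U) {ι : Type} [Fintype ι] (Lst : ℤ → ℝ × KbB v → Finset ι) (hLm : ∀ d i, MeasurableSet {o | i ∈ Lst d o})
    (mL : ℝ) (hL : ∀ d o, ((Lst d o).card : ℝ) ≤ mL) (V₀ : ι → KbB v) :
    P.mu γ {x | P.dn (P.hv δ β) γ x ≤ ENNReal.ofReal hi ∧ P.bs γ x ∈ U ∧ |kbX T (P.co γ x.1) x.2| ≤ a ∧ b ≤ |kbX (kbDw T) (P.co γ x.1) x.2| ∧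
        ∃ i ∈ Lst (P.hid δ γ x) (P.bs γ x), ‖kbV (P.co γ x.1) - V₀ i‖ ≤ ρ}
      ≤ ENNReal.ofReal (8 * (1 + a * P.B γ / (b * δ)) * mL * (2 * ρ / β + 2) ^ v.j * hi) * volume U := by
  classical
  have hB := hP.B_pos γ
  have hmL : 0 ≤ mL := (Nat.cast_nonneg _).trans (hL 0 (0, 0))
  have hc : a / (b * (δ / P.B γ)) = a * P.B γ / (b * δ) := by
    field_simp
  have hc1 : 0 ≤ 8 * (1 + a * P.B γ / (b * δ)) := by positivity
  have hc2 : 0 ≤ (2 * ρ / β + 2) ^ v.j := by positivity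
  have hc0 : 0 ≤ 8 * (1 + a * P.B γ / (b * δ)) * mL * (2 * ρ / β + 2) ^ v.j := by positivity
  choose S hS hSm using fun i : ι => k2s_bin_ball_pi (m := v.j) hβ hρ (V₀ i)
  have h1 := k2s_cap_count P hP (P.hv δ β) γ (ENNReal.ofReal hi) ⌊8 * (1 + a * P.B γ / (b * δ)) * mL * (2 * ρ / β + 2) ^ v.j⌋₊
    (fun p => (U ∩ {o | (k3e1Pass T (δ / P.B γ) a b p.1 o).Nonempty}) ∩ ⋃ i, ({o | i ∈ Lst p.1 o} ∩ {_o | p.2 ∈ S i}))
    (fun p => (hU.inter (k3e1_pass_closed hT _ a b p.1).measurableSet).inter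
      (MeasurableSet.iUnion fun i => (hLm p.1 i).inter (MeasurableSet.const _))) U hU
    (fun p => Set.inter_subset_left.trans Set.inter_subset_left)
    (fun o => by
      obtain ⟨L, hLc, hmem⟩ := k3e1_pass_bins hT (div_pos hδ hB) ha hb o
      rw [hc] at hLc
      refine ⟨L.biUnion fun d => (Lst d o).biUnion fun i => (S i).image fun e => (d, e), Nat.le_floor ?_, ?_⟩
      · have g1 : ∀ d, (((Lst d o).biUnion fun i => (S i).image fun e => (d, e)).card : ℝ) ≤ mL * (2 * ρ / β + 2) ^ v.j := by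
          intro d
          have g2 : (((Lst d o).biUnion fun i => (S i).image fun e => (d, e)).card : ℝ)
              ≤ ∑ i ∈ Lst d o, (((S i).image fun e => (d, e)).card : ℝ) := by
            exact_mod_cast Finset.card_biUnion_le
          refine g2.trans ?_
          calc ∑ i ∈ Lst d o, (((S i).image fun e => (d, e)).card : ℝ) ≤ ∑ _i ∈ Lst d o, (2 * ρ / β + 2) ^ v.j :=
                Finset.sum_le_sum fun i _ => (by exact_mod_cast Finset.card_image_le : (((S i).image fun e => (d, e)).card : ℝ) ≤ ((S i).card : ℝ)).trans (hS i)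
            _ = ((Lst d o).card : ℝ) * (2 * ρ / β + 2) ^ v.j := by rw [Finset.sum_const, nsmul_eq_mul]
            _ ≤ mL * (2 * ρ / β + 2) ^ v.j := by
                gcongr
                exact hL d o
        have g3 : ((L.biUnion fun d => (Lst d o).biUnion fun i => (S i).image fun e => (d, e)).card : ℝ)
            ≤ ∑ d ∈ L, (((Lst d o).biUnion fun i => (S i).image fun e => (d, e)).card : ℝ) := by
          exact_mod_cast Finset.card_biUnion_le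
        refine g3.trans ?_
        calc ∑ d ∈ L, (((Lst d o).biUnion fun i => (S i).image fun e => (d, e)).card : ℝ) ≤ ∑ _d ∈ L, mL * (2 * ρ / β + 2) ^ v.j :=
              Finset.sum_le_sum fun d _ => g1 d
          _ = (L.card : ℝ) * (mL * (2 * ρ / β + 2) ^ v.j) := by rw [Finset.sum_const, nsmul_eq_mul]
          _ ≤ 8 * (1 + a * P.B γ / (b * δ)) * (mL * (2 * ρ / β + 2) ^ v.j) := by gcongr
          _ = 8 * (1 + a * P.B γ / (b * δ)) * mL * (2 * ρ / β + 2) ^ v.j := by ring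
      · rintro ⟨d, e⟩ ⟨⟨-, hd⟩, hi'⟩
        obtain ⟨i, hi1, hi2⟩ := Set.mem_iUnion.1 hi'
        exact Finset.mem_biUnion.2 ⟨d, hmem d hd, Finset.mem_biUnion.2 ⟨i, hi1, Finset.mem_image.2 ⟨e, hi2, rfl⟩⟩⟩)
  refine (measure_mono ?_).trans (h1.trans ?_)
  · rintro x ⟨hx1, hx2, hx3, hx4, i, hi1, hi2⟩
    exact ⟨hx1, ⟨hx2, k3e1_pass_mem P γ T δ a b x hx3 hx4⟩, Set.mem_iUnion.2 ⟨i, hi1, hSm i _ hi2⟩⟩
  · rw [ENNReal.ofReal_mul hc0]
    gcongr
    exact k3e1_floor_le hc0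

/-! ## 3. volumes in the coordinates of a frame      (LEAF L-252-S3e1-C5) -/

/-- the coordinate map of a frame is measurable -/
theorem k3e1_z_meas (F : K3bFrm v) (n₁ i : ℕ) : Measurable fun o : ℝ × KbB v => F.z n₁ i o.1 o.2 := by
  have hc : Continuous fun o : ℝ × KbB v => F.z n₁ i o.1 o.2 := by
    refine continuous_pi fun k => ?_
    refine Fin.cases ?_ (fun k' => ?_) k
    · simp only [K3bFrm.z, Fin.cons_zero]
      fun_prop
    · simp only [K3bFrm.z, Fin.cons_succ, Matrix.mulVec, dotProduct, K3bFrm.yc]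
      fun_prop
  exact hc.measurable

/-- **LEAF L-252-S3e1-C5** (`dt dy = q₁ J_D dτ dξ`, ~200 l.).
PROOF.  Tonelli in `t` (`Measure.volume_eq_prod`, `Measure.prod_apply`): for fixed `t` the section is `{y | Mi (y - y_c t) ∈ O_τ}`, `O_τ = {ξ | Fin.cons τ ξ ∈ O}`, of volume `|det M| vol O_τ`
(translation invariance + `Measure.addHaar_preimage_linearMap` / `Real.map_matrix_volume_pi_eq_smul_volume_pi` for `Mi`, `det Mi = (det M)⁻¹`);  `∫ vol O_{(t - t₁)/q₁} dt = q₁ ∫ vol O_τ dτ` (`lintegral` under the affine map: `Measure.addHaar_preimage_smul`, or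
`MeasureTheory.lintegral_comp` with `Real.map_linear..`);  `∫ vol O_τ dτ = vol O` (`MeasureTheory.volume_preserving_piFinSuccAbove (fun _ => ℝ) 0` + `Measure.prod_apply`; `Fin.cons = Fin.insertNth 0`). -/
theorem k3e1_z_vol (F : K3bFrm v) (hF : F.M * F.Mi = 1) (n₁ i : ℕ) (O : Set (Fin (v.j + 1) → ℝ)) (hO : MeasurableSet O) :
    volume {o : ℝ × KbB v | F.z n₁ i o.1 o.2 ∈ O} = ENNReal.ofReal (kbQ n₁ * |F.M.det|) * volume O := by
  have hq : 0 < kbQ n₁ := by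
    unfold kbQ
    positivity
  have hdet : F.M.det * F.Mi.det = 1 := by rw [← Matrix.det_mul, hF, Matrix.det_one]
  have hMi : F.Mi.det ≠ 0 := right_ne_zero_of_mul_eq_one hdet
  have hinv : (F.Mi.det)⁻¹ = F.M.det := (eq_inv_of_mul_eq_one_left hdet).symm
  have h1 : MeasurePreserving (fun t : ℝ => (t - (i : ℝ) * kbQ n₁) / kbQ n₁) volume (ENNReal.ofReal (kbQ n₁) • volume) := by
    refine ⟨by fun_prop, ?_⟩
    have e : (fun t : ℝ => (t - (i : ℝ) * kbQ n₁) / kbQ n₁) = (fun t => (kbQ n₁)⁻¹ * t) ∘ (fun t => t - (i : ℝ) * kbQ n₁) := by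
      funext t
      simp [div_eq_inv_mul]
    rw [e, ← Measure.map_map (by fun_prop) (by fun_prop), (measurePreserving_sub_right volume _).map_eq,
      Real.map_volume_mul_left (inv_ne_zero hq.ne'), inv_inv, abs_of_pos hq]
  have h2 : ∀ t : ℝ, Measure.map (fun y : KbB v => F.Mi.mulVec (y - F.yc t)) volume = ENNReal.ofReal |F.M.det| • volume := by
    intro t
    have e : (fun y : KbB v => F.Mi.mulVec (y - F.yc t)) = (Matrix.toLin' F.Mi) ∘ (fun y => y - F.yc t) := by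
      funext y
      simp [Matrix.toLin'_apply]
    rw [e, ← Measure.map_map (Matrix.toLin' F.Mi).continuous_of_finiteDimensional.measurable (by fun_prop),
      (measurePreserving_sub_right volume _).map_eq, Real.map_matrix_volume_pi_eq_smul_volume_pi hMi, hinv]
  have hgm : Measurable (Function.uncurry fun (t : ℝ) (y : KbB v) => F.Mi.mulVec (y - F.yc t)) := by
    have hc : Continuous (Function.uncurry fun (t : ℝ) (y : KbB v) => F.Mi.mulVec (y - F.yc t)) := by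
      refine continuous_pi fun k => ?_
      simp only [Function.uncurry, Matrix.mulVec, dotProduct, K3bFrm.yc]
      fun_prop
    exact hc.measurable
  have h3 := h1.skew_product (μc := (volume : Measure (KbB v))) (μd := ENNReal.ofReal |F.M.det| • (volume : Measure (KbB v))) hgm
    (Filter.Eventually.of_forall h2)
  have h4 := (volume_preserving_piFinSuccAbove (fun _ : Fin (v.j + 1) => ℝ) 0).symm
  have hset : {o : ℝ × KbB v | F.z n₁ i o.1 o.2 ∈ O}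
      = (fun p : ℝ × KbB v => ((p.1 - (i : ℝ) * kbQ n₁) / kbQ n₁, F.Mi.mulVec (p.2 - F.yc p.1))) ⁻¹'
        ((MeasurableEquiv.piFinSuccAbove (fun _ : Fin (v.j + 1) => ℝ) 0).symm ⁻¹' O) := by
    ext o
    simp only [Set.mem_ofPred_eq, Set.mem_preimage, K3bFrm.z]
    have e : (MeasurableEquiv.piFinSuccAbove (fun _ : Fin (v.j + 1) => ℝ) 0).symm ((o.1 - (i : ℝ) * kbQ n₁) / kbQ n₁, F.Mi.mulVec (o.2 - F.yc o.1))
        = Fin.cons ((o.1 - (i : ℝ) * kbQ n₁) / kbQ n₁) (F.Mi.mulVec (o.2 - F.yc o.1)) :=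
      Fin.insertNth_zero' _ _
    rw [e]
  have hO' : MeasurableSet ((MeasurableEquiv.piFinSuccAbove (fun _ : Fin (v.j + 1) => ℝ) 0).symm ⁻¹' O) :=
    (MeasurableEquiv.piFinSuccAbove (fun _ : Fin (v.j + 1) => ℝ) 0).symm.measurable hO
  rw [hset, Measure.volume_eq_prod, h3.measure_preimage hO'.nullMeasurableSet, Measure.prod_smul_left, Measure.prod_smul_right,
    Measure.smul_apply, Measure.smul_apply, ← Measure.volume_eq_prod, h4.measure_preimage hO.nullMeasurableSet, smul_eq_mul, smul_eq_mul,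
    ← mul_assoc, ← ENNReal.ofReal_mul hq.le]

end

end Claimed.Agent.R252

end PkS3e1CapContract

section PkS3e1LiftContract

/-!
# ROW 252 (S0492), unit S3e1 (sub-architect helper215, chief helper70): CONTRACT, file 6: PAIR MASSES OVER A CHART SYSTEM
`03-comparison.tex` l.935-1035, 1048-1090, 1139-1166: Jensen, marginal domination, opposite-time derivative floors, label count, light entries, normal exception, source-base densities: all at the level of `Base/Sys`, events indexed by LABEL PAIRS (`S3e1/Defs.lean`).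

PAPER-FREE.  Imports: `S3e1/{Defs, PairContract (CLOSED), CapContract}`, `S2s/{Api,Sat}` (CLOSED), `S3e3/Contract` (only `k3e3_der_affine`, `k3e3_X_cont`, `k3e3_dw_quad`: proved there), `Remez/Misc` (`rmz_affine_good_time`).
Prefix `k3e1_` / `k3e1`.  Every `sorry` is a leaf `L-252-S3e1-T*`: prove IN PLACE, statement verbatim, helper lemmas directly above (same prefix).  Earlier statements of the S3e1 files may be cited even if still `sorry`.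
NOTATION.  `E = 2^(Y.n - n₁)`, `q₁ = kbQ n₁ = E · Y.q`.
-/

set_option autoImplicit false

namespace Claimed.Agent.R252

open MeasureTheory
open scoped ENNReal BigOperators

noncomputable section

variable {v : KbVer} {P : KbPb v}

/-! ## 1. blocks      (LEAF L-252-S3e1-T1) -/

theorem k3e1_q_eq (Y : KbSys P) {n₁ : ℕ} (h : n₁ ≤ Y.n) : kbQ n₁ = 2 ^ (Y.n - n₁) * Y.q := by
  rw [KbSys.q, kbQ, kbQ]
  obtain ⟨d, hd⟩ := Nat.exists_eq_add_of_le h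
  rw [hd, Nat.add_sub_cancel_left, pow_add, mul_comm ((1 / 2 : ℝ) ^ n₁), ← mul_assoc, ← mul_pow]
  norm_num

/-- (`Nat.div_mul_le_self`, `Nat.lt_div_mul_add`/`Nat.div_add_mod`; `i = m (i/m) + r`, `0 ≤ r < m`, `m = 2^(n₀-n₁)`, `k3e1_q_eq`) -/
theorem k3e1_I_sub (Y : KbSys P) {n₁ : ℕ} (h : n₁ ≤ Y.n) (c : Y.C) : Y.I c ⊆ kbI n₁ (k3e1Bk Y n₁ c) := by
  intro t ht
  rw [KbSys.I, kbI] at ht
  rw [kbI, k3e1_q_eq Y h, k3e1Bk]
  obtain ⟨m, hm⟩ : ∃ m : ℕ, m = 2 ^ (Y.n - n₁) := ⟨_, rfl⟩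
  have hm0 : 0 < m := by rw [hm]; positivity
  have hmR : (2 : ℝ) ^ (Y.n - n₁) = (m : ℝ) := by rw [hm]; push_cast; rfl
  rw [hmR, ← hm]
  have hq : 0 < Y.q := by rw [KbSys.q, kbQ]; positivity
  have h1 : m * (Y.iv c / m) + Y.iv c % m = Y.iv c := Nat.div_add_mod _ _
  have h2 : Y.iv c % m < m := Nat.mod_lt _ hm0
  have h1R : (m : ℝ) * ((Y.iv c / m : ℕ) : ℝ) + ((Y.iv c % m : ℕ) : ℝ) = (Y.iv c : ℝ) := by exact_mod_cast h1
  have h2R : ((Y.iv c % m : ℕ) : ℝ) + 1 ≤ (m : ℝ) := by exact_mod_cast h2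
  have h3R : (0 : ℝ) ≤ ((Y.iv c % m : ℕ) : ℝ) := Nat.cast_nonneg _
  have hq' : kbQ Y.n = Y.q := rfl
  rw [hq'] at ht
  constructor
  · refine le_trans ?_ ht.1
    have : ((Y.iv c / m : ℕ) : ℝ) * ((m : ℝ) * Y.q) = ((m : ℝ) * ((Y.iv c / m : ℕ) : ℝ)) * Y.q := by ring
    rw [this]
    exact mul_le_mul_of_nonneg_right (by linarith) hq.le
  · refine lt_of_lt_of_le ht.2 ?_
    have : (((Y.iv c / m : ℕ) : ℝ) + 1) * ((m : ℝ) * Y.q) = ((m : ℝ) * ((Y.iv c / m : ℕ) : ℝ) + m) * Y.q := by ring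
    rw [this]
    exact mul_le_mul_of_nonneg_right (by linarith) hq.le

theorem k3e1_kbI_sub_Ic (Y : KbSys P) (n₁ : ℕ) (c : Y.C) : kbI n₁ (k3e1Bk Y n₁ c) ⊆ k3e1Ic Y n₁ c := by
  rw [kbI, k3e1Ic]
  exact Set.Ico_subset_Icc_self

/-- the block index of `PairContract` -/
theorem k3e1_blk_iff (n₁ i : ℕ) (t : ℝ) : k3e1Blk n₁ t = (i : ℤ) ↔ t ∈ kbI n₁ i := by
  rw [k3e1Blk, Int.floor_eq_iff, kbI, kbQ, Set.mem_Ico]
  have h2 : (0 : ℝ) < 2 ^ n₁ := by positivity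
  have e : (1 / 2 : ℝ) ^ n₁ = 1 / 2 ^ n₁ := by rw [div_pow, one_pow]
  rw [e, mul_one_div, mul_one_div, div_le_iff₀ h2, lt_div_iff₀ h2]
  push_cast
  rfl

theorem k3e1_bk_lt (Y : KbSys P) (hY : Y.WF) {n₁ : ℕ} (h : n₁ ≤ Y.n) (c : Y.C) : k3e1Bk Y n₁ c < 2 ^ n₁ := by
  rw [k3e1Bk, Nat.div_lt_iff_lt_mul (by positivity), ← pow_add, Nat.add_sub_cancel' h]
  exact hY.iv_lt c

theorem k3e1_kbI_vol (n₁ i : ℕ) : volume (kbI n₁ i) = ENNReal.ofReal (kbQ n₁) := by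
  rw [kbI, Real.volume_Ico]
  congr 1
  ring

/-- `q₁ · 2^n₁ = 1` in `ℝ≥0∞` -/
theorem k3e1_q_two (n₁ : ℕ) : ENNReal.ofReal (kbQ n₁) * 2 ^ n₁ = 1 := by
  rw [kbQ, ENNReal.ofReal_pow (by norm_num), ← mul_pow]
  have : ENNReal.ofReal (1 / 2) * 2 = 1 := by
    have h2 : (2 : ℝ≥0∞) = ENNReal.ofReal 2 := by simp
    rw [h2, ← ENNReal.ofReal_mul (by norm_num)]
    norm_num
  rw [this, one_pow]

/-! ## 2. the pair sets      (LEAF L-252-S3e1-T2) -/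

theorem k3e1_prc_meas (Y : KbSys P) (hY : Y.WF) (c c' : Y.C) : MeasurableSet (k3e1PrC Y c c') := by
  have h1 : Measurable fun x : P.Lam × ℝ × ℝ => (x.1, x.2.1) := measurable_fst.prodMk measurable_snd.fst
  have h2 : Measurable fun x : P.Lam × ℝ × ℝ => (x.1, x.2.2) := measurable_fst.prodMk measurable_snd.snd
  exact (h1 (hY.S_meas c)).inter (h2 (hY.S_meas c'))

/-- (`k2s_S_disj`) -/
theorem k3e1_prc_disj (Y : KbSys P) (hY : Y.WF) {c c' e e' : Y.C} (hw : Y.wd c = Y.wd e) (hw' : Y.wd c' = Y.wd e') (h : (c, c') ≠ (e, e')) :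
    Disjoint (k3e1PrC Y c c') (k3e1PrC Y e e') := by
  rw [Set.disjoint_left]
  rintro x ⟨h1, h2⟩ ⟨h3, h4⟩
  by_cases hc : c = e
  · have hc' : c' ≠ e' := fun h' => h (by rw [hc, h'])
    exact Set.disjoint_left.1 (k2s_S_disj Y hY hc' hw') h2 h4
  · exact Set.disjoint_left.1 (k2s_S_disj Y hY hc hw) h1 h3

/-- a pair: the trajectory is assigned to both labels, the times lie in the two old intervals -/
theorem k3e1_prc_mem (Y : KbSys P) (hY : Y.WF) {c c' : Y.C} {x : P.Lam × ℝ × ℝ} (hx : x ∈ k3e1PrC Y c c') :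
    x.1 ∈ Y.A c ∧ x.2.1 ∈ Y.I c ∧ x.1 ∈ Y.A c' ∧ x.2.2 ∈ Y.I c' ∧ (x.1, x.2.1) ∈ P.Ev (Y.wd c) ∧ (x.1, x.2.2) ∈ P.Ev (Y.wd c') := by
  have h1 := hY.S_sub c hx.1
  have h2 := hY.S_sub c' hx.2
  exact ⟨h1.2.1, h1.2.2, h2.2.1, h2.2.2, h1.1, h2.1⟩

/-- the events of one world -/
def k3e1Un (Y : KbSys P) (n₁ : ℕ) (X : Y.C → Y.C → Set (P.Lam × ℝ × ℝ)) (γ : P.W) : Set (P.Lam × ℝ × ℝ) :=
  {x | ∃ c c', Y.wd c = γ ∧ k3e1Adm Y n₁ c c' ∧ x ∈ k3e1PrC Y c c' ∧ x ∈ X c c'}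

theorem k3e1_lift_eqns_cite : True := by
  have := @k3e1Un.eq_1
  trivial

theorem k3e1_un_meas (Y : KbSys P) (hY : Y.WF) (n₁ : ℕ) (X : Y.C → Y.C → Set (P.Lam × ℝ × ℝ)) (hX : ∀ c c', MeasurableSet (X c c')) (γ : P.W) : MeasurableSet (k3e1Un Y n₁ X γ) := by
  have e : k3e1Un Y n₁ X γ = ⋃ c, ⋃ c', {x | Y.wd c = γ ∧ k3e1Adm Y n₁ c c' ∧ x ∈ k3e1PrC Y c c' ∧ x ∈ X c c'} := by
    ext x
    simp only [k3e1Un, Set.mem_ofPred_eq, Set.mem_iUnion]
  rw [e]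
  refine MeasurableSet.iUnion fun c => MeasurableSet.iUnion fun c' => ?_
  by_cases h1 : Y.wd c = γ ∧ k3e1Adm Y n₁ c c'
  · have : {x | Y.wd c = γ ∧ k3e1Adm Y n₁ c c' ∧ x ∈ k3e1PrC Y c c' ∧ x ∈ X c c'} = k3e1PrC Y c c' ∩ X c c' := by
      ext x
      simp only [Set.mem_ofPred_eq, Set.mem_inter_iff]
      tauto
    rw [this]
    exact (k3e1_prc_meas Y hY c c').inter (hX c c')
  · have : {x | Y.wd c = γ ∧ k3e1Adm Y n₁ c c' ∧ x ∈ k3e1PrC Y c c' ∧ x ∈ X c c'} = ∅ := by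
      ext x
      simp only [Set.mem_ofPred_eq, Set.mem_empty_iff_false, iff_false]
      tauto
    rw [this]
    exact MeasurableSet.empty

/-- (`k3e1_prc_mem`, `k3e1_I_sub`, `k3e1_blk_iff`) -/
theorem k3e1_un_sub (Y : KbSys P) (hY : Y.WF) {n₁ : ℕ} (h : n₁ ≤ Y.n) (X : Y.C → Y.C → Set (P.Lam × ℝ × ℝ)) (γ : P.W) : k3e1Un Y n₁ X γ ⊆ k3e1Pr n₁ (Y.sel γ) := by
  rintro x ⟨c, c', hc, hadm, hx, -⟩
  have hm := k3e1_prc_mem Y hY hx
  refine ⟨?_, ?_, ?_⟩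
  · exact Set.mem_iUnion.2 ⟨c, Set.mem_iUnion.2 ⟨hc, hx.1⟩⟩
  · exact Set.mem_iUnion.2 ⟨c', Set.mem_iUnion.2 ⟨hadm.1 ▸ hc, hx.2⟩⟩
  · rw [(k3e1_blk_iff n₁ _ _).2 (k3e1_I_sub Y h c hm.2.1), (k3e1_blk_iff n₁ _ _).2 (k3e1_I_sub Y h c' hm.2.2.2.1), hadm.2]

/-- every pair of `PairContract` has a label pair -/
theorem k3e1_un_univ (Y : KbSys P) (hY : Y.WF) {n₁ : ℕ} (h : n₁ ≤ Y.n) (γ : P.W) : k3e1Un Y n₁ (fun _ _ => Set.univ) γ = k3e1Pr n₁ (Y.sel γ) := by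
  refine Set.Subset.antisymm (k3e1_un_sub Y hY h _ γ) ?_
  rintro x ⟨h1, h2, h3⟩
  obtain ⟨c, hc⟩ := Set.mem_iUnion.1 h1
  obtain ⟨hcγ, hcS⟩ := Set.mem_iUnion.1 hc
  obtain ⟨c', hc'⟩ := Set.mem_iUnion.1 h2
  obtain ⟨hcγ', hcS'⟩ := Set.mem_iUnion.1 hc'
  have hx : x ∈ k3e1PrC Y c c' := ⟨hcS, hcS'⟩
  have hm := k3e1_prc_mem Y hY hx
  refine ⟨c, c', hcγ, ⟨hcγ.trans hcγ'.symm, ?_⟩, hx, Set.mem_univ _⟩
  rw [(k3e1_blk_iff n₁ _ _).2 (k3e1_I_sub Y h c hm.2.1), (k3e1_blk_iff n₁ _ _).2 (k3e1_I_sub Y h c' hm.2.2.2.1)] at h3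
  exact_mod_cast h3

/-- **LEAF L-252-S3e1-T3** (~200 l.).  **The pair mass is the weighted sum of the pair laws of the worlds.**
PROOF.  `k3e1Pi ν n S A = 2^n (ν × tm × tm)(A ∩ Pr)` (`Measure.smul_apply`, `Measure.restrict_apply`), `A = k3e1Un .. ⊆ Pr` (`k3e1_un_sub`).  `k3e1Un Y n₁ X γ = ⋃_{(c,c') admissible, wd c = γ} PrC c c' ∩ X c c'`, a finite disjoint union of measurable sets
(`k3e1_prc_disj`, `measure_biUnion_finset`).  `q₁ · (2^n₁ · 2^n₁) = 2^n₁` (`k3e1_q_two`).  Reorder `∑_c ∑_c' = ∑_γ ∑_{c : wd c = γ} ∑_c'` (`Finset.sum_fiberwise`). -/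
theorem k3e1_pm_world (Y : KbSys P) (hP : P.WF) (hY : Y.WF) {n₁ : ℕ} (h : n₁ ≤ Y.n) (X : Y.C → Y.C → Set (P.Lam × ℝ × ℝ)) (hX : ∀ c c', MeasurableSet (X c c')) :
    k3e1PM Y n₁ X = ∑ γ, P.om γ * k3e1Pi (P.nu γ) n₁ (Y.sel γ) (k3e1Un Y n₁ X γ) := by
  classical
  have hun : ∀ γ, k3e1Un Y n₁ X γ = ⋃ p ∈ (Finset.univ.filter fun p : Y.C × Y.C => Y.wd p.1 = γ ∧ k3e1Adm Y n₁ p.1 p.2),
      (k3e1PrC Y p.1 p.2 ∩ X p.1 p.2) := by
    intro γ
    ext x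
    simp only [k3e1Un, Set.mem_ofPred_eq, Set.mem_iUnion, Finset.mem_filter, Finset.mem_univ, true_and, Set.mem_inter_iff, Prod.exists,
      exists_prop]
    constructor
    · rintro ⟨c, c', h1, h2, h3, h4⟩
      exact ⟨c, c', ⟨h1, h2⟩, h3, h4⟩
    · rintro ⟨c, c', ⟨h1, h2⟩, h3, h4⟩
      exact ⟨c, c', h1, h2, h3, h4⟩
  have hpi : ∀ γ, k3e1Pi (P.nu γ) n₁ (Y.sel γ) (k3e1Un Y n₁ X γ) =
      ∑ c, ∑ c', if Y.wd c = γ ∧ k3e1Adm Y n₁ c c' then 2 ^ n₁ * ((P.nu γ).prod (KbPb.tm.prod KbPb.tm)) (k3e1PrC Y c c' ∩ X c c') else 0 := by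
    intro γ
    have hdisj : Set.PairwiseDisjoint (↑(Finset.univ.filter fun p : Y.C × Y.C => Y.wd p.1 = γ ∧ k3e1Adm Y n₁ p.1 p.2) : Set (Y.C × Y.C))
        fun p => k3e1PrC Y p.1 p.2 ∩ X p.1 p.2 := by
      intro p hp p' hp' hne
      simp only [Finset.coe_filter, Finset.mem_univ, true_and, Set.mem_ofPred_eq] at hp hp'
      have hd := k3e1_prc_disj Y hY (c := p.1) (c' := p.2) (e := p'.1) (e' := p'.2) (hp.1.trans hp'.1.symm)
        (hp.2.1.symm.trans (hp.1.trans (hp'.1.symm.trans hp'.2.1))) hne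
      exact hd.mono Set.inter_subset_left Set.inter_subset_left
    rw [k3e1Pi, Measure.smul_apply, Measure.restrict_apply (k3e1_un_meas Y hY n₁ X hX γ), Set.inter_eq_left.2 (k3e1_un_sub Y hY h X γ), hun γ,
      measure_biUnion_finset hdisj (fun p _ => (k3e1_prc_meas Y hY p.1 p.2).inter (hX p.1 p.2)), smul_eq_mul, Finset.mul_sum, Finset.sum_filter,
      ← Finset.univ_product_univ, Finset.sum_product]
  simp only [hpi, Finset.mul_sum]
  rw [Finset.sum_comm]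
  rw [k3e1PM]
  refine Finset.sum_congr rfl fun c _ => ?_
  rw [Finset.sum_comm]
  refine Finset.sum_congr rfl fun c' _ => ?_
  rw [Finset.sum_eq_single (Y.wd c)]
  · by_cases hadm : k3e1Adm Y n₁ c c'
    · rw [if_pos hadm, if_pos ⟨rfl, hadm⟩, k3e1Law, Measure.smul_apply, smul_eq_mul]
      have := k3e1_q_two n₁
      calc P.om (Y.wd c) * ENNReal.ofReal (kbQ n₁) * (2 ^ n₁ * 2 ^ n₁ * ((P.nu (Y.wd c)).prod (KbPb.tm.prod KbPb.tm)) (k3e1PrC Y c c' ∩ X c c'))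
          = P.om (Y.wd c) * ((ENNReal.ofReal (kbQ n₁) * 2 ^ n₁) * (2 ^ n₁ * ((P.nu (Y.wd c)).prod (KbPb.tm.prod KbPb.tm)) (k3e1PrC Y c c' ∩ X c c'))) := by ring
        _ = _ := by rw [this, one_mul]
    · rw [if_neg hadm, if_neg (fun hh => hadm hh.2), mul_zero]
  · intro γ _ hγ
    rw [if_neg (fun hh => hγ hh.1.symm), mul_zero]
  · intro hh
    exact absurd (Finset.mem_univ _) hh

theorem k3e1_pm_mono (Y : KbSys P) (n₁ : ℕ) {X X' : Y.C → Y.C → Set (P.Lam × ℝ × ℝ)} (h : ∀ c c', X c c' ⊆ X' c c') : k3e1PM Y n₁ X ≤ k3e1PM Y n₁ X' := by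
  classical
  rw [k3e1PM, k3e1PM]
  refine Finset.sum_le_sum fun c _ => Finset.sum_le_sum fun c' _ => ?_
  split_ifs
  · exact mul_le_mul_right (measure_mono (Set.inter_subset_inter_right _ (h c c'))) _
  · exact le_rfl

theorem k3e1_pm_union (Y : KbSys P) (n₁ : ℕ) (X X' : Y.C → Y.C → Set (P.Lam × ℝ × ℝ)) : k3e1PM Y n₁ (fun c c' => X c c' ∪ X' c c') ≤ k3e1PM Y n₁ X + k3e1PM Y n₁ X' := by
  classical
  rw [k3e1PM, k3e1PM, k3e1PM, ← Finset.sum_add_distrib]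
  refine Finset.sum_le_sum fun c _ => ?_
  rw [← Finset.sum_add_distrib]
  refine Finset.sum_le_sum fun c' _ => ?_
  split_ifs
  · rw [← mul_add, Set.inter_union_distrib_left]
    exact mul_le_mul_right (measure_union_le _ _) _
  · simp

/-! ## 3. Jensen, marginal domination, floors      (LEAVES L-252-S3e1-T4, T5) -/

theorem k3e1_sel_meas (Y : KbSys P) (hY : Y.WF) (γ : P.W) : MeasurableSet (Y.sel γ) := by
  exact MeasurableSet.iUnion fun c => MeasurableSet.iUnion fun _ => hY.S_meas c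

theorem k3e1_sel_sub (Y : KbSys P) (hY : Y.WF) (γ : P.W) : Y.sel γ ⊆ P.Ev γ := by
  intro x hx
  obtain ⟨c, hc⟩ := Set.mem_iUnion.1 hx
  obtain ⟨hcγ, hcS⟩ := Set.mem_iUnion.1 hc
  exact hcγ ▸ (hY.S_sub c hcS).1

/-- the selected mass, world by world (`k2s_S_disj`, `measure_biUnion_finset`, `Finset.sum_fiberwise`; `μ_γ A = (ν × tm) A` for `A ⊆ Ev γ` measurable) -/
theorem k3e1_mass_world (Y : KbSys P) (hP : P.WF) (hY : Y.WF) : Y.mass = ∑ γ, P.om γ * ((P.nu γ).prod KbPb.tm) (Y.sel γ) := by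
  classical
  have hsel : ∀ γ, ((P.nu γ).prod KbPb.tm) (Y.sel γ) = ∑ c, if Y.wd c = γ then P.mu γ (Y.S c) else 0 := by
    intro γ
    have e : Y.sel γ = ⋃ c ∈ Finset.univ.filter (fun c => Y.wd c = γ), Y.S c := by
      ext x
      simp only [KbSys.sel, Set.mem_iUnion, Finset.mem_filter, Finset.mem_univ, true_and]
    have hdisj : Set.PairwiseDisjoint (↑(Finset.univ.filter fun c => Y.wd c = γ) : Set Y.C) fun c => Y.S c := by
      intro c hc c' hc' hne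
      simp only [Finset.coe_filter, Finset.mem_univ, true_and, Set.mem_ofPred_eq] at hc hc'
      exact k2s_S_disj Y hY hne (hc.trans hc'.symm)
    rw [e, measure_biUnion_finset hdisj (fun c _ => hY.S_meas c), Finset.sum_filter]
    refine Finset.sum_congr rfl fun c _ => ?_
    by_cases hc : Y.wd c = γ
    · rw [if_pos hc, if_pos hc, KbPb.mu, Measure.restrict_apply (hY.S_meas c), Set.inter_eq_left.2]
      exact fun x hx => hc ▸ (hY.S_sub c hx).1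
    · rw [if_neg hc, if_neg hc]
  simp only [hsel, Finset.mul_sum]
  rw [Finset.sum_comm, KbSys.mass]
  refine Finset.sum_congr rfl fun c _ => ?_
  rw [Finset.sum_eq_single (Y.wd c)]
  · rw [if_pos rfl]; rfl
  · intro γ _ hγ
    rw [if_neg (fun hh => hγ hh.symm), mul_zero]
  · intro hh
    exact absurd (Finset.mem_univ _) hh

/-- **LEAF L-252-S3e1-T4** (l.947-957).  (`k3e1_pm_world`, `k3e1_un_univ`, `k3e1Pi .. (Pr) = k3e1Pi .. univ`, `k3e1_pair_mass`, `k3e1_world_sq`, `k3e1_mass_world`.) -/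
theorem k3e1_pm_mass (Y : KbSys P) (hP : P.WF) (hY : Y.WF) {n₁ : ℕ} (h : n₁ ≤ Y.n) : Y.mass ^ 2 ≤ k3e1PM Y n₁ fun _ _ => Set.univ := by
  rw [k3e1_pm_world Y hP hY h _ (fun _ _ => MeasurableSet.univ), k3e1_mass_world Y hP hY]
  refine (k3e1_world_sq _ _ hP.om_sum).trans (Finset.sum_le_sum fun γ _ => mul_le_mul_right ?_ _)
  have := hP.prob γ
  refine (k3e1_pair_mass (P.nu γ) n₁ (k3e1_sel_meas Y hY γ)).trans ?_
  rw [k3e1_un_univ Y hY h γ, k3e1Pi, Measure.smul_apply, Measure.smul_apply, Measure.restrict_apply MeasurableSet.univ,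
    Measure.restrict_apply (k3e1_pr_meas n₁ (k3e1_sel_meas Y hY γ)), Set.univ_inter, Set.inter_self]

/-- **LEAF L-252-S3e1-T4** (l.957-959).  An event of the SOURCE incidence.  (`k3e1_pm_world`, `k3e1Un ⊆` preimage of `W γ`, `k3e1_pair_marg0`, `Measure.map_apply`, `k3e1_sel_sub`.) -/
theorem k3e1_pm_src (Y : KbSys P) (hP : P.WF) (hY : Y.WF) {n₁ : ℕ} (h : n₁ ≤ Y.n) (W : P.W → Set (P.Lam × ℝ)) (hW : ∀ γ, MeasurableSet (W γ)) :
    k3e1PM Y n₁ (fun c _ => {x | (x.1, x.2.1) ∈ W (Y.wd c)}) ≤ P.mass W := by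
  have hf : Measurable fun x : P.Lam × ℝ × ℝ => (x.1, x.2.1) := measurable_fst.prodMk measurable_snd.fst
  rw [k3e1_pm_world Y hP hY h (fun c _ => {x | (x.1, x.2.1) ∈ W (Y.wd c)}) (fun c _ => hf (hW (Y.wd c))), KbPb.mass]
  refine Finset.sum_le_sum fun γ _ => mul_le_mul_right ?_ _
  have := hP.prob γ
  have hsub : k3e1Un Y n₁ (fun c _ => {x | (x.1, x.2.1) ∈ W (Y.wd c)}) γ ⊆ (fun x : P.Lam × ℝ × ℝ => (x.1, x.2.1)) ⁻¹' W γ := by
    rintro x ⟨c, c', hc, -, -, hx⟩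
    exact hc ▸ hx
  refine (measure_mono hsub).trans ?_
  rw [← Measure.map_apply hf (hW γ)]
  refine (k3e1_pair_marg0 (P.nu γ) n₁ (k3e1_sel_meas Y hY γ) (W γ)).trans ?_
  rw [Measure.restrict_apply (hW γ), KbPb.mu, Measure.restrict_apply (hW γ)]
  exact measure_mono (Set.inter_subset_inter_right _ (k3e1_sel_sub Y hY γ))

/-- **LEAF L-252-S3e1-T4.**  An event of the WITNESS incidence (`k3e1_pair_marg1`). -/
theorem k3e1_pm_wit (Y : KbSys P) (hP : P.WF) (hY : Y.WF) {n₁ : ℕ} (h : n₁ ≤ Y.n) (W : P.W → Set (P.Lam × ℝ)) (hW : ∀ γ, MeasurableSet (W γ)) :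
    k3e1PM Y n₁ (fun c _ => {x | (x.1, x.2.2) ∈ W (Y.wd c)}) ≤ P.mass W := by
  have hf : Measurable fun x : P.Lam × ℝ × ℝ => (x.1, x.2.2) := measurable_fst.prodMk measurable_snd.snd
  rw [k3e1_pm_world Y hP hY h (fun c _ => {x | (x.1, x.2.2) ∈ W (Y.wd c)}) (fun c _ => hf (hW (Y.wd c))), KbPb.mass]
  refine Finset.sum_le_sum fun γ _ => mul_le_mul_right ?_ _
  have := hP.prob γ
  have hsub : k3e1Un Y n₁ (fun c _ => {x | (x.1, x.2.2) ∈ W (Y.wd c)}) γ ⊆ (fun x : P.Lam × ℝ × ℝ => (x.1, x.2.2)) ⁻¹' W γ := by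
    rintro x ⟨c, c', hc, -, -, hx⟩
    exact hc ▸ hx
  refine (measure_mono hsub).trans ?_
  rw [← Measure.map_apply hf (hW γ)]
  refine (k3e1_pair_marg1 (P.nu γ) n₁ (k3e1_sel_meas Y hY γ) (W γ)).trans ?_
  rw [Measure.restrict_apply (hW γ), KbPb.mu, Measure.restrict_apply (hW γ)]
  exact measure_mono (Set.inter_subset_inter_right _ (k3e1_sel_sub Y hY γ))

/-- a test along the trajectory at the source / witness time is a measurable function of the pair (`k3e3_X_cont`, `hP.co_meas`) -/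
theorem k3e1_X_meas (hP : P.WF) (γ : P.W) {T : KbTest v} (hT : KbIsQuad T) :
    (Measurable fun x : P.Lam × ℝ × ℝ => kbX T (P.co γ x.1) x.2.1) ∧ Measurable fun x : P.Lam × ℝ × ℝ => kbX T (P.co γ x.1) x.2.2 := by
  have hc := (k3e3_X_cont hT).measurable
  constructor
  · exact hc.comp (((hP.co_meas γ).comp measurable_fst).prodMk measurable_snd.fst)
  · exact hc.comp (((hP.co_meas γ).comp measurable_fst).prodMk measurable_snd.snd)

/-- the times of the longer block at which the derivative of the test of `c₀` is small -/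
theorem k3e1_floor_aux (Y : KbSys P) (hP : P.WF) (hY : Y.WF) {n₁ : ℕ} (h : n₁ ≤ Y.n) {K a ε : ℝ} (hK : 0 < K) (hG : Y.Geo K a) (hε : 0 < ε)
    (c₀ : Y.C) (l : P.Lam) (t₀ : ℝ) (h0 : (l, t₀) ∈ Y.S c₀) :
    volume {t : ℝ | t ∈ kbI n₁ (k3e1Bk Y n₁ c₀) ∧ |kbX (kbDw (Y.ch c₀).T) (P.co (Y.wd c₀) l) t| * K < ε * P.B (Y.wd c₀)} ≤ ENNReal.ofReal (4 * ε) / 2 ^ n₁ := by
  obtain ⟨α, β, hαβ⟩ := k3e3_der_affine (hY.adm c₀) (P.co (Y.wd c₀) l)
  have hB := hP.B_pos (Y.wd c₀)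
  have hq : 0 < kbQ n₁ := by rw [kbQ]; positivity
  have ht₀ : t₀ ∈ kbI n₁ (k3e1Bk Y n₁ c₀) := k3e1_I_sub Y h c₀ (hY.S_sub c₀ h0).2.2
  have hIcc : kbI n₁ (k3e1Bk Y n₁ c₀) ⊆ Set.Icc ((k3e1Bk Y n₁ c₀ : ℝ) * kbQ n₁) ((k3e1Bk Y n₁ c₀ : ℝ) * kbQ n₁ + kbQ n₁) := by
    intro t ht
    rw [kbI] at ht
    exact ⟨ht.1, by nlinarith [ht.2]⟩
  have hlow : P.B (Y.wd c₀) / K ≤ |α + β * t₀| := by
    have := hG.dw_low c₀ (l, t₀) h0
    rw [hαβ] at this
    rw [div_le_iff₀ hK]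
    linarith
  have key := rmz_affine_good_time α β ((k3e1Bk Y n₁ c₀ : ℝ) * kbQ n₁) (kbQ n₁) (P.B (Y.wd c₀) / K) ε hq (by positivity) hε
    ⟨t₀, hIcc ht₀, hlow⟩
  have e : ENNReal.ofReal (4 * ε) / 2 ^ n₁ = ENNReal.ofReal (4 * ε * kbQ n₁) := by
    rw [ENNReal.ofReal_mul (p := 4 * ε) (by positivity), div_eq_mul_inv, ENNReal.eq_inv_of_mul_eq_one_left (k3e1_q_two n₁)]
  rw [e]
  refine (measure_mono ?_).trans key
  rintro t ⟨ht1, ht2⟩
  refine ⟨hIcc ht1, ?_⟩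
  rw [hαβ] at ht2
  rw [mul_div_assoc', lt_div_iff₀ hK]
  exact ht2

theorem k3e1_floor_sum (Y : KbSys P) (hP : P.WF) (c : ℝ≥0∞) (F : P.W → ℝ≥0∞) (hF : ∀ γ, F γ ≤ c * ((P.nu γ).prod KbPb.tm) (Y.sel γ)) :
    ∑ γ, P.om γ * F γ ≤ c := by
  have : ∀ γ, F γ ≤ c := by
    intro γ
    have := hP.prob γ
    have := k3e1_tm_prob
    refine (hF γ).trans ?_
    calc c * ((P.nu γ).prod KbPb.tm) (Y.sel γ) ≤ c * 1 := mul_le_mul_right prob_le_one _
      _ = c := mul_one _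
  calc ∑ γ, P.om γ * F γ ≤ ∑ γ, P.om γ * c := Finset.sum_le_sum fun γ _ => mul_le_mul_right (this γ) _
    _ = c := by rw [← Finset.sum_mul, hP.om_sum, one_mul]
/-- **LEAF L-252-S3e1-T5** (l.1005-1020, ~200 l.).  **The derivative of the SOURCE test at the witness time.**
PROOF.  `k3e1_pm_world`; in the world `γ` apply `k3e1_pair_bad0` with `Bad = k3e1Un ..`, `ε := ofReal (4 ε)`: for `(l,t₀) ∈ Y.sel γ` let `c` be its label (unique: `k2s_S_disj`); `{t | blk t = blk t₀ ∧ (l,t₀,t) ∈ Bad} ⊆ {t ∈ Icc (i q₁) (i q₁ + q₁) | |α + β t| < ε (B/K)}`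
(`k3e3_der_affine`), `B/K ≤ |α + β t₀|` (`hG.dw_low`), `rmz_affine_good_time`; `4 ε q₁ = 4 ε / 2^n₁`.  Finally `(ν × tm)(sel) ≤ 1`, `∑ ω = 1`. -/
theorem k3e1_pm_floor_wit (Y : KbSys P) (hP : P.WF) (hY : Y.WF) {n₁ : ℕ} (h : n₁ ≤ Y.n) {K a ε : ℝ} (hK : 0 < K) (hG : Y.Geo K a) (hε : 0 < ε) :
    k3e1PM Y n₁ (fun c _ => {x | |kbX (kbDw (Y.ch c).T) (P.co (Y.wd c) x.1) x.2.2| * K < ε * P.B (Y.wd c)}) ≤ ENNReal.ofReal (4 * ε) := by
  have hX : ∀ c c' : Y.C, MeasurableSet ((fun (c : Y.C) (_ : Y.C) => {x : P.Lam × ℝ × ℝ | |kbX (kbDw (Y.ch c).T) (P.co (Y.wd c) x.1) x.2.2| * K < ε * P.B (Y.wd c)}) c c') := by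
    intro c _
    have hm := (k3e1_X_meas hP (Y.wd c) (k3e3_dw_quad (hY.adm c).1)).2
    exact measurableSet_lt ((continuous_abs.measurable.comp hm).mul_const K) measurable_const
  rw [k3e1_pm_world Y hP hY h _ hX]
  refine k3e1_floor_sum Y hP _ _ fun γ => ?_
  have := hP.prob γ
  refine k3e1_pair_bad0 (P.nu γ) n₁ (k3e1_sel_meas Y hY γ) _ (k3e1_un_meas Y hY n₁ _ hX γ) _ fun l t₀ hl => ?_
  obtain ⟨c₀, hc⟩ := Set.mem_iUnion.1 hl
  obtain ⟨hcγ, hcS⟩ := Set.mem_iUnion.1 hc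
  subst hcγ
  refine (measure_mono ?_).trans (k3e1_floor_aux Y hP hY h hK hG hε c₀ l t₀ hcS)
  rintro t ⟨-, c, c', hcw, hadm, hx, hxX⟩
  have hcc : c = c₀ := by
    by_contra hne
    exact Set.disjoint_left.1 (k2s_S_disj Y hY hne hcw) hx.1 hcS
  subst hcc
  refine ⟨?_, hxX⟩
  rw [hadm.2]
  exact k3e1_I_sub Y h c' (hY.S_sub c' hx.2).2.2

/-- **LEAF L-252-S3e1-T5.**  **The derivative of the WITNESS test at the source time** (`k3e1_pair_bad1`). -/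
theorem k3e1_pm_floor_src (Y : KbSys P) (hP : P.WF) (hY : Y.WF) {n₁ : ℕ} (h : n₁ ≤ Y.n) {K a ε : ℝ} (hK : 0 < K) (hG : Y.Geo K a) (hε : 0 < ε) :
    k3e1PM Y n₁ (fun _ c' => {x | |kbX (kbDw (Y.ch c').T) (P.co (Y.wd c') x.1) x.2.1| * K < ε * P.B (Y.wd c')}) ≤ ENNReal.ofReal (4 * ε) := by
  have hX : ∀ c c' : Y.C, MeasurableSet ((fun (_ : Y.C) (c' : Y.C) => {x : P.Lam × ℝ × ℝ | |kbX (kbDw (Y.ch c').T) (P.co (Y.wd c') x.1) x.2.1| * K < ε * P.B (Y.wd c')}) c c') := by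
    intro _ c
    have hm := (k3e1_X_meas hP (Y.wd c) (k3e3_dw_quad (hY.adm c).1)).1
    exact measurableSet_lt ((continuous_abs.measurable.comp hm).mul_const K) measurable_const
  rw [k3e1_pm_world Y hP hY h _ hX]
  refine k3e1_floor_sum Y hP _ _ fun γ => ?_
  have := hP.prob γ
  refine k3e1_pair_bad1 (P.nu γ) n₁ (k3e1_sel_meas Y hY γ) _ (k3e1_un_meas Y hY n₁ _ hX γ) _ fun l t hl => ?_
  obtain ⟨c₀, hc⟩ := Set.mem_iUnion.1 hl
  obtain ⟨hcγ, hcS⟩ := Set.mem_iUnion.1 hc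
  subst hcγ
  refine (measure_mono ?_).trans (k3e1_floor_aux Y hP hY h hK hG hε c₀ l t hcS)
  rintro t₀ ⟨-, c, c', hcw, hadm, hx, hxX⟩
  have hcc : c' = c₀ := by
    by_contra hne
    exact Set.disjoint_left.1 (k2s_S_disj Y hY hne (hadm.1.symm.trans hcw)) hx.2 hcS
  subst hcc
  refine ⟨?_, hxX⟩
  rw [← hadm.2]
  exact k3e1_I_sub Y h c (hY.S_sub c hx.1).2.2

/-! ## 4. one time integrated out      (LEAF L-252-S3e1-T6) -/

/-- (reassociate: `MeasurableEquiv.prodAssoc`, `Measure.prod_prod`; or `Measure.prod_apply` + `lintegral`) -/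
theorem k3e1_prod_src {Ω : Type} [MeasurableSpace Ω] (ν : Measure Ω) [SFinite ν] (W : Set (Ω × ℝ)) (hW : MeasurableSet W) (J : Set ℝ) (hJ : MeasurableSet J) :
    (ν.prod (KbPb.tm.prod KbPb.tm)) {x | (x.1, x.2.1) ∈ W ∧ x.2.2 ∈ J} = (ν.prod KbPb.tm) W * KbPb.tm J := by
  have : SFinite KbPb.tm := by unfold KbPb.tm; infer_instance
  have hS : MeasurableSet {x : Ω × ℝ × ℝ | (x.1, x.2.1) ∈ W ∧ x.2.2 ∈ J} := by
    have h1 : Measurable fun x : Ω × ℝ × ℝ => (x.1, x.2.1) := measurable_fst.prodMk measurable_snd.fst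
    exact (h1 hW).inter (measurable_snd.snd hJ)
  rw [← Measure.prodAssoc_prod, Measure.map_apply MeasurableEquiv.prodAssoc.measurable hS, ← Measure.prod_prod]
  congr 1

theorem k3e1_prod_wit {Ω : Type} [MeasurableSpace Ω] (ν : Measure Ω) [SFinite ν] (W : Set (Ω × ℝ)) (hW : MeasurableSet W) (J : Set ℝ) (hJ : MeasurableSet J) :
    (ν.prod (KbPb.tm.prod KbPb.tm)) {x | (x.1, x.2.2) ∈ W ∧ x.2.1 ∈ J} = (ν.prod KbPb.tm) W * KbPb.tm J := by
  have : SFinite KbPb.tm := by unfold KbPb.tm; infer_instance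
  have hS : MeasurableSet {x : Ω × ℝ × ℝ | (x.1, x.2.1) ∈ W ∧ x.2.2 ∈ J} := by
    have h1 : Measurable fun x : Ω × ℝ × ℝ => (x.1, x.2.1) := measurable_fst.prodMk measurable_snd.fst
    exact (h1 hW).inter (measurable_snd.snd hJ)
  have hmp : MeasurePreserving (Prod.map (id : Ω → Ω) (Prod.swap : ℝ × ℝ → ℝ × ℝ)) (ν.prod (KbPb.tm.prod KbPb.tm)) (ν.prod (KbPb.tm.prod KbPb.tm)) :=
    (MeasurePreserving.id ν).prod Measure.measurePreserving_swap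
  rw [← k3e1_prod_src ν W hW J hJ, ← hmp.measure_preimage hS.nullMeasurableSet]
  rfl

/-- **the witness time integrated out**; `W` is ANY set of incidences.
PROOF.  `H = toMeasurable (P.mu γ) W ⊇ W`, `P.mu γ H = P.mu γ W`; `k3e1_prod_src` for `H ∩ Ev γ`, `tm (kbI) ≤ q₁` (`k3e1_kbI_vol`), `(ν × tm)(H ∩ Ev) = μ H`, `(2^n₁ 2^n₁) q₁ = 2^n₁`. -/
theorem k3e1_law_src (hP : P.WF) (n₁ i : ℕ) (γ : P.W) (W : Set (P.Lam × ℝ)) :
    k3e1Law P n₁ γ {x | (x.1, x.2.1) ∈ W ∧ (x.1, x.2.1) ∈ P.Ev γ ∧ x.2.2 ∈ kbI n₁ i} ≤ 2 ^ n₁ * P.mu γ W := by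
  have := hP.prob γ
  have hH : MeasurableSet (toMeasurable (P.mu γ) W) := measurableSet_toMeasurable _ _
  have hI : MeasurableSet (kbI n₁ i) := measurableSet_Ico
  have hsub : {x : P.Lam × ℝ × ℝ | (x.1, x.2.1) ∈ W ∧ (x.1, x.2.1) ∈ P.Ev γ ∧ x.2.2 ∈ kbI n₁ i} ⊆
      {x | (x.1, x.2.1) ∈ toMeasurable (P.mu γ) W ∩ P.Ev γ ∧ x.2.2 ∈ kbI n₁ i} := by
    rintro x ⟨h1, h2, h3⟩
    exact ⟨⟨subset_toMeasurable _ _ h1, h2⟩, h3⟩
  rw [k3e1Law, Measure.smul_apply, smul_eq_mul]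
  have h1 : ((P.nu γ).prod (KbPb.tm.prod KbPb.tm)) {x | (x.1, x.2.1) ∈ W ∧ (x.1, x.2.1) ∈ P.Ev γ ∧ x.2.2 ∈ kbI n₁ i} ≤
      P.mu γ W * ENNReal.ofReal (kbQ n₁) := by
    refine (measure_mono hsub).trans ?_
    rw [k3e1_prod_src _ _ (hH.inter (hP.Ev_meas γ)) _ hI]
    have e1 : ((P.nu γ).prod KbPb.tm) (toMeasurable (P.mu γ) W ∩ P.Ev γ) = P.mu γ W := by
      rw [← measure_toMeasurable W]
      exact (Measure.restrict_apply hH).symm
    rw [e1]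
    exact mul_le_mul_right ((k2s_tm_le _).trans (k3e1_kbI_vol n₁ i).le) _
  calc 2 ^ n₁ * 2 ^ n₁ * ((P.nu γ).prod (KbPb.tm.prod KbPb.tm)) {x | (x.1, x.2.1) ∈ W ∧ (x.1, x.2.1) ∈ P.Ev γ ∧ x.2.2 ∈ kbI n₁ i}
      ≤ 2 ^ n₁ * 2 ^ n₁ * (P.mu γ W * ENNReal.ofReal (kbQ n₁)) := mul_le_mul_right h1 _
    _ = 2 ^ n₁ * P.mu γ W * (ENNReal.ofReal (kbQ n₁) * 2 ^ n₁) := by ring
    _ = _ := by rw [k3e1_q_two, mul_one]

/-- **the source time integrated out** -/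
theorem k3e1_law_wit (hP : P.WF) (n₁ i : ℕ) (γ : P.W) (W : Set (P.Lam × ℝ)) :
    k3e1Law P n₁ γ {x | (x.1, x.2.2) ∈ W ∧ (x.1, x.2.2) ∈ P.Ev γ ∧ x.2.1 ∈ kbI n₁ i} ≤ 2 ^ n₁ * P.mu γ W := by
  have := hP.prob γ
  have hH : MeasurableSet (toMeasurable (P.mu γ) W) := measurableSet_toMeasurable _ _
  have hI : MeasurableSet (kbI n₁ i) := measurableSet_Ico
  have hsub : {x : P.Lam × ℝ × ℝ | (x.1, x.2.2) ∈ W ∧ (x.1, x.2.2) ∈ P.Ev γ ∧ x.2.1 ∈ kbI n₁ i} ⊆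
      {x | (x.1, x.2.2) ∈ toMeasurable (P.mu γ) W ∩ P.Ev γ ∧ x.2.1 ∈ kbI n₁ i} := by
    rintro x ⟨h1, h2, h3⟩
    exact ⟨⟨subset_toMeasurable _ _ h1, h2⟩, h3⟩
  rw [k3e1Law, Measure.smul_apply, smul_eq_mul]
  have h1 : ((P.nu γ).prod (KbPb.tm.prod KbPb.tm)) {x | (x.1, x.2.2) ∈ W ∧ (x.1, x.2.2) ∈ P.Ev γ ∧ x.2.1 ∈ kbI n₁ i} ≤
      P.mu γ W * ENNReal.ofReal (kbQ n₁) := by
    refine (measure_mono hsub).trans ?_
    rw [k3e1_prod_wit _ _ (hH.inter (hP.Ev_meas γ)) _ hI]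
    have e1 : ((P.nu γ).prod KbPb.tm) (toMeasurable (P.mu γ) W ∩ P.Ev γ) = P.mu γ W := by
      rw [← measure_toMeasurable W]
      exact (Measure.restrict_apply hH).symm
    rw [e1]
    exact mul_le_mul_right ((k2s_tm_le _).trans (k3e1_kbI_vol n₁ i).le) _
  calc 2 ^ n₁ * 2 ^ n₁ * ((P.nu γ).prod (KbPb.tm.prod KbPb.tm)) {x | (x.1, x.2.2) ∈ W ∧ (x.1, x.2.2) ∈ P.Ev γ ∧ x.2.1 ∈ kbI n₁ i}
      ≤ 2 ^ n₁ * 2 ^ n₁ * (P.mu γ W * ENNReal.ofReal (kbQ n₁)) := mul_le_mul_right h1 _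
    _ = 2 ^ n₁ * P.mu γ W * (ENNReal.ofReal (kbQ n₁) * 2 ^ n₁) := by ring
    _ = _ := by rw [k3e1_q_two, mul_one]

/-! ## 5. the label count, sums over the labels      (LEAF L-252-S3e1-T7) -/

open Classical in
/-- the old labels of one world and one block -/
def k3e1Lb (Y : KbSys P) (n₁ : ℕ) (γ : P.W) (i : ℕ) : Finset Y.C := Finset.univ.filter fun c => Y.wd c = γ ∧ k3e1Bk Y n₁ c = i

theorem k3e1_lift_eqns_cite2 : True := by
  have := @k3e1Lb.eq_1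
  trivial

/-- **(a02:old-label-count).**   `n_Q = nL q₀^j g`.
PROOF.  `k3e1_count` on the subtype of `k3e1Lb`, `ν = P.nu γ`, `s = Finset.Ico (i m) ((i+1) m)`, `m = 2^(n₀-n₁)` (`Nat.div_eq_iff`-type facts), `φ = ofReal (nL q₀^j g / K²)`:
`hsat c` third part: `ofReal (nL J) ≤ ofReal K · ν_c`, `hax c`: `q₀^j g ≤ K J`.  Convert to `ℝ` (`ENNReal.ofReal_le_ofReal_iff`, `ENNReal.toReal`). -/
theorem k3e1_count_blk (Y : KbSys P) (hP : P.WF) (hY : Y.WF) {n₁ : ℕ} (h : n₁ ≤ Y.n) {K nL g : ℝ} (hK : 1 ≤ K) (hnL : 0 < nL) (hg : 0 < g) (hsat : Y.Sat K nL)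
    (hax : ∀ c, Y.q ^ v.j * g ≤ K * (Y.ch c).J) (γ : P.W) (i : ℕ) :
    ((k3e1Lb Y n₁ γ i).card : ℝ) * (nL * Y.q ^ v.j * g) ≤ K ^ 2 * 2 ^ (Y.n - n₁) := by
  classical
  have hK0 : 0 < K := by linarith
  have hq : 0 < Y.q := k2s_q_pos Y
  obtain ⟨m, hm⟩ : ∃ m : ℕ, m = 2 ^ (Y.n - n₁) := ⟨_, rfl⟩
  have hm0 : 0 < m := by rw [hm]; positivity
  have hmem : ∀ c : {c // c ∈ k3e1Lb Y n₁ γ i}, Y.wd c.1 = γ ∧ Y.iv c.1 / m = i := by
    intro c
    have := c.2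
    unfold k3e1Lb at this
    rw [Finset.mem_filter] at this
    rw [hm]
    exact this.2
  have := hP.prob γ
  have key := k3e1_count (C := {c // c ∈ k3e1Lb Y n₁ γ i}) (P.nu γ) prob_le_one (fun c => Y.A c.1) (fun c => hY.A_meas c.1) (fun c => Y.iv c.1)
    (fun c c' hne hiv => hY.A_disj c.1 c'.1 (fun hh => hne (Subtype.ext hh)) ((hmem c).1.trans (hmem c').1.symm) hiv)
    (Finset.Ico (i * m) ((i + 1) * m))
    (fun c => by
      have h1 : m * (Y.iv c.1 / m) + Y.iv c.1 % m = Y.iv c.1 := Nat.div_add_mod _ _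
      have h2 : Y.iv c.1 % m < m := Nat.mod_lt _ hm0
      rw [(hmem c).2] at h1
      rw [Finset.mem_Ico, Nat.add_mul, one_mul, Nat.mul_comm i m]
      constructor <;> omega)
    (ENNReal.ofReal (nL * Y.q ^ v.j * g / K ^ 2))
    (fun c => by
      have h1 := (hsat c.1).2.2
      have h2 := hax c.1
      have h3 : nL * Y.q ^ v.j * g / K ^ 2 ≤ nL * (Y.ch c.1).J / K := by
        rw [div_le_div_iff₀ (by positivity) hK0]
        nlinarith [mul_pos hnL hK0]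
      have h4 : ENNReal.ofReal (nL * (Y.ch c.1).J / K) ≤ Y.nuC c.1 := by
        rw [ENNReal.ofReal_div_of_pos hK0]
        refine ENNReal.div_le_of_le_mul ?_
        rw [mul_comm (Y.nuC c.1)]
        exact h1
      have h5 : Y.nuC c.1 = P.nu γ (Y.A c.1) := by rw [KbSys.nuC, (hmem c).1]
      exact (ENNReal.ofReal_le_ofReal h3).trans (h5 ▸ h4))
  rw [Fintype.card_coe, Nat.card_Ico] at key
  have e1 : (i + 1) * m - i * m = m := by
    rw [Nat.add_mul, one_mul, Nat.add_sub_cancel_left]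
  rw [e1] at key
  have hx0 : 0 ≤ nL * Y.q ^ v.j * g / K ^ 2 := by positivity
  have key2 : ((k3e1Lb Y n₁ γ i).card : ℝ) * (nL * Y.q ^ v.j * g / K ^ 2) ≤ (m : ℝ) := by
    rw [← ENNReal.ofReal_natCast, ← ENNReal.ofReal_natCast (n := m), ← ENNReal.ofReal_mul (Nat.cast_nonneg _)] at key
    exact (ENNReal.ofReal_le_ofReal_iff (Nat.cast_nonneg _)).1 key
  have hmR : (2 : ℝ) ^ (Y.n - n₁) = (m : ℝ) := by rw [hm]; push_cast; rfl
  rw [hmR]
  have hK2 : 0 < K ^ 2 := by positivity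
  calc ((k3e1Lb Y n₁ γ i).card : ℝ) * (nL * Y.q ^ v.j * g)
      = K ^ 2 * (((k3e1Lb Y n₁ γ i).card : ℝ) * (nL * Y.q ^ v.j * g / K ^ 2)) := by field_simp
    _ ≤ K ^ 2 * m := mul_le_mul_of_nonneg_left key2 hK2.le

/-- **a bound label by label sums to (count per block) × bound**: `∑_c ω q₁ · b ≤ N b` because `∑_γ ω ∑_{i < 2^n₁} q₁ = 1`.   (`Finset.sum_fiberwise` over `(wd c, Bk c) ∈ univ ×ˢ range (2^n₁)`, `k3e1_bk_lt`, `k3e1_q_two`, `hP.om_sum`.) -/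
theorem k3e1_sum_labels (Y : KbSys P) (hP : P.WF) (hY : Y.WF) {n₁ : ℕ} (h : n₁ ≤ Y.n) (N : ℝ) (hN : ∀ γ i, ((k3e1Lb Y n₁ γ i).card : ℝ) ≤ N) (F : Y.C → ℝ≥0∞) (b : ℝ≥0∞) (hF : ∀ c, F c ≤ b) :
    ∑ c, P.om (Y.wd c) * ENNReal.ofReal (kbQ n₁) * F c ≤ ENNReal.ofReal N * b := by
  classical
  have hmaps : ∀ c ∈ (Finset.univ : Finset Y.C), (Y.wd c, k3e1Bk Y n₁ c) ∈ (Finset.univ : Finset P.W) ×ˢ Finset.range (2 ^ n₁) := by
    intro c _
    exact Finset.mem_product.2 ⟨Finset.mem_univ _, Finset.mem_range.2 (k3e1_bk_lt Y hY h c)⟩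
  calc ∑ c, P.om (Y.wd c) * ENNReal.ofReal (kbQ n₁) * F c
      ≤ ∑ c, P.om (Y.wd c) * ENNReal.ofReal (kbQ n₁) * b := Finset.sum_le_sum fun c _ => mul_le_mul_right (hF c) _
    _ = ∑ p ∈ (Finset.univ : Finset P.W) ×ˢ Finset.range (2 ^ n₁), ∑ c ∈ Finset.univ.filter (fun c => (Y.wd c, k3e1Bk Y n₁ c) = p),
          P.om (Y.wd c) * ENNReal.ofReal (kbQ n₁) * b := (Finset.sum_fiberwise_of_maps_to hmaps _).symm
    _ ≤ ∑ p ∈ (Finset.univ : Finset P.W) ×ˢ Finset.range (2 ^ n₁), ENNReal.ofReal N * (P.om p.1 * ENNReal.ofReal (kbQ n₁) * b) := by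
        refine Finset.sum_le_sum fun p _ => ?_
        have e1 : ∑ c ∈ Finset.univ.filter (fun c => (Y.wd c, k3e1Bk Y n₁ c) = p), P.om (Y.wd c) * ENNReal.ofReal (kbQ n₁) * b =
            ∑ _c ∈ Finset.univ.filter (fun c => (Y.wd c, k3e1Bk Y n₁ c) = p), P.om p.1 * ENNReal.ofReal (kbQ n₁) * b := by
          refine Finset.sum_congr rfl fun c hc => ?_
          have := (Finset.mem_filter.1 hc).2
          rw [← this]
        rw [e1, Finset.sum_const, nsmul_eq_mul]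
        refine mul_le_mul_left ?_ _
        have e2 : Finset.univ.filter (fun c => (Y.wd c, k3e1Bk Y n₁ c) = p) = k3e1Lb Y n₁ p.1 p.2 := by
          unfold k3e1Lb
          refine Finset.filter_congr fun c _ => ?_
          rw [Prod.ext_iff]
        rw [e2, ← ENNReal.ofReal_natCast]
        exact ENNReal.ofReal_le_ofReal (hN p.1 p.2)
    _ = ENNReal.ofReal N * b := by
        rw [Finset.sum_product]
        simp only [Finset.sum_const, Finset.card_range, nsmul_eq_mul]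
        have e3 : ∀ γ : P.W, ((2 ^ n₁ : ℕ) : ℝ≥0∞) * (ENNReal.ofReal N * (P.om γ * ENNReal.ofReal (kbQ n₁) * b)) = P.om γ * (ENNReal.ofReal N * b) := by
          intro γ
          have := k3e1_q_two n₁
          push_cast
          calc (2 : ℝ≥0∞) ^ n₁ * (ENNReal.ofReal N * (P.om γ * ENNReal.ofReal (kbQ n₁) * b))
              = (ENNReal.ofReal (kbQ n₁) * 2 ^ n₁) * (P.om γ * (ENNReal.ofReal N * b)) := by ring
            _ = _ := by rw [this, one_mul]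
        simp only [e3]
        rw [← Finset.sum_mul, hP.om_sum, one_mul]

/-! ## 6. entries      (LEAF L-252-S3e1-T8) -/

/-- the pairs of the source entry `c` -/
def k3e1Ent1 (Y : KbSys P) (n₁ : ℕ) (X : Y.C → Y.C → Set (P.Lam × ℝ × ℝ)) (c : Y.C) : Set (P.Lam × ℝ × ℝ) :=
  {x | ∃ c', k3e1Adm Y n₁ c c' ∧ x ∈ k3e1PrC Y c c' ∧ x ∈ X c c'}

/-- the pairs of the witness entry `(c', φ)` -/
def k3e1Ent2 {Φ : Type} (Y : KbSys P) (n₁ : ℕ) (X : Y.C → Y.C → Set (P.Lam × ℝ × ℝ)) (of : Y.C → Φ) (c' : Y.C) (φ : Φ) : Set (P.Lam × ℝ × ℝ) :=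
  {x | ∃ c, of c = φ ∧ k3e1Adm Y n₁ c c' ∧ x ∈ k3e1PrC Y c c' ∧ x ∈ X c c'}

theorem k3e1_lift_eqns_cite3 : True := by
  have := @k3e1Ent1.eq_1
  have := @k3e1Ent2.eq_1
  trivial

/-- the mass of a family, entry by entry (finite disjoint unions of measurable sets) -/
theorem k3e1_pm_ent1 (Y : KbSys P) (hY : Y.WF) (n₁ : ℕ) (X : Y.C → Y.C → Set (P.Lam × ℝ × ℝ)) (hX : ∀ c c', MeasurableSet (X c c')) :
    k3e1PM Y n₁ X = ∑ c, P.om (Y.wd c) * ENNReal.ofReal (kbQ n₁) * k3e1Law P n₁ (Y.wd c) (k3e1Ent1 Y n₁ X c) := by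
  classical
  rw [k3e1PM]
  refine Finset.sum_congr rfl fun c _ => ?_
  have e : k3e1Ent1 Y n₁ X c = ⋃ c' ∈ Finset.univ.filter (fun c' => k3e1Adm Y n₁ c c'), (k3e1PrC Y c c' ∩ X c c') := by
    ext x
    simp only [k3e1Ent1, Set.mem_ofPred_eq, Set.mem_iUnion, Finset.mem_filter, Finset.mem_univ, true_and, Set.mem_inter_iff, exists_prop]
  have hdisj : Set.PairwiseDisjoint (↑(Finset.univ.filter fun c' => k3e1Adm Y n₁ c c') : Set Y.C) fun c' => k3e1PrC Y c c' ∩ X c c' := by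
    intro c' hc' e' he' hne
    simp only [Finset.coe_filter, Finset.mem_univ, true_and, Set.mem_ofPred_eq] at hc' he'
    have hd := k3e1_prc_disj Y hY (c := c) (c' := c') (e := c) (e' := e') rfl (hc'.1.symm.trans he'.1)
      (fun hh => hne (Prod.ext_iff.1 hh).2)
    exact hd.mono Set.inter_subset_left Set.inter_subset_left
  rw [e, measure_biUnion_finset hdisj (fun c' _ => (k3e1_prc_meas Y hY c c').inter (hX c c')), Finset.mul_sum, Finset.sum_filter]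

/-- **light source entries** (l.1152-1165).   (`k3e1_pm_ent1` for the family `X c c' ∩ {light c}` (a set or `∅`): its entry is `Ent1 X c` if `c` is light, `∅` otherwise; `k3e1_sum_labels`.) -/
theorem k3e1_light1 (Y : KbSys P) (hP : P.WF) (hY : Y.WF) {n₁ : ℕ} (h : n₁ ≤ Y.n) (X : Y.C → Y.C → Set (P.Lam × ℝ × ℝ)) (hX : ∀ c c', MeasurableSet (X c c'))
    (N : ℝ) (hN : ∀ γ i, ((k3e1Lb Y n₁ γ i).card : ℝ) ≤ N) (φ : ℝ≥0∞) :
    k3e1PM Y n₁ (fun c c' => {x | x ∈ X c c' ∧ k3e1Law P n₁ (Y.wd c) (k3e1Ent1 Y n₁ X c) < φ}) ≤ ENNReal.ofReal N * φ := by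
  have hX' : ∀ c c', MeasurableSet ((fun c c' => {x | x ∈ X c c' ∧ k3e1Law P n₁ (Y.wd c) (k3e1Ent1 Y n₁ X c) < φ}) c c') := by
    intro c c'
    by_cases hl : k3e1Law P n₁ (Y.wd c) (k3e1Ent1 Y n₁ X c) < φ
    · simp only [hl, and_true]
      exact hX c c'
    · simp only [hl, and_false]
      exact MeasurableSet.empty
  rw [k3e1_pm_ent1 Y hY n₁ _ hX']
  refine k3e1_sum_labels Y hP hY h N hN _ φ fun c => ?_
  by_cases hl : k3e1Law P n₁ (Y.wd c) (k3e1Ent1 Y n₁ X c) < φ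
  · refine (measure_mono ?_).trans hl.le
    rintro x ⟨c', h1, h2, h3, -⟩
    exact ⟨c', h1, h2, h3⟩
  · have : k3e1Ent1 Y n₁ (fun c c' => {x | x ∈ X c c' ∧ k3e1Law P n₁ (Y.wd c) (k3e1Ent1 Y n₁ X c) < φ}) c = ∅ := by
      ext x
      simp only [Set.mem_empty_iff_false, iff_false]
      rintro ⟨c', -, -, -, h4⟩
      exact hl h4
    rw [this, measure_empty]
    exact zero_le

/-- **light witness entries.**   `cmp c'` lists the frames of all partners.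
PROOF.  `PM = ∑_{c'} ω q₁ ∑_{φ ∈ cmp c'} Law (Ent2 c' φ) [light]` (group the sum over `c` by `of c`; pairs with `of c ∉ cmp c'` have empty sets by `hcmp`; `Y.wd c = Y.wd c'` for admissible pairs) `≤ ∑_{c'} ω q₁ (K' φ)`; `k3e1_sum_labels`. -/
theorem k3e1_light2 {Φ : Type} [DecidableEq Φ] (Y : KbSys P) (hP : P.WF) (hY : Y.WF) {n₁ : ℕ} (h : n₁ ≤ Y.n) (X : Y.C → Y.C → Set (P.Lam × ℝ × ℝ)) (hX : ∀ c c', MeasurableSet (X c c'))
    (of : Y.C → Φ) (cmp : Y.C → Finset Φ) (K' : ℝ) (hK' : ∀ c', ((cmp c').card : ℝ) ≤ K') (hcmp : ∀ c c', k3e1Adm Y n₁ c c' → (k3e1PrC Y c c' ∩ X c c').Nonempty → of c ∈ cmp c')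
    (N : ℝ) (hN : ∀ γ i, ((k3e1Lb Y n₁ γ i).card : ℝ) ≤ N) (φ : ℝ≥0∞) :
    k3e1PM Y n₁ (fun c c' => {x | x ∈ X c c' ∧ k3e1Law P n₁ (Y.wd c') (k3e1Ent2 Y n₁ X of c' (of c)) < φ}) ≤ ENNReal.ofReal (N * K') * φ := by
  classical
  by_cases hne : Nonempty Y.C
  swap
  · rw [k3e1PM]
    have : IsEmpty Y.C := not_nonempty_iff.1 hne
    simp
  obtain ⟨c₁⟩ := hne
  have hN0 : 0 ≤ N := (Nat.cast_nonneg _).trans (hN (Y.wd c₁) 0)
  obtain ⟨X2, hX2⟩ : ∃ X2 : Y.C → Y.C → Set (P.Lam × ℝ × ℝ), X2 = fun c c' => {x | x ∈ X c c' ∧ k3e1Law P n₁ (Y.wd c') (k3e1Ent2 Y n₁ X of c' (of c)) < φ} := ⟨_, rfl⟩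
  rw [← hX2]
  have hX2m : ∀ c c', MeasurableSet (X2 c c') := by
    intro c c'
    rw [hX2]
    by_cases hl : k3e1Law P n₁ (Y.wd c') (k3e1Ent2 Y n₁ X of c' (of c)) < φ
    · simp only [hl, and_true]
      exact hX c c'
    · simp only [hl, and_false]
      exact MeasurableSet.empty
  have hX2s : ∀ c c', X2 c c' ⊆ X c c' := by
    intro c c' x hx
    rw [hX2] at hx
    exact hx.1
  -- the bound for one witness label
  have hG : ∀ c', ∑ c, (if k3e1Adm Y n₁ c c' then k3e1Law P n₁ (Y.wd c') (k3e1PrC Y c c' ∩ X2 c c') else 0) ≤ ENNReal.ofReal K' * φ := by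
    intro c'
    have s1 : ∑ c, (if k3e1Adm Y n₁ c c' then k3e1Law P n₁ (Y.wd c') (k3e1PrC Y c c' ∩ X2 c c') else 0) ≤
        ∑ c ∈ Finset.univ.filter (fun c => k3e1Adm Y n₁ c c' ∧ of c ∈ cmp c'), k3e1Law P n₁ (Y.wd c') (k3e1PrC Y c c' ∩ X2 c c') := by
      rw [Finset.sum_filter]
      refine Finset.sum_le_sum fun c _ => ?_
      by_cases hadm : k3e1Adm Y n₁ c c'
      · by_cases hc : of c ∈ cmp c'
        · rw [if_pos hadm, if_pos ⟨hadm, hc⟩]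
        · rw [if_pos hadm, if_neg (fun hh => hc hh.2)]
          have : k3e1PrC Y c c' ∩ X2 c c' = ∅ := by
            by_contra hcon
            obtain ⟨x, hx⟩ := Set.nonempty_iff_ne_empty.2 hcon
            exact hc (hcmp c c' hadm ⟨x, hx.1, hX2s c c' hx.2⟩)
          rw [this, measure_empty]
      · rw [if_neg hadm]
        exact zero_le
    refine s1.trans ?_
    rw [← Finset.sum_fiberwise_of_maps_to (g := of) (t := cmp c') (fun c hc => (Finset.mem_filter.1 hc).2.2)]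
    have s2 : ∀ ψ ∈ cmp c', ∑ c ∈ (Finset.univ.filter (fun c => k3e1Adm Y n₁ c c' ∧ of c ∈ cmp c')).filter (fun c => of c = ψ),
        k3e1Law P n₁ (Y.wd c') (k3e1PrC Y c c' ∩ X2 c c') ≤ φ := by
      intro ψ _
      have hdisj : Set.PairwiseDisjoint (↑((Finset.univ.filter (fun c => k3e1Adm Y n₁ c c' ∧ of c ∈ cmp c')).filter (fun c => of c = ψ)) : Set Y.C)
          fun c => k3e1PrC Y c c' ∩ X2 c c' := by
        intro c hc e he hne
        have hc1 := (Finset.mem_filter.1 (Finset.mem_filter.1 hc).1).2.1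
        have he1 := (Finset.mem_filter.1 (Finset.mem_filter.1 he).1).2.1
        have hd := k3e1_prc_disj Y hY (c := c) (c' := c') (e := e) (e' := c') (hc1.1.trans he1.1.symm) rfl
          (fun hh => hne (Prod.ext_iff.1 hh).1)
        exact hd.mono Set.inter_subset_left Set.inter_subset_left
      rw [← measure_biUnion_finset hdisj (fun c _ => (k3e1_prc_meas Y hY c c').inter (hX2m c c'))]
      by_cases hl : k3e1Law P n₁ (Y.wd c') (k3e1Ent2 Y n₁ X of c' ψ) < φ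
      · refine (measure_mono ?_).trans hl.le
        intro x hx
        simp only [Set.mem_iUnion, exists_prop] at hx
        obtain ⟨c, hc, hx1, hx2⟩ := hx
        have hc1 := (Finset.mem_filter.1 (Finset.mem_filter.1 hc).1).2.1
        exact ⟨c, (Finset.mem_filter.1 hc).2, hc1, hx1, hX2s c c' hx2⟩
      · have : (⋃ c ∈ (Finset.univ.filter (fun c => k3e1Adm Y n₁ c c' ∧ of c ∈ cmp c')).filter (fun c => of c = ψ), k3e1PrC Y c c' ∩ X2 c c') = ∅ := by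
          ext x
          simp only [Set.mem_iUnion, exists_prop, Set.mem_empty_iff_false, iff_false]
          rintro ⟨c, hc, -, hx2⟩
          rw [hX2] at hx2
          have := hx2.2
          rw [(Finset.mem_filter.1 hc).2] at this
          exact hl this
        rw [this, measure_empty]
        exact zero_le
    calc ∑ ψ ∈ cmp c', ∑ c ∈ (Finset.univ.filter (fun c => k3e1Adm Y n₁ c c' ∧ of c ∈ cmp c')).filter (fun c => of c = ψ),
          k3e1Law P n₁ (Y.wd c') (k3e1PrC Y c c' ∩ X2 c c')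
        ≤ ∑ _ψ ∈ cmp c', φ := Finset.sum_le_sum s2
      _ = ((cmp c').card : ℝ≥0∞) * φ := by rw [Finset.sum_const, nsmul_eq_mul]
      _ ≤ ENNReal.ofReal K' * φ := by
          refine mul_le_mul_left ?_ _
          rw [← ENNReal.ofReal_natCast]
          exact ENNReal.ofReal_le_ofReal (hK' c')
  have hsw : k3e1PM Y n₁ X2 = ∑ c', P.om (Y.wd c') * ENNReal.ofReal (kbQ n₁) *
      ∑ c, (if k3e1Adm Y n₁ c c' then k3e1Law P n₁ (Y.wd c') (k3e1PrC Y c c' ∩ X2 c c') else 0) := by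
    rw [k3e1PM, Finset.sum_comm]
    refine Finset.sum_congr rfl fun c' _ => ?_
    rw [Finset.mul_sum]
    refine Finset.sum_congr rfl fun c _ => ?_
    by_cases hadm : k3e1Adm Y n₁ c c'
    · rw [if_pos hadm, if_pos hadm, hadm.1]
    · rw [if_neg hadm, if_neg hadm, mul_zero]
  rw [hsw, ENNReal.ofReal_mul hN0, mul_assoc]
  exact k3e1_sum_labels Y hP hY h N hN _ _ hG

/-! ## 7. the normal exception      (LEAF L-252-S3e1-T9) -/

/-- **LEAF L-252-S3e1-T9** ((a02:normal-exception), ~250 l.).   `Tr c c'` = "the normals are transversal"; for such pairs the velocity lies within `ρ` of `V₀ c c'`; `U c` = extrapolated region of the source chart; `a`, `b₀ B` = value bound and derivative floor of the SOURCE test at the WITNESS time.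
PROOF.  `k3e1_pm_ent1`; for fixed `c` (`γ = wd c`, `i = Bk c`): `Ent1 ⊆ {x | (x.1,x.2.2) ∈ W_c ∧ (x.1,x.2.2) ∈ Ev γ ∧ x.2.1 ∈ kbI n₁ i}` with `W_c` = the set of `k3e1_ang` for `T = (Y.ch c).T`, `b = b₀ B`, `ι = Y.C`, `Lst d o = (Lst₀ γ d o).filter (Tr c)`
(`Lst₀` from `hkn`; the witness label `c'` is in the list), `V₀ = V₀ c`.   `k3e1_law_wit`, `k3e1_ang` (`a B/(b₀ B δ) = a/(b₀ δ)`), `hvol`; then `k3e1_sum_labels` with `b = 2^n₁ · (..)`. -/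
theorem k3e1_pm_normal (Y : KbSys P) (hP : P.WF) (hY : Y.WF) {n₁ : ℕ} (h : n₁ ≤ Y.n) (X : Y.C → Y.C → Set (P.Lam × ℝ × ℝ)) (hX : ∀ c c', MeasurableSet (X c c')) (Tr : Y.C → Y.C → Prop)
    (δ β a b₀ hi ρ KL N vol : ℝ) (hδ : 0 < δ) (hβ : 0 < β) (ha : 0 ≤ a) (hb : 0 < b₀) (hhi : 0 ≤ hi) (hρ : 0 ≤ ρ) (hvol0 : 0 ≤ vol) (hkn : Y.Known (P.hid δ) KL)
    (U : Y.C → Set (ℝ × KbB v)) (hU : ∀ c, MeasurableSet (U c)) (hvol : ∀ c, volume (U c) ≤ ENNReal.ofReal vol) (V₀ : Y.C → Y.C → KbB v)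
    (hN : ∀ γ i, ((k3e1Lb Y n₁ γ i).card : ℝ) ≤ N)
    (hx : ∀ c c', k3e1Adm Y n₁ c c' → Tr c c' → ∀ x ∈ k3e1PrC Y c c' ∩ X c c', P.dn (P.hv δ β) (Y.wd c) (x.1, x.2.2) ≤ ENNReal.ofReal hi ∧ P.bs (Y.wd c) (x.1, x.2.2) ∈ U c ∧
      |kbX (Y.ch c).T (P.co (Y.wd c) x.1) x.2.2| ≤ a ∧ b₀ * P.B (Y.wd c) ≤ |kbX (kbDw (Y.ch c).T) (P.co (Y.wd c) x.1) x.2.2| ∧ ‖kbV (P.co (Y.wd c) x.1) - V₀ c c'‖ ≤ ρ) :
    k3e1PM Y n₁ (fun c c' => {x | x ∈ X c c' ∧ Tr c c'}) ≤ ENNReal.ofReal (N * (2 ^ n₁ * (8 * (1 + a / (b₀ * δ)) * KL * (2 * ρ / β + 2) ^ v.j * hi * vol))) := by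
  classical
  by_cases hne : Nonempty Y.C
  swap
  · rw [k3e1PM]
    have : IsEmpty Y.C := not_nonempty_iff.1 hne
    simp
  obtain ⟨c₁⟩ := hne
  have hN0 : 0 ≤ N := (Nat.cast_nonneg _).trans (hN (Y.wd c₁) 0)
  obtain ⟨Lst₀, hcard, hLm₀, hmem₀⟩ := hkn
  have hKL : 0 ≤ KL := (Nat.cast_nonneg _).trans (hcard (Y.wd c₁) 0 (0, 0))
  have hX' : ∀ c c', MeasurableSet ((fun c c' => {x | x ∈ X c c' ∧ Tr c c'}) c c') := by
    intro c c'
    by_cases hl : Tr c c'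
    · simp only [hl, and_true]
      exact hX c c'
    · simp only [hl, and_false]
      exact MeasurableSet.empty
  rw [k3e1_pm_ent1 Y hY n₁ _ hX', ENNReal.ofReal_mul hN0]
  refine k3e1_sum_labels Y hP hY h N hN _ _ fun c => ?_
  have hB := hP.B_pos (Y.wd c)
  have hang := k3e1_ang P hP (Y.wd c) (Y.ch c).T (hY.adm c).1 δ β a (b₀ * P.B (Y.wd c)) hi ρ hδ hβ ha (by positivity) hhi hρ (U c) (hU c)
    (fun d o => (Lst₀ (Y.wd c) d o).filter (Tr c))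
    (fun d i => by
      by_cases hl : Tr c i
      · simp only [Finset.mem_filter, hl, and_true]
        exact hLm₀ (Y.wd c) d i
      · simp only [Finset.mem_filter, hl, and_false]
        exact MeasurableSet.empty)
    KL (fun d o => le_trans (by exact_mod_cast Finset.card_filter_le _ _) (hcard (Y.wd c) d o)) (V₀ c)
  have hsub : k3e1Ent1 Y n₁ (fun c c' => {x | x ∈ X c c' ∧ Tr c c'}) c ⊆
      {x | (x.1, x.2.2) ∈ {x : P.Lam × ℝ | P.dn (P.hv δ β) (Y.wd c) x ≤ ENNReal.ofReal hi ∧ P.bs (Y.wd c) x ∈ U c ∧ |kbX (Y.ch c).T (P.co (Y.wd c) x.1) x.2| ≤ a ∧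
          b₀ * P.B (Y.wd c) ≤ |kbX (kbDw (Y.ch c).T) (P.co (Y.wd c) x.1) x.2| ∧
          ∃ i ∈ (Lst₀ (Y.wd c) (P.hid δ (Y.wd c) x) (P.bs (Y.wd c) x)).filter (Tr c), ‖kbV (P.co (Y.wd c) x.1) - V₀ c i‖ ≤ ρ} ∧
        (x.1, x.2.2) ∈ P.Ev (Y.wd c) ∧ x.2.1 ∈ kbI n₁ (k3e1Bk Y n₁ c)} := by
    rintro x ⟨c', hadm, hxP, hxX, hTr⟩
    obtain ⟨f1, f2, f3, f4, f5⟩ := hx c c' hadm hTr x ⟨hxP, hxX⟩
    have hm := k3e1_prc_mem Y hY hxP
    refine ⟨⟨f1, f2, f3, f4, c', Finset.mem_filter.2 ⟨?_, hTr⟩, f5⟩, ?_, k3e1_I_sub Y h c hm.2.1⟩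
    · have := hmem₀ c' (x.1, x.2.2) hxP.2
      rw [← hadm.1] at this
      exact this
    · rw [hadm.1]; exact hm.2.2.2.2.2
  refine (measure_mono hsub).trans ((k3e1_law_wit hP n₁ _ (Y.wd c) _).trans ?_)
  have e1 : a * P.B (Y.wd c) / (b₀ * P.B (Y.wd c) * δ) = a / (b₀ * δ) := by
    field_simp
  rw [e1] at hang
  have hc0 : 0 ≤ 8 * (1 + a / (b₀ * δ)) * KL * (2 * ρ / β + 2) ^ v.j * hi := by positivity
  calc 2 ^ n₁ * P.mu (Y.wd c) _ ≤ 2 ^ n₁ * (ENNReal.ofReal (8 * (1 + a / (b₀ * δ)) * KL * (2 * ρ / β + 2) ^ v.j * hi) * volume (U c)) :=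
        mul_le_mul_right hang _
    _ ≤ 2 ^ n₁ * (ENNReal.ofReal (8 * (1 + a / (b₀ * δ)) * KL * (2 * ρ / β + 2) ^ v.j * hi) * ENNReal.ofReal vol) :=
        mul_le_mul_right (mul_le_mul_right (hvol c) _) _
    _ = _ := by
        rw [ENNReal.ofReal_mul (p := 2 ^ n₁) (by positivity), ENNReal.ofReal_mul (q := vol) hc0, ENNReal.ofReal_pow (by norm_num)]
        simp

/-! ## 8. source-base densities, bands      (LEAF L-252-S3e1-T10) -/

/-- **LEAF L-252-S3e1-T10** ((a02:source-base-density)).   ANY test `T` with value `≤ a` and derivative `≥ b₀ B` at the SOURCE incidence (the source's own test, or the witness's extrapolated test).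
PROOF.  `k3e1_law_src` with `W` = the set of `k3e1_den` for `U = {o | F.z n₁ i o.1 o.2 ∈ O}` (`k3e1_z_meas`), `k3e1_z_vol`, `2^n₁ q₁ = 1`. -/
theorem k3e1_den_z (hP : P.WF) (n₁ i : ℕ) (γ : P.W) (F : K3bFrm v) (hF : F.M * F.Mi = 1) (T : KbTest v) (hT : KbIsQuad T) (δ a b₀ hi : ℝ) (hδ : 0 < δ) (ha : 0 ≤ a) (hb : 0 < b₀) (hhi : 0 ≤ hi)
    (O : Set (Fin (v.j + 1) → ℝ)) (hO : MeasurableSet O) :
    k3e1Law P n₁ γ {x | (x.1, x.2.1) ∈ P.Ev γ ∧ x.2.2 ∈ kbI n₁ i ∧ P.dn (P.hid δ) γ (x.1, x.2.1) ≤ ENNReal.ofReal hi ∧ |kbX T (P.co γ x.1) x.2.1| ≤ a ∧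
        b₀ * P.B γ ≤ |kbX (kbDw T) (P.co γ x.1) x.2.1| ∧ F.zl n₁ i (P.co γ x.1) x.2.1 ∈ O}
      ≤ ENNReal.ofReal (8 * (1 + a / (b₀ * δ)) * hi * |F.M.det|) * volume O := by
  have hB := hP.B_pos γ
  have hUm : MeasurableSet {o : ℝ × KbB v | F.z n₁ i o.1 o.2 ∈ O} := k3e1_z_meas F n₁ i hO
  have hden := k3e1_den P hP γ T hT δ a (b₀ * P.B γ) hi hδ ha (by positivity) hhi _ hUm
  have e1 : a * P.B γ / (b₀ * P.B γ * δ) = a / (b₀ * δ) := by
    field_simp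
  rw [e1, k3e1_z_vol F hF n₁ i O hO] at hden
  have hsub : {x : P.Lam × ℝ × ℝ | (x.1, x.2.1) ∈ P.Ev γ ∧ x.2.2 ∈ kbI n₁ i ∧ P.dn (P.hid δ) γ (x.1, x.2.1) ≤ ENNReal.ofReal hi ∧ |kbX T (P.co γ x.1) x.2.1| ≤ a ∧
        b₀ * P.B γ ≤ |kbX (kbDw T) (P.co γ x.1) x.2.1| ∧ F.zl n₁ i (P.co γ x.1) x.2.1 ∈ O} ⊆
      {x | (x.1, x.2.1) ∈ {x : P.Lam × ℝ | P.dn (P.hid δ) γ x ≤ ENNReal.ofReal hi ∧ P.bs γ x ∈ {o : ℝ × KbB v | F.z n₁ i o.1 o.2 ∈ O} ∧ |kbX T (P.co γ x.1) x.2| ≤ a ∧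
          b₀ * P.B γ ≤ |kbX (kbDw T) (P.co γ x.1) x.2|} ∧ (x.1, x.2.1) ∈ P.Ev γ ∧ x.2.2 ∈ kbI n₁ i} := by
    rintro x ⟨h1, h2, h3, h4, h5, h6⟩
    exact ⟨⟨h3, h6, h4, h5⟩, h1, h2⟩
  refine (measure_mono hsub).trans ((k3e1_law_src hP n₁ i γ _).trans ?_)
  have hc0 : 0 ≤ 8 * (1 + a / (b₀ * δ)) * hi := by positivity
  have hq : 0 ≤ kbQ n₁ := by rw [kbQ]; positivity
  calc 2 ^ n₁ * P.mu γ _ ≤ 2 ^ n₁ * (ENNReal.ofReal (8 * (1 + a / (b₀ * δ)) * hi) * (ENNReal.ofReal (kbQ n₁ * |F.M.det|) * volume O)) :=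
        mul_le_mul_right hden _
    _ = (ENNReal.ofReal (kbQ n₁) * 2 ^ n₁) * (ENNReal.ofReal (8 * (1 + a / (b₀ * δ)) * hi) * ENNReal.ofReal |F.M.det| * volume O) := by
        rw [ENNReal.ofReal_mul hq]; ring
    _ = _ := by rw [k3e1_q_two, one_mul, ← ENNReal.ofReal_mul hc0]

/-- **LEAF L-252-S3e1-T10** ((a02:matching-group-mass), first half).   A moving band about a reference graph `f` in the coordinates of the frame (`k3e1_band` with `f ∘ z`). -/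
theorem k3e1_band_z (hP : P.WF) (n₁ i : ℕ) (γ : P.W) (F : K3bFrm v) (hF : F.M * F.Mi = 1) (a ρ hi : ℝ) (ha : 0 < a) (hρ : 0 ≤ ρ) (hhi : 0 ≤ hi)
    (f : (Fin (v.j + 1) → ℝ) → ℝ) (hf : Measurable f) (O : Set (Fin (v.j + 1) → ℝ)) (hO : MeasurableSet O) :
    k3e1Law P n₁ γ {x | (x.1, x.2.1) ∈ P.Ev γ ∧ x.2.2 ∈ kbI n₁ i ∧ P.dn (P.hid a) γ (x.1, x.2.1) ≤ ENNReal.ofReal hi ∧ F.zl n₁ i (P.co γ x.1) x.2.1 ∈ O ∧
        |P.B γ * kbW (P.co γ x.1) x.2.1 - f (F.zl n₁ i (P.co γ x.1) x.2.1)| ≤ ρ}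
      ≤ ENNReal.ofReal ((2 * ρ / a + 2) * hi * |F.M.det|) * volume O := by
  have hUm : MeasurableSet {o : ℝ × KbB v | F.z n₁ i o.1 o.2 ∈ O} := k3e1_z_meas F n₁ i hO
  have hband := k3e1_band P hP γ a ρ hi ha hρ hhi _ hUm (fun o => f (F.z n₁ i o.1 o.2)) (hf.comp (k3e1_z_meas F n₁ i))
  rw [k3e1_z_vol F hF n₁ i O hO] at hband
  have hsub : {x : P.Lam × ℝ × ℝ | (x.1, x.2.1) ∈ P.Ev γ ∧ x.2.2 ∈ kbI n₁ i ∧ P.dn (P.hid a) γ (x.1, x.2.1) ≤ ENNReal.ofReal hi ∧ F.zl n₁ i (P.co γ x.1) x.2.1 ∈ O ∧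
        |P.B γ * kbW (P.co γ x.1) x.2.1 - f (F.zl n₁ i (P.co γ x.1) x.2.1)| ≤ ρ} ⊆
      {x | (x.1, x.2.1) ∈ {x : P.Lam × ℝ | P.dn (P.hid a) γ x ≤ ENNReal.ofReal hi ∧ P.bs γ x ∈ {o : ℝ × KbB v | F.z n₁ i o.1 o.2 ∈ O} ∧
          |P.B γ * P.hw γ x - (fun o : ℝ × KbB v => f (F.z n₁ i o.1 o.2)) (P.bs γ x)| ≤ ρ} ∧ (x.1, x.2.1) ∈ P.Ev γ ∧ x.2.2 ∈ kbI n₁ i} := by
    rintro x ⟨h1, h2, h3, h4, h5⟩
    exact ⟨⟨h3, h4, h5⟩, h1, h2⟩
  refine (measure_mono hsub).trans ((k3e1_law_src hP n₁ i γ _).trans ?_)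
  have hc0 : 0 ≤ (2 * ρ / a + 2) * hi := by positivity
  have hq : 0 ≤ kbQ n₁ := by rw [kbQ]; positivity
  calc 2 ^ n₁ * P.mu γ _ ≤ 2 ^ n₁ * (ENNReal.ofReal ((2 * ρ / a + 2) * hi) * (ENNReal.ofReal (kbQ n₁ * |F.M.det|) * volume O)) :=
        mul_le_mul_right hband _
    _ = (ENNReal.ofReal (kbQ n₁) * 2 ^ n₁) * (ENNReal.ofReal ((2 * ρ / a + 2) * hi) * ENNReal.ofReal |F.M.det| * volume O) := by
        rw [ENNReal.ofReal_mul hq]; ring
    _ = _ := by rw [k3e1_q_two, one_mul, ← ENNReal.ofReal_mul hc0]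

end

end Claimed.Agent.R252

end PkS3e1LiftContract
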