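import Claimed.Agent.R252.S3e1.PkB
import Claimed.Agent.R252.S3e1.PkA
import Claimed.Agent.R252.S3b.Cmp
import Claimed.Agent.R252.S3b.Sh
import Claimed.Agent.R252.S4E.Contract

/-! PACKED FILE (helper215, closed unit S3e1 of row 252, FROZEN): parts S3e1.ExtContract, S3e1.Build, S3e1.QuadContract.  Each part is wrapped in its own `section`.  -- KEEP -/

section PkS3e1ExtContract

/-!
# ROW 252 (S0492), unit S3e1 (sub-architect helper215, chief helper70): CONTRACT, file 8: EXTRAPOLATION TO THE LONGER BLOCK; THE EQUATION OF A TEST IN A FRAME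
`03-comparison.tex` l.990-1003 ((a02:old-test-extrapolation)), l.1131-1137 and l.1167-1172 (`P_{A,D}` = the old test in the real affine coordinates of `D`, hidden variable `ω = B w`).

PAPER-FREE.  Prefix `k3e1_`.  Every `sorry` is a leaf `L-252-S3e1-X*`: prove IN PLACE, statement verbatim, helper lemmas directly above (same prefix).
-/

set_option autoImplicit false

namespace Claimed.Agent.R252

open MeasureTheory
open scoped ENNReal BigOperators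

noncomputable section

variable {v : KbVer} {P : KbPb v}

/-! ## 1. extrapolation      (LEAF L-252-S3e1-X1) -/

theorem k3e1_quad_line (Q : KbQuad v) (a b : KbB v) (w0 w1 : ℝ) : ∃ α β γ : ℝ, ∀ t, Q.ev t (a + t • b) (w0 + w1 * t) = α + β * t + γ * t ^ 2 := by
  refine ⟨Q.c0 + Q.cy ⬝ᵥ a + Q.cw * w0 + a ⬝ᵥ Q.cyy.mulVec a + w0 * (Q.cyw ⬝ᵥ a) + Q.cww * w0 ^ 2,
    Q.ct + Q.cy ⬝ᵥ b + Q.cw * w1 + Q.cty ⬝ᵥ a + Q.ctw * w0 + (a ⬝ᵥ Q.cyy.mulVec b + b ⬝ᵥ Q.cyy.mulVec a) + w0 * (Q.cyw ⬝ᵥ b) + w1 * (Q.cyw ⬝ᵥ a) + 2 * Q.cww * w0 * w1,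
    Q.ctt + Q.cty ⬝ᵥ b + Q.ctw * w1 + b ⬝ᵥ Q.cyy.mulVec b + w1 * (Q.cyw ⬝ᵥ b) + Q.cww * w1 ^ 2, fun t => ?_⟩
  simp only [KbQuad.ev, dotProduct_add, add_dotProduct, dotProduct_smul, smul_dotProduct, Matrix.mulVec_add, Matrix.mulVec_smul, smul_eq_mul]
  ring

/-- an admissible test is a polynomial of degree `≤ 2` along a trajectory.   (`cases v`.  Version two: as `k3e3_der_affine`: `y`, `w` affine in `t`, expand `KbQuad.ev` (`dotProduct_add`, `Matrix.mulVec_add`, `Matrix.mulVec_smul`, `dotProduct_smul`, `ring`).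
Version one: `T t y w = w + T t y 0` (`hT.2 rfl`), `w(t)` quadratic (`Fin.sum_univ_three`), `T t (y t) 0` quadratic.) -/
theorem k3e1_val_quad {T : KbTest v} (hT : KbAdm T) (l : KbTj v) : ∃ α β γ : ℝ, ∀ t, kbX T l t = α + β * t + γ * t ^ 2 := by
  obtain ⟨Q, hQ⟩ := hT.1
  cases v with
  | one =>
    obtain ⟨α, β, γ, h⟩ := k3e1_quad_line Q l.1 l.2.1 0 0
    refine ⟨α + l.2.2 (0 : Fin 3), β + l.2.2 (1 : Fin 3), γ + l.2.2 (2 : Fin 3), fun t => ?_⟩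
    have hw : kbW l t = l.2.2 (0 : Fin 3) + l.2.2 (1 : Fin 3) * t + l.2.2 (2 : Fin 3) * t ^ 2 := by
      unfold kbW
      have := Fin.sum_univ_three fun i : Fin 3 => l.2.2 i * t ^ (i : ℕ)
      refine this.trans ?_
      simp
    have h' := h t
    rw [zero_mul, add_zero] at h'
    unfold kbX
    rw [hT.2 rfl, hQ, hw]
    unfold kbY
    rw [h']
    ring
  | two =>
    obtain ⟨α, β, γ, h⟩ := k3e1_quad_line Q l.1 l.2.1 (l.2.2 (0 : Fin 2)) (l.2.2 (1 : Fin 2))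
    refine ⟨α, β, γ, fun t => ?_⟩
    have hw : kbW l t = l.2.2 (0 : Fin 2) + l.2.2 (1 : Fin 2) * t := by
      unfold kbW
      have := Fin.sum_univ_two fun i : Fin 2 => l.2.2 i * t ^ (i : ℕ)
      refine this.trans ?_
      simp
    unfold kbX kbY
    rw [hQ, hw]
    exact h t

/-- chart coordinates are affine along a trajectory -/
theorem k3e1_box_affine (Di : Matrix (Fin v.j) (Fin v.j) ℝ) (y0 y1 : KbB v) (l : KbTj v) (k : Fin v.j) : ∃ α β : ℝ, ∀ t, Di.mulVec (kbY l t - (y0 + t • y1)) k = α + β * t := by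
  refine ⟨Di.mulVec (l.1 - y0) k, Di.mulVec (l.2.1 - y1) k, fun t => ?_⟩
  have e : kbY l t - (y0 + t • y1) = (l.1 - y0) + t • (l.2.1 - y1) := by
    unfold kbY
    rw [smul_sub]
    abel
  rw [e, Matrix.mulVec_add, Matrix.mulVec_smul, Pi.add_apply, Pi.smul_apply, smul_eq_mul]
  ring

/-- **(a02:old-test-extrapolation).**   `E = 2^(n₀ - n₁)`.
PROOF.  `s₀ = Y.tc c`, `Icc s₀ (s₀ + q₀/2) ⊆ Y.I c`; `t, s₀ ∈ k3e1Ic` (`k3e1_I_sub`, `k3e1_kbI_sub_Ic`), so `|t - s₀| ≤ q₁ = (2E)(q₀/2)` (`k3e1_q_eq`).  `k3e1_extrap2` (`17 (2E)² = 68 E²`), `k3e1_extrap1` (`3 (2E) = 6E`) for `k3e1_val_quad`, `k3e3_der_affine`, `k3e1_box_affine` and the bounds `hG.val`, `hG.dw`, `hG.box`. -/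
theorem k3e1_ext (Y : KbSys P) (hY : Y.WF) {n₁ : ℕ} (h : n₁ ≤ Y.n) {K δ : ℝ} (hG : Y.Geo K δ) (c : Y.C) (l : P.Lam) (hl : l ∈ Y.A c) (t : ℝ) (ht : t ∈ k3e1Ic Y n₁ c) :
    |kbX (Y.ch c).T (P.co (Y.wd c) l) t| ≤ 68 * (2 ^ (Y.n - n₁)) ^ 2 * (K * δ) ∧ |kbX (kbDw (Y.ch c).T) (P.co (Y.wd c) l) t| ≤ 6 * 2 ^ (Y.n - n₁) * (K * P.B (Y.wd c)) ∧
      ‖(Y.ch c).Di.mulVec (kbY (P.co (Y.wd c) l) t - (Y.ch c).yc t)‖ ≤ 6 * 2 ^ (Y.n - n₁) * K := by
  obtain ⟨E, hE⟩ : ∃ E : ℝ, E = 2 ^ (Y.n - n₁) := ⟨_, rfl⟩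
  rw [← hE]
  have hE1 : 1 ≤ E := by
    rw [hE]
    exact one_le_pow₀ (by norm_num)
  have hq0 : 0 < Y.q := by
    unfold KbSys.q kbQ
    positivity
  have hsub : ∀ s ∈ Set.Icc (Y.tc c) (Y.tc c + Y.q / 2), s ∈ Y.I c := by
    intro s hs
    unfold KbSys.I kbI
    unfold KbSys.tc at hs
    unfold KbSys.q at hs hq0
    exact ⟨hs.1, by nlinarith [hs.2]⟩
  have hs0 : Y.tc c ∈ k3e1Ic Y n₁ c := k3e1_kbI_sub_Ic Y n₁ c (k3e1_I_sub Y h c (hsub _ ⟨le_rfl, by linarith⟩))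
  have hdist : |t - Y.tc c| ≤ 2 * E * (Y.q / 2) := by
    have e : 2 * E * (Y.q / 2) = kbQ n₁ := by
      rw [k3e1_q_eq Y h, hE]
      ring
    rw [e]
    unfold k3e1Ic at ht hs0
    rw [abs_le]
    constructor <;> nlinarith [ht.1, ht.2, hs0.1, hs0.2]
  have h2E : 1 ≤ 2 * E := by linarith
  have hq2 : 0 < Y.q / 2 := by linarith
  refine ⟨?_, ?_, ?_⟩
  · obtain ⟨α, β, γ, hv⟩ := k3e1_val_quad (hY.adm c) (P.co (Y.wd c) l)
    have := k3e1_extrap2 α β γ (Y.tc c) (Y.q / 2) (2 * E) (K * δ) hq2 h2E (fun s hs => by rw [← hv]; exact hG.val c l hl s (hsub s hs)) t hdist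
    rw [hv]
    refine this.trans (le_of_eq ?_)
    ring
  · obtain ⟨α, β, hv⟩ := k3e3_der_affine (hY.adm c) (P.co (Y.wd c) l)
    have := (k3e1_extrap1 α β (Y.tc c) (Y.q / 2) (2 * E) (K * P.B (Y.wd c)) hq2 h2E (fun s hs => by rw [← hv]; exact hG.dw c l hl s (hsub s hs))).1 t hdist
    rw [hv]
    refine this.trans (le_of_eq ?_)
    ring
  · have hK : 0 ≤ K := (norm_nonneg _).trans (hG.box c l hl _ (hsub _ ⟨le_rfl, by linarith⟩))
    rw [pi_norm_le_iff_of_nonneg (by positivity)]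
    intro k
    obtain ⟨α, β, hv⟩ := k3e1_box_affine (Y.ch c).Di (Y.ch c).y0 (Y.ch c).y1 (P.co (Y.wd c) l) k
    have := (k3e1_extrap1 α β (Y.tc c) (Y.q / 2) (2 * E) K hq2 h2E (fun s hs => by
      rw [← hv, ← Real.norm_eq_abs]
      exact (norm_le_pi_norm _ k).trans (hG.box c l hl s (hsub s hs)))).1 t hdist
    unfold KbChart.yc
    rw [hv, Real.norm_eq_abs]
    refine this.trans (le_of_eq ?_)
    ring

/-! ## 2. the equation of a test in a frame      (LEAVES L-252-S3e1-X2, X3) -/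

/-- the coordinate map of a frame is onto (`t = (i + z 0) q₁`, `y = y_c t + M ξ`, `Mi * M = 1` by `Matrix.mul_eq_one_comm`; `Fin.cons_self_tail`/`Fin.cons` extensionality) -/
theorem k3e1_z_surj (F : K3bFrm v) (hF : F.M * F.Mi = 1) (n₁ i : ℕ) (z : Fin (v.j + 1) → ℝ) : ∃ t y, F.z n₁ i t y = z := by
  have hq : kbQ n₁ ≠ 0 := by
    unfold kbQ
    positivity
  have hF' : F.Mi * F.M = 1 := mul_eq_one_comm.1 hF
  refine ⟨((i : ℝ) + z 0) * kbQ n₁, F.yc (((i : ℝ) + z 0) * kbQ n₁) + F.M.mulVec (Fin.tail z), ?_⟩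
  unfold K3bFrm.z
  rw [add_sub_cancel_left, Matrix.mulVec_mulVec, hF', Matrix.one_mulVec]
  have e : (((i : ℝ) + z 0) * kbQ n₁ - (i : ℝ) * kbQ n₁) / kbQ n₁ = z 0 := by
    field_simp
    ring
  rw [e]
  exact Fin.cons_self_tail z

/-- functions of `(z, ω)` which are equations with a symmetric quadratic part -/
def k3e1IsEq {n : ℕ} (G : (Fin n → ℝ) → ℝ → ℝ) : Prop := ∃ Pq : K3bEq n, (∀ a b, Pq.p0.c2 a b = Pq.p0.c2 b a) ∧ ∀ z ω, G z ω = Pq.evR z ω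

theorem k3e1_ext_eqns_cite : True := by
  have := @k3e1IsEq.eq_1
  trivial

/-- **LEAF L-252-S3e1-X2.**  sums -/
theorem k3e1_isEq_add {n : ℕ} {G H : (Fin n → ℝ) → ℝ → ℝ} (hG : k3e1IsEq G) (hH : k3e1IsEq H) : k3e1IsEq fun z ω => G z ω + H z ω := by
  obtain ⟨p, hp, hpe⟩ := hG
  obtain ⟨q, hq, hqe⟩ := hH
  refine ⟨⟨⟨p.p0.c0 + q.p0.c0, fun i => p.p0.c1 i + q.p0.c1 i, fun i j => p.p0.c2 i j + q.p0.c2 i j⟩, p.a0 + q.a0, fun i => p.a1 i + q.a1 i, p.c + q.c⟩, fun a b => ?_, fun z ω => ?_⟩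
  · simp only
    rw [hp, hq]
  · simp only [hpe, hqe, K3bEq.evR, K3bQd.evR, add_mul, Finset.sum_add_distrib]
    ring

theorem k3e1_isEq_sum {n : ℕ} {ι : Type} (s : Finset ι) {G : ι → (Fin n → ℝ) → ℝ → ℝ} (hG : ∀ k ∈ s, k3e1IsEq (G k)) : k3e1IsEq fun z ω => ∑ k ∈ s, G k z ω := by
  classical
  induction s using Finset.induction_on with
  | empty =>
    refine ⟨⟨⟨0, fun _ => 0, fun _ _ => 0⟩, 0, fun _ => 0, 0⟩, fun a b => rfl, fun z ω => ?_⟩
    simp [K3bEq.evR, K3bQd.evR]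
  | insert a s ha ih =>
    have h1 := k3e1_isEq_add (hG a (Finset.mem_insert_self a s)) (ih fun k hk => hG k (Finset.mem_insert_of_mem hk))
    have e : (fun z ω => ∑ k ∈ insert a s, G k z ω) = fun z ω => G a z ω + ∑ k ∈ s, G k z ω := by
      funext z ω
      rw [Finset.sum_insert ha]
    rw [e]
    exact h1

/-- **LEAF L-252-S3e1-X2.**  a constant times the product of two affine functions of `(z, ω)`:
`p0.c0 = κ α₀ β₀`, `p0.c1 i = κ (α₀ β i + β₀ α i)`, `p0.c2 i j = κ (α i β j + α j β i)/2`, `a0 = κ (αw β₀ + βw α₀)`, `a1 i = κ (αw β i + βw α i)`, `c = 2 κ αw βw`   (`Finset.sum_mul_sum`, `Finset.sum_comm`). -/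
theorem k3e1_isEq_mul {n : ℕ} (κ α₀ β₀ αw βw : ℝ) (α β : Fin n → ℝ) : k3e1IsEq fun z ω => κ * ((α₀ + ∑ i, α i * z i + αw * ω) * (β₀ + ∑ i, β i * z i + βw * ω)) := by
  refine ⟨⟨⟨κ * α₀ * β₀, fun i => κ * (α₀ * β i + β₀ * α i), fun i j => κ * (α i * β j + α j * β i) / 2⟩, κ * (αw * β₀ + βw * α₀), fun i => κ * (αw * β i + βw * α i), 2 * κ * αw * βw⟩,
    fun a b => ?_, fun z ω => ?_⟩
  · simp only
    ring
  · simp only [K3bEq.evR, K3bQd.evR]
    have e1 : ∑ i, κ * (α₀ * β i + β₀ * α i) * z i = κ * (α₀ * ∑ i, β i * z i + β₀ * ∑ i, α i * z i) := by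
      rw [Finset.mul_sum, Finset.mul_sum, ← Finset.sum_add_distrib, Finset.mul_sum]
      refine Finset.sum_congr rfl fun i _ => by ring
    have e2 : ∑ i, κ * (αw * β i + βw * α i) * z i = κ * (αw * ∑ i, β i * z i + βw * ∑ i, α i * z i) := by
      rw [Finset.mul_sum, Finset.mul_sum, ← Finset.sum_add_distrib, Finset.mul_sum]
      refine Finset.sum_congr rfl fun i _ => by ring
    have e3 : ∑ i, ∑ j, κ * (α i * β j + α j * β i) / 2 * z i * z j = κ * ((∑ i, α i * z i) * ∑ i, β i * z i) := by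
      have a1 : (∑ i, α i * z i) * ∑ i, β i * z i = ∑ i, ∑ j, α i * z i * (β j * z j) := Finset.sum_mul_sum _ _ _ _
      have a2 : (∑ i, β i * z i) * ∑ i, α i * z i = ∑ i, ∑ j, β i * z i * (α j * z j) := Finset.sum_mul_sum _ _ _ _
      have a3 : κ * ((∑ i, α i * z i) * ∑ i, β i * z i) = κ / 2 * ((∑ i, α i * z i) * ∑ i, β i * z i) + κ / 2 * ((∑ i, β i * z i) * ∑ i, α i * z i) := by ring
      rw [a3, a1, a2, Finset.mul_sum, Finset.mul_sum, ← Finset.sum_add_distrib]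
      refine Finset.sum_congr rfl fun i _ => ?_
      rw [Finset.mul_sum, Finset.mul_sum, ← Finset.sum_add_distrib]
      refine Finset.sum_congr rfl fun j _ => by ring
    rw [e1, e2, e3]
    ring

theorem k3e1_isEq_aff {n : ℕ} (κ : ℝ) {f g : (Fin n → ℝ) → ℝ → ℝ} (hf : ∃ (α₀ : ℝ) (α : Fin n → ℝ) (αw : ℝ), ∀ z ω, f z ω = α₀ + ∑ i, α i * z i + αw * ω)
    (hg : ∃ (β₀ : ℝ) (β : Fin n → ℝ) (βw : ℝ), ∀ z ω, g z ω = β₀ + ∑ i, β i * z i + βw * ω) : k3e1IsEq fun z ω => κ * (f z ω * g z ω) := by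
  obtain ⟨α₀, α, αw, hf⟩ := hf
  obtain ⟨β₀, β, βw, hg⟩ := hg
  have e : (fun z ω => κ * (f z ω * g z ω)) = fun z ω => κ * ((α₀ + ∑ i, α i * z i + αw * ω) * (β₀ + ∑ i, β i * z i + βw * ω)) := by
    funext z ω
    rw [hf, hg]
  rw [e]
  exact k3e1_isEq_mul κ α₀ β₀ αw βw α β

theorem k3e1_ev_expand (Q : KbQuad v) (t : ℝ) (y : KbB v) (w : ℝ) : Q.ev t y w = Q.c0 * (1 * 1) + Q.ct * (t * 1) + ∑ k, Q.cy k * (y k * 1) + Q.cw * (w * 1) + Q.ctt * (t * t)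
    + ∑ k, Q.cty k * (t * y k) + Q.ctw * (t * w) + ∑ k, ∑ m, Q.cyy k m * (y k * y m) + ∑ k, Q.cyw k * (w * y k) + Q.cww * (w * w) := by
  unfold KbQuad.ev dotProduct Matrix.mulVec dotProduct
  have e1 : t * ∑ k, Q.cty k * y k = ∑ k, Q.cty k * (t * y k) := by
    rw [Finset.mul_sum]
    refine Finset.sum_congr rfl fun k _ => by ring
  have e2 : w * ∑ k, Q.cyw k * y k = ∑ k, Q.cyw k * (w * y k) := by
    rw [Finset.mul_sum]
    refine Finset.sum_congr rfl fun k _ => by ring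
  have e3 : ∑ k, y k * ∑ m, Q.cyy k m * y m = ∑ k, ∑ m, Q.cyy k m * (y k * y m) := by
    refine Finset.sum_congr rfl fun k _ => ?_
    rw [Finset.mul_sum]
    refine Finset.sum_congr rfl fun m _ => by ring
  rw [e1, e2, e3]
  simp only [mul_one]
  ring

/-- **LEAF L-252-S3e1-X3** (~250 l.).  **Every quadratic test has an equation in every frame**, with symmetric quadratic part.
PROOF.  `T = Q.ev`.  With `z = F.z n₁ i t y`, `ω = B w` : `t = i q₁ + q₁ z 0`, `y k = y0 k + t y1 k + ∑_m M k m z (m+1)` (`M * Mi = 1`: `M.mulVec (Mi.mulVec u) = u`), `w = ω / B`: all are affine functions `α₀ + ∑ α i z i + αw ω` of `(z, ω)` (`Fin.sum_univ_succ`, `Fin.cons_zero`, `Fin.cons_succ`).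
`Q.ev` is a finite sum of constants times products of two such functions (the constant function `1` is affine): `k3e1_isEq_mul`, `k3e1_isEq_add`, `k3e1_isEq_sum`.  So `G z ω := Q.ev (t z) (y z) (ω/B)` satisfies `k3e1IsEq G`; evaluate at `z = F.z n₁ i t y`, `ω = B w`. -/
theorem k3e1_rep_exists (F : K3bFrm v) (hF : F.M * F.Mi = 1) (n₁ i : ℕ) (B : ℝ) (hB : 0 < B) (T : KbTest v) (hT : KbIsQuad T) :
    ∃ Pq : K3bEq (v.j + 1), K3bRep F n₁ i B T Pq ∧ ∀ a b, Pq.p0.c2 a b = Pq.p0.c2 b a := by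
  obtain ⟨Q, hQ⟩ := hT
  have hq : kbQ n₁ ≠ 0 := by
    unfold kbQ
    positivity
  obtain ⟨q₁, hq₁⟩ : ∃ q₁ : ℝ, q₁ = kbQ n₁ := ⟨_, rfl⟩
  rw [← hq₁] at hq
  -- the affine functions
  have a1 : ∃ (α₀ : ℝ) (α : Fin (v.j + 1) → ℝ) (αw : ℝ), ∀ (z : Fin (v.j + 1) → ℝ) (ω : ℝ), (1 : ℝ) = α₀ + ∑ a, α a * z a + αw * ω :=
    ⟨1, fun _ => 0, 0, fun z ω => by simp⟩
  have at' : ∃ (α₀ : ℝ) (α : Fin (v.j + 1) → ℝ) (αw : ℝ), ∀ (z : Fin (v.j + 1) → ℝ) (ω : ℝ), (i : ℝ) * q₁ + q₁ * z 0 = α₀ + ∑ a, α a * z a + αw * ω :=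
    ⟨(i : ℝ) * q₁, Fin.cons q₁ (fun _ => 0), 0, fun z ω => by
      rw [Fin.sum_univ_succ]
      simp⟩
  have ay : ∀ k : Fin v.j, ∃ (α₀ : ℝ) (α : Fin (v.j + 1) → ℝ) (αw : ℝ), ∀ (z : Fin (v.j + 1) → ℝ) (ω : ℝ),
      F.y0 k + ((i : ℝ) * q₁ + q₁ * z 0) * F.y1 k + ∑ m, F.M k m * z m.succ = α₀ + ∑ a, α a * z a + αw * ω := fun k =>
    ⟨F.y0 k + (i : ℝ) * q₁ * F.y1 k, Fin.cons (q₁ * F.y1 k) (fun m => F.M k m), 0, fun z ω => by
      rw [Fin.sum_univ_succ]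
      simp only [Fin.cons_zero, Fin.cons_succ]
      ring⟩
  have aw : ∃ (α₀ : ℝ) (α : Fin (v.j + 1) → ℝ) (αw : ℝ), ∀ (z : Fin (v.j + 1) → ℝ) (ω : ℝ), ω / B = α₀ + ∑ a, α a * z a + αw * ω :=
    ⟨0, fun _ => 0, 1 / B, fun z ω => by
      simp
      ring⟩
  have hG := k3e1_isEq_add (k3e1_isEq_add (k3e1_isEq_add (k3e1_isEq_add (k3e1_isEq_add (k3e1_isEq_add (k3e1_isEq_add (k3e1_isEq_add (k3e1_isEq_add
    (k3e1_isEq_aff Q.c0 a1 a1) (k3e1_isEq_aff Q.ct at' a1))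
    (k3e1_isEq_sum Finset.univ fun k _ => k3e1_isEq_aff (Q.cy k) (ay k) a1))
    (k3e1_isEq_aff Q.cw aw a1)) (k3e1_isEq_aff Q.ctt at' at'))
    (k3e1_isEq_sum Finset.univ fun k _ => k3e1_isEq_aff (Q.cty k) at' (ay k)))
    (k3e1_isEq_aff Q.ctw at' aw))
    (k3e1_isEq_sum Finset.univ fun k _ => k3e1_isEq_sum Finset.univ fun m _ => k3e1_isEq_aff (Q.cyy k m) (ay k) (ay m)))
    (k3e1_isEq_sum Finset.univ fun k _ => k3e1_isEq_aff (Q.cyw k) aw (ay k)))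
    (k3e1_isEq_aff Q.cww aw aw)
  obtain ⟨Pq, hsym, hPq⟩ := hG
  refine ⟨Pq, fun t y w => ?_, hsym⟩
  unfold K3bFrm.tst
  rw [← hPq, hQ, k3e1_ev_expand]
  have et : (i : ℝ) * q₁ + q₁ * F.z n₁ i t y 0 = t := by
    unfold K3bFrm.z
    rw [Fin.cons_zero, ← hq₁]
    field_simp
    ring
  have ey : ∀ k, F.y0 k + t * F.y1 k + ∑ m, F.M k m * F.z n₁ i t y m.succ = y k := by
    intro k
    unfold K3bFrm.z
    simp only [Fin.cons_succ]
    have e1 : ∑ m, F.M k m * F.Mi.mulVec (y - F.yc t) m = F.M.mulVec (F.Mi.mulVec (y - F.yc t)) k := rfl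
    rw [e1, Matrix.mulVec_mulVec, hF, Matrix.one_mulVec]
    unfold K3bFrm.yc
    simp only [Pi.sub_apply, Pi.add_apply, Pi.smul_apply, smul_eq_mul]
    ring
  have ew : B * w / B = w := by
    field_simp
  simp only [et, ey, ew]

/-- the derivatives of a test through its equation (unfold `kbDw`, `kbDww`, `K3bFrm.tst`, `K3bEq.evR`, `K3bEq.dwR`; `ring`) -/
theorem k3e1_rep_dw {F : K3bFrm v} {n₁ i : ℕ} {B : ℝ} {T : KbTest v} {Pq : K3bEq (v.j + 1)} (h : K3bRep F n₁ i B T Pq) (t : ℝ) (y : KbB v) (w : ℝ) :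
    T t y w = Pq.evR (F.z n₁ i t y) (B * w) ∧ kbDw T t y w = B * Pq.dwR (F.z n₁ i t y) (B * w) ∧ kbDww T t y w = B ^ 2 * Pq.c := by
  have h' : ∀ w, T t y w = Pq.evR (F.z n₁ i t y) (B * w) := fun w => h t y w
  refine ⟨h' w, ?_, ?_⟩
  · unfold kbDw
    rw [h', h']
    unfold K3bEq.evR K3bEq.dwR
    ring
  · unfold kbDww
    rw [h', h', h']
    unfold K3bEq.evR
    ring

/-- **version one**: the equation of a test `w - F(t,y)` is `ω/B - ..`.   (`h` + `hT` at `w = 1, -1`: `p1R z · B = 1`, `c B² = 0` for all `z` in the range of `F.z`, which is everything (`k3e1_z_surj`); `z = 0`, `z = Pi.single k 1`.) -/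
theorem k3e1_rep_v1 {F : K3bFrm v} (hF : F.M * F.Mi = 1) {n₁ i : ℕ} {B : ℝ} (hB : 0 < B) {T : KbTest v} {Pq : K3bEq (v.j + 1)} (h : K3bRep F n₁ i B T Pq) (hT : ∀ t y w, T t y w = w + T t y 0) :
    Pq.a0 = 1 / B ∧ (∀ k, Pq.a1 k = 0) ∧ Pq.c = 0 := by
  have key : ∀ z : Fin (v.j + 1) → ℝ, ∀ w : ℝ, Pq.evR z (B * w) = w + Pq.evR z (B * 0) := by
    intro z w
    obtain ⟨t, y, rfl⟩ := k3e1_z_surj F hF n₁ i z
    have h1 : T t y w = Pq.evR (F.z n₁ i t y) (B * w) := h t y w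
    have h2 : T t y 0 = Pq.evR (F.z n₁ i t y) (B * 0) := h t y 0
    rw [← h1, ← h2]
    exact hT t y w
  have hB0 : B ≠ 0 := hB.ne'
  have k1 : ∀ z : Fin (v.j + 1) → ℝ, (Pq.a0 + ∑ k, Pq.a1 k * z k) * B + Pq.c / 2 * B ^ 2 = 1 := by
    intro z
    have := key z 1
    unfold K3bEq.evR at this
    linarith
  have k2 : ∀ z : Fin (v.j + 1) → ℝ, -((Pq.a0 + ∑ k, Pq.a1 k * z k) * B) + Pq.c / 2 * B ^ 2 = -1 := by
    intro z
    have := key z (-1)
    unfold K3bEq.evR at this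
    linarith
  have hc : Pq.c = 0 := by
    have h1 := k1 0
    have h2 := k2 0
    have h3 : Pq.c * B ^ 2 = 0 := by linarith
    rcases mul_eq_zero.1 h3 with h4 | h4
    · exact h4
    · exact absurd h4 (by positivity)
  have k3 : ∀ z : Fin (v.j + 1) → ℝ, (Pq.a0 + ∑ k, Pq.a1 k * z k) * B = 1 := by
    intro z
    have := k1 z
    rw [hc] at this
    linarith
  have ha0 : Pq.a0 * B = 1 := by
    have := k3 0
    simpa using this
  refine ⟨by rw [eq_div_iff hB0]; exact ha0, fun k => ?_, hc⟩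
  have := k3 (Pi.single k 1)
  have e : ∑ m, Pq.a1 m * (Pi.single k (1 : ℝ) : Fin (v.j + 1) → ℝ) m = Pq.a1 k := by
    rw [Finset.sum_eq_single k]
    · simp
    · intro b _ hb
      rw [Pi.single_eq_of_ne hb, mul_zero]
    · intro hk
      exact absurd (Finset.mem_univ k) hk
  rw [e] at this
  have h5 : Pq.a1 k * B = 0 := by linarith
  rcases mul_eq_zero.1 h5 with h4 | h4
  · exact h4
  · exact absurd h4 hB0

end

end Claimed.Agent.R252

end PkS3e1ExtContract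

section PkS3e1Build

/-!
# ROW 252 (S0492), unit S3e1 (sub-architect helper215, chief helper70), file 9: THE CONSTRUCTION OF THE COMPARISON DATA (EXIT 1 = `K3bCmp`, `S3b/Cmp.lean`): DEFINITIONS      -- KEEP
No sorry.   `Y` old terminal system, `n₁` level of the longer blocks, `nrm c` the narrow normals (from `K3bAxes`), `x : K3bNum` the numbers, `p : K3e1Par` the parameters of the construction.
* frames: index type `K3e1Ix P = world × block × K3e1Fr`;  `k3e1Of c` the index of the frame of `c`;  `k3e1Fr φ` the frame;  `k3e1Cp c'` the compatibility list;  `k3e1Eq c φ` the CONVERTED equation of `c` in the frame `φ`.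
* events (families indexed by label pairs):
  `k3e1X1` masks (density caps at both vertices) + the two opposite-time derivative floors `|P_w| ≥ B/(K E)`;   `k3e1X2` = `X1` + the normals are not transversal;   `k3e1X3` = `X2` + both entries `(c)`, `(c', of c)` are heavy (mass `≥ φ` BEFORE this deletion);
  `k3e1G0` = admissible label pair + pair + `X3`;   `k3e1Mt` = local sheet match;   `k3e1Gd = G0 ∩ Mt`.
* `k3e1Cmp` : the comparison data.
-/

set_option autoImplicit false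

namespace Claimed.Agent.R252

open MeasureTheory
open scoped ENNReal BigOperators

noncomputable section

variable {v : KbVer} {P : KbPb v}

/-- the parameters of the construction -/
structure K3e1Par where
  /-- new eccentricity `g^# = min 1 (g E^R)` -/
  gs : ℝ
  /-- common dilation of the frames -/
  Λ : ℝ
  /-- radius of the compatibility lists -/
  ρL : ℕ
  /-- curvature cutoff `1/(δ Θ)`, `Θ = E^{C_A}` -/
  thr : ℝ
  /-- floor of the entries -/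
  φ : ℝ
  /-- radius of the comparison cubes -/
  r : ℝ
  /-- spacing of the net -/
  ρ : ℝ
  /-- the bound of the local sheet match -/
  M₀ : ℝ

/-- indices of frames: world, block, box -/
abbrev K3e1Ix (P : KbPb v) := P.W × ℕ × K3e1Fr

/-- midpoint of a block -/
def k3e1Mid (n₁ i : ℕ) : ℝ := (i : ℝ) * kbQ n₁ + kbQ n₁ / 2

/-- the frame of an index -/
def k3e1Fr (n₁ : ℕ) (p : K3e1Par) (φ : K3e1Ix P) : K3bFrm v := k3e1Frm v p.gs (kbQ n₁) (k3e1Mid n₁ φ.2.1) p.Λ φ.2.2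

section build

variable (Y : KbSys P) (n₁ : ℕ) (nrm : Y.C → KbB v) (p : K3e1Par)

/-- the index of the frame of an old label -/
def k3e1Of (c : Y.C) : K3e1Ix P :=
  (Y.wd c, k3e1Bk Y n₁ c, k3e1FrC v p.gs (kbQ n₁) (k3e1Mid n₁ (k3e1Bk Y n₁ c)) (nrm c) (Y.ch c))

open Classical in
/-- the compatibility list of an old label -/
def k3e1Cp (c' : Y.C) : Finset (K3e1Ix P) :=
  (k3e1CmpL v p.gs (kbQ n₁) (k3e1Mid n₁ (k3e1Bk Y n₁ c')) p.ρL (nrm c') (Y.ch c')).image fun F => (Y.wd c', k3e1Bk Y n₁ c', F)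

/-- the unconverted equation of an old label in a frame -/
def k3e1Eu (c : Y.C) (φ : K3e1Ix P) : K3bEq (v.j + 1) := k3bEqn (k3e1Fr n₁ p φ) n₁ φ.2.1 (P.B (Y.wd c)) (Y.ch c).T

/-- the converted equation of an old label in a frame -/
def k3e1Eq (c : Y.C) (φ : K3e1Ix P) : K3bEq (v.j + 1) := (k3e1Eu Y n₁ p c φ).cv p.thr

/-- the source base point of a pair with source label `c`, in the frame of `c` -/
def k3e1Zs (c : Y.C) (z : P.Lam × ℝ × ℝ) : Fin (v.j + 1) → ℝ := k3e1Z0 Y n₁ (k3e1Fr n₁ p (k3e1Of Y n₁ nrm p c)) c z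

/-- the sheet of `e` in the frame of `c` selected at the source point of the pair `z` -/
def k3e1Sh (c e : Y.C) (z : P.Lam × ℝ × ℝ) : K3bSh (v.j + 1) :=
  ⟨k3e1Eq Y n₁ p e (k3e1Of Y n₁ nrm p c), k3bSg ((k3e1Eq Y n₁ p e (k3e1Of Y n₁ nrm p c)).dwR (k3e1Zs Y n₁ nrm p c z) (k3e1Om0 Y c z))⟩

variable (x : K3bNum) (S R : ℝ) (G : Finset ℝ) (nr : ℝ → ℝ)

/-- the analytic masks of one incidence -/
def k3e1Mk (P : KbPb v) (x : K3bNum) (S R : ℝ) (G : Finset ℝ) (nr : ℝ → ℝ) (γ : P.W) : Set (P.Lam × ℝ) :=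
  {y | (∀ a ∈ G, P.dn (P.hid a) γ y ≤ ENNReal.ofReal (x.E * nr a)) ∧ P.dn (P.hv x.δ (x.E ^ (-R))) γ y ≤ ENNReal.ofReal (x.nL * x.E ^ (1 - S * R))}

/-- masks at both vertices, opposite-time derivative floors -/
def k3e1X1 (c c' : Y.C) : Set (P.Lam × ℝ × ℝ) :=
  {z | (z.1, z.2.1) ∈ k3e1Mk P x S R G nr (Y.wd c) ∧ (z.1, z.2.2) ∈ k3e1Mk P x S R G nr (Y.wd c) ∧
    P.B (Y.wd c) ≤ x.K * x.E * |kbX (kbDw (Y.ch c).T) (P.co (Y.wd c) z.1) z.2.2| ∧
    P.B (Y.wd c') ≤ x.K * x.E * |kbX (kbDw (Y.ch c').T) (P.co (Y.wd c') z.1) z.2.1|}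

/-- ... and the normals are not transversal -/
def k3e1X2 (c c' : Y.C) : Set (P.Lam × ℝ × ℝ) := {z | z ∈ k3e1X1 Y x S R G nr c c' ∧ ¬ k3e1Tr v p.gs (nrm c) (nrm c')}

/-- ... and both entries are heavy -/
def k3e1X3 (c c' : Y.C) : Set (P.Lam × ℝ × ℝ) :=
  {z | z ∈ k3e1X2 Y nrm p x S R G nr c c' ∧ ENNReal.ofReal p.φ ≤ k3e1Law P n₁ (Y.wd c) (k3e1Ent1 Y n₁ (k3e1X2 Y nrm p x S R G nr) c) ∧
    ENNReal.ofReal p.φ ≤ k3e1Law P n₁ (Y.wd c') (k3e1Ent2 Y n₁ (k3e1X2 Y nrm p x S R G nr) (k3e1Of Y n₁ nrm p) c' (k3e1Of Y n₁ nrm p c))}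

/-- the good pairs before the match -/
def k3e1G0 (c c' : Y.C) : Set (P.Lam × ℝ × ℝ) := {z | k3e1Adm Y n₁ c c' ∧ z ∈ k3e1PrC Y c c' ∧ z ∈ k3e1X3 Y n₁ nrm p x S R G nr c c'}

/-- the local sheet match -/
def k3e1Mt (c c' : Y.C) : Set (P.Lam × ℝ × ℝ) :=
  {z | ∀ y : Fin (v.j + 1) → ℝ, ‖y - k3bNet p.ρ (k3e1Zs Y n₁ nrm p c z)‖ ≤ p.r → |(k3e1Sh Y n₁ nrm p c c z).f y - (k3e1Sh Y n₁ nrm p c c' z).f y| ≤ p.M₀}

/-- **the good pairs** -/
def k3e1Gd (c c' : Y.C) : Set (P.Lam × ℝ × ℝ) := k3e1G0 Y n₁ nrm p x S R G nr c c' ∩ k3e1Mt Y n₁ nrm p c c'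

open Classical in
/-- the finite set of the frames which are used -/
def k3e1Im : Finset (K3e1Ix P) := Finset.univ.image (k3e1Of Y n₁ nrm p)

theorem k3e1_of_mem (c : Y.C) : k3e1Of Y n₁ nrm p c ∈ k3e1Im Y n₁ nrm p := by
  classical
  exact Finset.mem_image_of_mem _ (Finset.mem_univ c)

open Classical in
/-- **the comparison data** -/
def k3e1Cmp : K3bCmp Y where
  n₁ := n₁
  Φ := {φ : K3e1Ix P // φ ∈ k3e1Im Y n₁ nrm p}
  fΦ := inferInstance
  dΦ := inferInstance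
  wd := fun φ => φ.1.1
  iv := fun φ => φ.1.2.1
  fr := fun φ => k3e1Fr n₁ p φ.1
  of := fun c => ⟨k3e1Of Y n₁ nrm p c, k3e1_of_mem Y n₁ nrm p c⟩
  cmp := fun c' => (k3e1Cp Y n₁ nrm p c').subtype fun φ => φ ∈ k3e1Im Y n₁ nrm p
  eq := fun c φ => k3e1Eq Y n₁ p c φ.1
  Gd := k3e1Gd Y n₁ nrm p x S R G nr

end build

theorem k3e1_build_eqns_cite : True := by
  have := @k3e1Mid.eq_1
  have := @k3e1Fr.eq_1
  have := @k3e1Of.eq_1
  have := @k3e1Cp.eq_1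
  have := @k3e1Eu.eq_1
  have := @k3e1Eq.eq_1
  have := @k3e1Zs.eq_1
  have := @k3e1Sh.eq_1
  have := @k3e1Mk.eq_1
  have := @k3e1X1.eq_1
  have := @k3e1X2.eq_1
  have := @k3e1X3.eq_1
  have := @k3e1G0.eq_1
  have := @k3e1Mt.eq_1
  have := @k3e1Gd.eq_1
  have := @k3e1Im.eq_1
  have := @k3e1Cmp.eq_1
  trivial

/-- **the standing assumptions** -/
structure K3e1St (P : KbPb v) (Y : KbSys P) (x : K3bNum) (S R : ℝ) (G : Finset ℝ) (nr : ℝ → ℝ) (n₁ : ℕ) (nrm : Y.C → KbB v) (p : K3e1Par) : Prop where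
  hin : K3bIn P Y x S R G nr
  hn : n₁ ≤ Y.n
  hE : x.E = 2 ^ (Y.n - n₁)
  hK : 1 ≤ x.K
  hδ : 0 < x.δ
  hd : 0 ≤ x.d
  hS : 0 < S
  hR : 1 ≤ R
  nrm1 : ∀ c, nrm c ⬝ᵥ nrm c = 1
  fit : ∀ c, ∀ l ∈ Y.A c, ∀ t ∈ Y.I c, ‖kbY (P.co (Y.wd c) l) t - (Y.ch c).yc t‖ ≤ x.K * Y.q ∧ |nrm c ⬝ᵥ (kbY (P.co (Y.wd c) l) t - (Y.ch c).yc t)| ≤ x.K * Y.q * x.g
  jac : ∀ c, Y.q ^ v.j * x.g ≤ x.K * (Y.ch c).J ∧ (Y.ch c).J ≤ x.K * Y.q ^ v.j * x.g
  gs_def : p.gs = min 1 (x.g * x.E ^ R)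
  Λ_def : p.Λ = 52 * x.K
  ρL_ge : 120 * x.K ≤ p.ρL
  ρL_le : (p.ρL : ℝ) ≤ 121 * x.K

end

end Claimed.Agent.R252

end PkS3e1Build

section PkS3e1QuadContract

/-!
# ROW 252 (S0492), unit S3e1 (sub-architect helper215, chief helper70): CONTRACT, file 2 (VERSION 2, on the vocabulary `K3bQd / K3bEq / K3bSh` of `S3b/{Defs,Sh}.lean`): STABLE SIMPLE GRAPHS
`03-comparison.tex` l.868-895 ((a02:nearest-quadratic-root), (a02:critical-center)), l.1167-1238 (conversion, (a02:source-discriminant), discriminant coefficients by Remez, stable balls, (a02:near-source-graph)).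

PAPER-FREE.  Imports: Mathlib, `S3b/Sh` (definitions only), `S4E/Contract` (CLOSED: `k4eRoot`, `k4e_near_root`, `k4e_disc_comp`, the class `k4eSh`), `Remez/Mv` (CLOSED: `rmz_box`, `rmz_box_aeval`, `rmz_Cm_le`).
Prefix `k3e1_` / `k3e1`.  Every `sorry` is a leaf `L-252-S3e1-Q*`: prove IN PLACE, statement verbatim, helper lemmas directly above (same prefix).
-/

set_option autoImplicit false

namespace Claimed.Agent.R252

open MeasureTheory
open scoped ENNReal BigOperators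

noncomputable section

variable {n : ℕ}

/-! ## 1. quadrics as multivariate polynomials      (LEAF L-252-S3e1-Q5) -/

/-- a quadric as a multivariate polynomial -/
def k3e1Mv (D : K3bQd n) : MvPolynomial (Fin n) ℝ :=
  MvPolynomial.C D.c0 + ∑ i, MvPolynomial.C (D.c1 i) * MvPolynomial.X i + ∑ i, ∑ j, MvPolynomial.C (D.c2 i j) * MvPolynomial.X i * MvPolynomial.X j

/-- an affine function as a multivariate polynomial -/
def k3e1MvA (a0 : ℝ) (a1 : Fin n → ℝ) : MvPolynomial (Fin n) ℝ := MvPolynomial.C a0 + ∑ i, MvPolynomial.C (a1 i) * MvPolynomial.X i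

theorem k3e1_quad_eqns_cite : True := by
  have := @k3e1Mv.eq_1
  have := @k3e1MvA.eq_1
  trivial

/-- (`simp [k3e1Mv, K3bQd.evR, map_sum]`) -/
theorem k3e1_mv_eval (D : K3bQd n) (x : Fin n → ℝ) : MvPolynomial.eval x (k3e1Mv D) = D.evR x := by
  simp [k3e1Mv, K3bQd.evR, map_sum]

/-- (`MvPolynomial.aeval_C`, `Complex.coe_algebraMap`) -/
theorem k3e1_mv_aeval (D : K3bQd n) (z : Fin n → ℂ) : MvPolynomial.aeval z (k3e1Mv D) = D.ev z := by
  simp [k3e1Mv, K3bQd.ev, map_sum]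

/-- (`MvPolynomial.totalDegree_add`, `totalDegree_finset_sum`, `totalDegree_mul`, `totalDegree_C`, `totalDegree_X`) -/
theorem k3e1_mv_deg (D : K3bQd n) : (k3e1Mv D).totalDegree ≤ 2 := by
  unfold k3e1Mv
  refine (MvPolynomial.totalDegree_add _ _).trans (max_le ((MvPolynomial.totalDegree_add _ _).trans (max_le ?_ ?_)) ?_)
  · simp
  · refine (MvPolynomial.totalDegree_finsetSum _ _).trans (Finset.sup_le fun i _ => ?_)
    refine (MvPolynomial.totalDegree_mul _ _).trans ?_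
    rw [MvPolynomial.totalDegree_C, MvPolynomial.totalDegree_X]
    norm_num
  · refine (MvPolynomial.totalDegree_finsetSum _ _).trans (Finset.sup_le fun i _ => ?_)
    refine (MvPolynomial.totalDegree_finsetSum _ _).trans (Finset.sup_le fun j _ => ?_)
    refine (MvPolynomial.totalDegree_mul _ _).trans ?_
    have h1 := MvPolynomial.totalDegree_mul (MvPolynomial.C (D.c2 i j)) (MvPolynomial.X i : MvPolynomial (Fin n) ℝ)
    rw [MvPolynomial.totalDegree_C, MvPolynomial.totalDegree_X] at h1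
    rw [MvPolynomial.totalDegree_X]
    omega

/-- (`MvPolynomial.degreeOf_le_totalDegree`) -/
theorem k3e1_mv_degOf (D : K3bQd n) (i : Fin n) : (k3e1Mv D).degreeOf i ≤ 2 := by
  exact (MvPolynomial.degreeOf_le_totalDegree _ _).trans (k3e1_mv_deg D)

theorem k3e1_mvA_eval (a0 : ℝ) (a1 : Fin n → ℝ) (x : Fin n → ℝ) : MvPolynomial.eval x (k3e1MvA a0 a1) = a0 + ∑ i, a1 i * x i := by
  simp [k3e1MvA, map_sum]

theorem k3e1_mvA_aeval (a0 : ℝ) (a1 : Fin n → ℝ) (z : Fin n → ℂ) : MvPolynomial.aeval z (k3e1MvA a0 a1) = (a0 : ℂ) + ∑ i, (a1 i : ℂ) * z i := by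
  simp [k3e1MvA, map_sum]

theorem k3e1_mvA_deg (a0 : ℝ) (a1 : Fin n → ℝ) : (k3e1MvA a0 a1).totalDegree ≤ 1 := by
  unfold k3e1MvA
  refine (MvPolynomial.totalDegree_add _ _).trans (max_le ?_ ?_)
  · simp
  · refine (MvPolynomial.totalDegree_finsetSum _ _).trans (Finset.sup_le fun i _ => ?_)
    refine (MvPolynomial.totalDegree_mul _ _).trans ?_
    rw [MvPolynomial.totalDegree_C, MvPolynomial.totalDegree_X]

/-- the real discriminant identity (as `K3bEq.dsc_ev` in `S3b/Defs.lean`, over `ℝ`) -/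
theorem k3e1_dsc_evR (P : K3bEq n) (x : Fin n → ℝ) : P.dsc.evR x = P.p1R x ^ 2 - 2 * P.c * P.p0.evR x := by
  unfold K3bEq.dsc K3bQd.evR K3bEq.p1R
  simp only
  have e : (∑ i, P.a1 i * x i) ^ 2 = ∑ i, ∑ j, P.a1 i * P.a1 j * x i * x j := by
    rw [sq, Finset.sum_mul_sum]
    refine Finset.sum_congr rfl fun i _ => Finset.sum_congr rfl fun j _ => by ring
  have e2 : ∑ i, ∑ j, (P.a1 i * P.a1 j - 2 * P.c * P.p0.c2 i j) * x i * x j
      = ∑ i, ∑ j, P.a1 i * P.a1 j * x i * x j - 2 * P.c * ∑ i, ∑ j, P.p0.c2 i j * x i * x j := by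
    rw [Finset.mul_sum, ← Finset.sum_sub_distrib]
    refine Finset.sum_congr rfl fun i _ => ?_
    rw [Finset.mul_sum, ← Finset.sum_sub_distrib]
    refine Finset.sum_congr rfl fun j _ => by ring
  have e3 : ∑ i, (2 * P.a0 * P.a1 i - 2 * P.c * P.p0.c1 i) * x i
      = 2 * P.a0 * ∑ i, P.a1 i * x i - 2 * P.c * ∑ i, P.p0.c1 i * x i := by
    rw [Finset.mul_sum, Finset.mul_sum, ← Finset.sum_sub_distrib]
    refine Finset.sum_congr rfl fun i _ => by ring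
  rw [e2, e3, ← e]
  ring

/-- a quadric at a real point -/
theorem k3e1_ev_real (D : K3bQd n) (x : Fin n → ℝ) : D.ev (k3bC x) = (D.evR x : ℂ) := by
  simp [K3bQd.ev, K3bQd.evR, k3bC]

/-! ## 2. sheets with a stable discriminant are comparison graphs      (LEAF L-252-S3e1-Q6) -/

/-- the sheet as a root in the sense of `S4E/Contract.lean` (`A = c/2`; both definitions split on `c = 0`; `k3e1_dsc_evR`) -/
theorem k3e1_sh_root (F : K3bSh n) (x : Fin n → ℝ) : F.f x = k4eRoot (F.P.c / 2) (F.P.p1R x) (F.P.p0.evR x) F.s := by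
  unfold K3bSh.f k4eRoot
  by_cases hc : F.P.c = 0
  · simp [hc]
  · have h2 : F.P.c / 2 ≠ 0 := div_ne_zero hc two_ne_zero
    rw [if_neg hc, if_neg h2, k3e1_dsc_evR]
    have e1 : F.P.p1R x ^ 2 - 4 * (F.P.c / 2) * F.P.p0.evR x = F.P.p1R x ^ 2 - 2 * F.P.c * F.P.p0.evR x := by ring
    have e2 : 2 * (F.P.c / 2) = F.P.c := by ring
    rw [e1, e2]
    ring

/-- **a sheet with a stable discriminant belongs to the class `k4eSh`** of `K4eMatch`, `K4eRemez`, `K4eCode`.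
PROOF.  Second alternative of `k4eSh` with `A = c/2`, `b = k3e1MvA a0 a1`, `c = k3e1Mv p0`.  `eval`/`aeval` of `k4eDisc A b c = b² - C (4A) c` are `dsc.evR`, `dsc.ev` (`k3e1_dsc_evR`, `K3bEq.dsc_ev` with `w = 0`, `map_sub, map_mul, map_pow`).
`(∀ i, ‖z i - u i‖ ≤ 4 r) → ‖z - k3bC u‖ ≤ 4 r` by `pi_norm_le_iff_of_nonneg`. -/
theorem k3e1_sh_mem (F : K3bSh n) (hs : F.s = 1 ∨ F.s = -1) (u : Fin n → ℝ) (r : ℝ) (hr : 0 < r) (h : F.P.dsc.Stb u (4 * r)) : F.f ∈ k4eSh n u r := by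
  refine Or.inr ⟨F.P.c / 2, F.s, k3e1MvA F.P.a0 F.P.a1, k3e1Mv F.P.p0, k3e1_mvA_deg _ _, k3e1_mv_deg _, hs, ?_, fun y => ?_⟩
  · have e1 : ∀ y, MvPolynomial.eval y (k4eDisc (F.P.c / 2) (k3e1MvA F.P.a0 F.P.a1) (k3e1Mv F.P.p0)) = F.P.dsc.evR y := by
      intro y
      rw [k4eDisc, map_sub, map_mul, map_pow, k3e1_mvA_eval, k3e1_mv_eval, MvPolynomial.eval_C, k3e1_dsc_evR]
      unfold K3bEq.p1R
      ring
    have e2 : ∀ z, MvPolynomial.aeval z (k4eDisc (F.P.c / 2) (k3e1MvA F.P.a0 F.P.a1) (k3e1Mv F.P.p0)) = F.P.dsc.ev z := by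
      intro z
      rw [k4eDisc, map_sub, map_mul, map_pow, k3e1_mvA_aeval, k3e1_mv_aeval, MvPolynomial.aeval_C, K3bEq.dsc_ev F.P z 0]
      unfold K3bEq.dw K3bEq.ev K3bEq.p1
      simp only [Complex.coe_algebraMap]
      push_cast
      ring
    refine ⟨by rw [e1]; exact h.1, fun z hz => ?_⟩
    rw [e1, e2]
    refine h.2 z ?_
    rw [pi_norm_le_iff_of_nonneg (by positivity)]
    intro i
    exact hz i
  · rw [k3e1_sh_root, k3e1_mvA_eval, k3e1_mv_eval]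
    rfl

/-- a sheet is measurable (`Measurable.ite` on the constant condition, `Real.measurable_sqrt` / `Real.continuous_sqrt.measurable`, finite sums, division) -/
theorem k3e1_sh_meas (F : K3bSh n) : Measurable F.f := by
  have hq : ∀ D : K3bQd n, Continuous D.evR := by
    intro D
    unfold K3bQd.evR
    fun_prop
  have hp : Continuous F.P.p1R := by
    unfold K3bEq.p1R
    fun_prop
  unfold K3bSh.f
  by_cases hc : F.P.c = 0
  · simp only [hc, if_true]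
    exact ((hq _).measurable.neg).div hp.measurable
  · simp only [hc, if_false]
    exact (((hq _).measurable.sqrt.const_mul _).sub hp.measurable).div_const _

/-! ## 3. the tested point      (LEAF L-252-S3e1-Q7) -/

/-- **(a02:nearest-quadratic-root), (a02:source-discriminant) for an unreplaced equation.**   (`k4e_disc_comp`, `k4e_near_root` with `A = c/2`, `b = p1R x`, `c = p0.evR x`, `s = k3bSg (dwR)`; `evR = A w² + b w + c`, `dwR = 2 A w + b`.) -/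
theorem k3e1_quad_pt (P : K3bEq n) (x : Fin n → ℝ) (w V lo : ℝ) (hV : |P.evR x w| ≤ V) (hlo : lo ≤ |P.dwR x w|) (h0 : 0 < lo) (hc : 4 * |P.c| * V ≤ lo ^ 2) :
    P.dwR x w ^ 2 / 2 ≤ P.dsc.evR x ∧ P.dsc.evR x ≤ 3 / 2 * P.dwR x w ^ 2 ∧ |w - (K3bSh.mk P (k3bSg (P.dwR x w))).f x| ≤ 2 * V / lo := by
  have eV : P.evR x w = P.c / 2 * w ^ 2 + P.p1R x * w + P.p0.evR x := by
    unfold K3bEq.evR K3bEq.p1R
    ring
  have eD : P.dwR x w = 2 * (P.c / 2) * w + P.p1R x := by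
    unfold K3bEq.dwR K3bEq.p1R
    ring
  have eS : P.dsc.evR x = P.p1R x ^ 2 - 4 * (P.c / 2) * P.p0.evR x := by
    rw [k3e1_dsc_evR]
    ring
  have hV0 : 0 ≤ V := (abs_nonneg _).trans hV
  have hAV : 8 * |P.c / 2| * V ≤ lo ^ 2 := by
    rw [abs_div, abs_of_pos (by norm_num : (0 : ℝ) < 2)]
    linarith
  obtain ⟨d1, d2⟩ := k4e_disc_comp (P.c / 2) (P.p1R x) (P.p0.evR x) w V lo (by rw [← eV]; exact hV) (by rw [← eD]; exact hlo) h0.le hAV
  rw [← eD, ← eS] at d1 d2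
  refine ⟨d1, d2, ?_⟩
  have hne : 0 < |P.dwR x w| := lt_of_lt_of_le h0 hlo
  have hs : k3bSg (P.dwR x w) = 1 ∨ k3bSg (P.dwR x w) = -1 := by
    unfold k3bSg
    split_ifs
    · exact Or.inl rfl
    · exact Or.inr rfl
  have hw : 0 < k3bSg (P.dwR x w) * (2 * (P.c / 2) * w + P.p1R x) := by
    rw [← eD]
    unfold k3bSg
    split_ifs with h
    · rw [one_mul]
      exact lt_of_le_of_ne h (fun e => by rw [← e, abs_zero] at hne; exact lt_irrefl _ hne)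
    · linarith [not_le.mp h]
  have hD0 : 0 ≤ P.p1R x ^ 2 - 4 * (P.c / 2) * P.p0.evR x := by
    rw [← eS]
    exact le_trans (by positivity) d1
  obtain ⟨-, -, r3⟩ := k4e_near_root (P.c / 2) (P.p1R x) (P.p0.evR x) w _ hs hw hD0
  rw [← eD, ← eV] at r3
  rw [k3e1_sh_root, le_div_iff₀ h0]
  have h5 : lo ≤ |P.dwR x w| + Real.sqrt (P.p1R x ^ 2 - 4 * (P.c / 2) * P.p0.evR x) := by
    linarith [Real.sqrt_nonneg (P.p1R x ^ 2 - 4 * (P.c / 2) * P.p0.evR x)]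
  calc _ ≤ _ := mul_le_mul_of_nonneg_left h5 (abs_nonneg _)
    _ = 2 * |P.evR x w| := r3
    _ ≤ 2 * V := by linarith

/-- **(a02:critical-center)**: the affine replacement -/
theorem k3e1_ctr_pt (P : K3bEq n) (x : Fin n → ℝ) (w : ℝ) (hc : P.c ≠ 0) :
    P.ctr.evR x w = P.dwR x w / P.c ∧ P.ctr.dwR x w = 1 ∧ P.ctr.dsc.evR x = 1 ∧ (K3bSh.mk P.ctr 1).f x = w - P.dwR x w / P.c ∧ P.ctr.c = 0 := by
  have e0 : P.ctr.p0.evR x = (P.a0 + ∑ i, P.a1 i * x i) / P.c := by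
    unfold K3bEq.ctr K3bQd.evR
    simp only [zero_mul, Finset.sum_const_zero, add_zero]
    rw [add_div, Finset.sum_div]
    congr 1
    refine Finset.sum_congr rfl fun i _ => by ring
  have e1 : P.ctr.p1R x = 1 := by
    unfold K3bEq.ctr K3bEq.p1R
    simp
  have e2 : P.ctr.c = 0 := rfl
  have e3 : P.dwR x w / P.c = (P.a0 + ∑ i, P.a1 i * x i) / P.c + w := by
    unfold K3bEq.dwR
    field_simp
  refine ⟨?_, ?_, ?_, ?_, e2⟩
  · have : P.ctr.evR x w = P.ctr.p0.evR x + P.ctr.p1R x * w + P.ctr.c / 2 * w ^ 2 := rfl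
    rw [this, e0, e1, e2, e3]
    ring
  · have : P.ctr.dwR x w = P.ctr.p1R x + P.ctr.c * w := rfl
    rw [this, e1, e2]
    ring
  · rw [k3e1_dsc_evR, e1, e2]
    ring
  · unfold K3bSh.f
    simp only
    rw [if_pos e2, e0, e1, e3]
    ring

/-- **the converted equation at the tested point** (l.1167-1200, (a02:source-discriminant), (a02:near-source-graph)).   `V` value, `lo ≤ 1 ≤ hi` bounds of the derivative, `thr` curvature cutoff with `4 thr V ≤ lo²`.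
PROOF.  `thr ≤ |c|`: `cv = ctr`, `k3e1_ctr_pt` (`c ≠ 0`), `|dwR / c| ≤ hi / thr`, `k3bSg 1 = 1`.   `|c| < thr`: `cv = P`, `k3e1_quad_pt`. -/
theorem k3e1_cv_pt (P : K3bEq n) (x : Fin n → ℝ) (w thr V lo hi : ℝ) (hthr : 0 < thr) (hV : |P.evR x w| ≤ V) (hlo : lo ≤ |P.dwR x w|) (hhi : |P.dwR x w| ≤ hi)
    (h0 : 0 < lo) (h1 : lo ≤ 1) (h2 : 1 ≤ hi) (hc : 4 * thr * V ≤ lo ^ 2) :
    lo ^ 2 / 2 ≤ (P.cv thr).dsc.evR x ∧ (P.cv thr).dsc.evR x ≤ 3 / 2 * hi ^ 2 ∧ |(P.cv thr).c| ≤ thr ∧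
      |(P.cv thr).evR x w| ≤ max V (hi / thr) ∧ lo ≤ |(P.cv thr).dwR x w| ∧ |(P.cv thr).dwR x w| ≤ hi ∧
      |w - (K3bSh.mk (P.cv thr) (k3bSg ((P.cv thr).dwR x w))).f x| ≤ max (2 * V / lo) (hi / thr) := by
  have hV0 : 0 ≤ V := (abs_nonneg _).trans hV
  by_cases hcase : thr ≤ |P.c|
  · have ecv : P.cv thr = P.ctr := by
      unfold K3bEq.cv
      rw [if_pos hcase]
    have hc0 : P.c ≠ 0 := by
      intro e
      rw [e, abs_zero] at hcase
      linarith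
    obtain ⟨c1, c2, c3, c4, c5⟩ := k3e1_ctr_pt P x w hc0
    have hq : |P.dwR x w / P.c| ≤ hi / thr := by
      rw [abs_div]
      exact div_le_div₀ (by linarith) hhi hthr hcase
    have hsg : k3bSg (1 : ℝ) = 1 := by
      unfold k3bSg
      rw [if_pos zero_le_one]
    rw [ecv, c1, c2, c3, c5, hsg, c4, abs_one, abs_zero]
    refine ⟨by nlinarith, by nlinarith, hthr.le, hq.trans (le_max_right _ _), h1, h2, ?_⟩
    have : w - (w - P.dwR x w / P.c) = P.dwR x w / P.c := by ring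
    rw [this]
    exact hq.trans (le_max_right _ _)
  · have ecv : P.cv thr = P := by
      unfold K3bEq.cv
      rw [if_neg hcase]
    have hlt : |P.c| < thr := not_le.mp hcase
    have hc' : 4 * |P.c| * V ≤ lo ^ 2 := by
      refine le_trans ?_ hc
      have := mul_le_mul_of_nonneg_right hlt.le hV0
      linarith
    obtain ⟨q1, q2, q3⟩ := k3e1_quad_pt P x w V lo hV hlo h0 hc'
    have s1 : lo ^ 2 ≤ P.dwR x w ^ 2 := by
      rw [← sq_abs (P.dwR x w)]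
      exact pow_le_pow_left₀ h0.le hlo 2
    have s2 : P.dwR x w ^ 2 ≤ hi ^ 2 := by
      rw [← sq_abs (P.dwR x w)]
      exact pow_le_pow_left₀ (abs_nonneg _) hhi 2
    rw [ecv]
    exact ⟨by linarith, by linarith, hlt.le, hV.trans (le_max_left _ _), hlo, hhi, q3.trans (le_max_left _ _)⟩

/-! ## 4. Remez for the discriminant, Lipschitz bound, stability      (LEAVES L-252-S3e1-Q8, Q9) -/

/-- **LEAF L-252-S3e1-Q8** (l.1203-1215).  **Polynomial Remez bounds the discriminant on the complex polydisc.**   `Ω ⊆ [-1,1]^n` ANY set (outer measure) of volume `≥ θ`.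
PROOF.  `rmz_box n 2 (k3e1Mv D) _ (-1) 1 _ (θ / 2^n) M _ Ω` (`volume (Icc (-1) 1) = 2^n`: `Real.volume_Icc_pi`), `rmz_box_aeval` with `lam = 9/2` (`‖z i + 1‖ ≤ 9 = lam · 2`), `rmz_Cm_le`, `k3e1_mv_eval`, `k3e1_mv_aeval`, `k3e1_mv_degOf`.
`C = (9/2)^(2n) · (9 (24 · 2^n)²)^n · 2^(2 n²)`. -/
theorem k3e1_disc_bd (n : ℕ) : ∃ C : ℝ, 1 ≤ C ∧ ∀ (D : K3bQd n) (θ M : ℝ) (Ω : Set (Fin n → ℝ)), 0 < θ → (∀ x ∈ Ω, ∀ i, |x i| ≤ 1) → ENNReal.ofReal θ ≤ volume Ω →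
    (∀ x ∈ Ω, |D.evR x| ≤ M) → D.Bd (C * θ⁻¹ ^ (2 * n) * M) := by
  obtain ⟨c₁, hc₁⟩ : ∃ c₁ : ℝ, c₁ = ((((2 : ℕ) : ℝ) + 1) ^ 2 * (8 * (((2 : ℕ) : ℝ) + 1) * 2 ^ n) ^ 2) ^ n := ⟨_, rfl⟩
  have hc1 : 1 ≤ c₁ := by
    rw [hc₁]
    apply one_le_pow₀
    have h1 : (1 : ℝ) ≤ 2 ^ n := one_le_pow₀ (by norm_num)
    have h2 : (1 : ℝ) ≤ (8 * (((2 : ℕ) : ℝ) + 1) * 2 ^ n) ^ 2 := by
      apply one_le_pow₀
      push_cast
      nlinarith
    have h3 : (1 : ℝ) ≤ (((2 : ℕ) : ℝ) + 1) ^ 2 := by push_cast; norm_num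
    nlinarith
  have h92 : (1 : ℝ) ≤ (9 / 2 : ℝ) ^ (n * 2) := one_le_pow₀ (by norm_num)
  have h2n : (1 : ℝ) ≤ ((2 : ℝ) ^ n) ^ (n * 2) := one_le_pow₀ (one_le_pow₀ (by norm_num))
  refine ⟨(9 / 2 : ℝ) ^ (n * 2) * c₁ * ((2 : ℝ) ^ n) ^ (n * 2), ?_, ?_⟩
  · calc (1 : ℝ) = 1 * 1 * 1 := by norm_num
      _ ≤ _ := by gcongr
  intro D θ M Ω hθ hΩ hvol hM z hz
  have hne : Ω.Nonempty := by
    by_contra hcon
    rw [Set.not_nonempty_iff_eq_empty] at hcon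
    rw [hcon, measure_empty] at hvol
    have : 0 < ENNReal.ofReal θ := ENNReal.ofReal_pos.2 hθ
    exact absurd hvol (not_le.2 this)
  obtain ⟨x₀, hx₀⟩ := hne
  have hM0 : 0 ≤ M := (abs_nonneg _).trans (hM x₀ hx₀)
  have hθ' : 0 < θ / 2 ^ n := by positivity
  have hab : ∀ i : Fin n, (-1 : Fin n → ℝ) i < (1 : Fin n → ℝ) i := fun i => by simp
  have hsub : Ω ⊆ Set.Icc (-1 : Fin n → ℝ) 1 := by
    intro x hx
    rw [Set.mem_Icc, Pi.le_def, Pi.le_def]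
    exact ⟨fun i => (abs_le.1 (hΩ x hx i)).1, fun i => (abs_le.1 (hΩ x hx i)).2⟩
  have hbox : ENNReal.ofReal (θ / 2 ^ n) * volume (Set.Icc (-1 : Fin n → ℝ) 1) ≤ volume Ω := by
    refine le_trans (le_of_eq ?_) hvol
    rw [Real.volume_Icc_pi]
    simp only [Pi.one_apply, Pi.neg_apply, Finset.prod_const, Finset.card_univ, Fintype.card_fin]
    rw [← ENNReal.ofReal_pow (by norm_num), ← ENNReal.ofReal_mul hθ'.le]
    congr 1
    have : (1 - (-1) : ℝ) = 2 := by norm_num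
    rw [this]
    field_simp
  have h1 := rmz_box n 2 (k3e1Mv D) (k3e1_mv_degOf D) (-1) 1 hab (θ / 2 ^ n) M hθ' Ω hsub hbox
    (fun x hx => by rw [k3e1_mv_eval]; exact hM x hx)
  have h2 := rmz_box_aeval n 2 (k3e1Mv D) (k3e1_mv_degOf D) (-1) 1 hab (9 / 2) (by norm_num) z (fun i => by
    have h3 : ‖z i‖ ≤ 8 := (norm_le_pi_norm z i).trans hz
    simp only [Pi.neg_apply, Pi.one_apply]
    have h4 : ‖z i - ((-1 : ℝ) : ℂ)‖ ≤ ‖z i‖ + ‖((-1 : ℝ) : ℂ)‖ := norm_sub_le _ _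
    have h5 : ‖((-1 : ℝ) : ℂ)‖ = 1 := by rw [Complex.norm_real]; simp
    rw [h5] at h4
    linarith)
  rw [k3e1_mv_aeval] at h2
  have h3 := rmz_Cm_le n 2 (θ / 2 ^ n) hθ'
  rw [← hc₁] at h3
  have e1 : (θ / 2 ^ n)⁻¹ ^ (n * 2) = ((2 : ℝ) ^ n) ^ (n * 2) * θ⁻¹ ^ (2 * n) := by
    rw [inv_div, div_eq_mul_inv, mul_pow, Nat.mul_comm 2 n]
  rw [e1] at h3
  calc ‖D.ev z‖ ≤ rmzNm (rmzAffm (-1) 1 (k3e1Mv D)) * (9 / 2) ^ (n * 2) := h2
    _ ≤ (rmzCm n 2 (θ / 2 ^ n) * M) * (9 / 2) ^ (n * 2) := by gcongr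
    _ ≤ ((c₁ * (((2 : ℝ) ^ n) ^ (n * 2) * θ⁻¹ ^ (2 * n))) * M) * (9 / 2) ^ (n * 2) := by gcongr
    _ = (9 / 2 : ℝ) ^ (n * 2) * c₁ * ((2 : ℝ) ^ n) ^ (n * 2) * θ⁻¹ ^ (2 * n) * M := by ring

/-- **LEAF L-252-S3e1-Q9.**  A quadric on a complex line is a quadratic polynomial. -/
theorem k3e1_qd_line (D : K3bQd n) (z e : Fin n → ℂ) : ∃ a b : ℂ, ∀ s : ℂ, D.ev (z + s • e) = D.ev z + b * s + a * s ^ 2 := by
  refine ⟨∑ i, ∑ j, (D.c2 i j : ℂ) * e i * e j, ∑ i, (D.c1 i : ℂ) * e i + ∑ i, ∑ j, (D.c2 i j : ℂ) * (z i * e j + e i * z j), fun s => ?_⟩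
  unfold K3bQd.ev
  simp only [Pi.add_apply, Pi.smul_apply, smul_eq_mul]
  have e1 : ∑ i, (D.c1 i : ℂ) * (z i + s * e i) = ∑ i, (D.c1 i : ℂ) * z i + (∑ i, (D.c1 i : ℂ) * e i) * s := by
    rw [Finset.sum_mul, ← Finset.sum_add_distrib]
    refine Finset.sum_congr rfl fun i _ => by ring
  have e2 : ∑ i, ∑ j, (D.c2 i j : ℂ) * (z i + s * e i) * (z j + s * e j)
      = ∑ i, ∑ j, (D.c2 i j : ℂ) * z i * z j + (∑ i, ∑ j, (D.c2 i j : ℂ) * (z i * e j + e i * z j)) * s + (∑ i, ∑ j, (D.c2 i j : ℂ) * e i * e j) * s ^ 2 := by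
    simp only [Finset.sum_mul, ← Finset.sum_add_distrib]
    refine Finset.sum_congr rfl fun i _ => Finset.sum_congr rfl fun j _ => by ring
  rw [e1, e2]
  ring

/-- **LEAF L-252-S3e1-Q9.**  **Lipschitz bound from the sup bound.**
PROOF.  `h = ‖z - z'‖`; `h = 0` trivial.  `e = h⁻¹ • (z - z')`, `‖e‖ = 1`, `q s = D.ev (z' + s e) = q 0 + b s + a s²` (`k3e1_qd_line`); `|q 0|, |q 1|, |q (-1)| ≤ A` (norms `≤ 3 ≤ 8`) give `|a + b|, |a - b| ≤ 2A`, so `|a|, |b| ≤ 2A`;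
`|q h - q 0| ≤ 2A (h + h²) ≤ 4 A h`. -/
theorem k3e1_qd_lip (D : K3bQd n) (A : ℝ) (hD : D.Bd A) (z z' : Fin n → ℂ) (hz' : ‖z'‖ ≤ 2) (h : ‖z - z'‖ ≤ 1) : ‖D.ev z - D.ev z'‖ ≤ 4 * A * ‖z - z'‖ := by
  obtain ⟨h', hh'⟩ : ∃ h' : ℝ, h' = ‖z - z'‖ := ⟨_, rfl⟩
  rw [← hh'] at h ⊢
  have hA : 0 ≤ A := (norm_nonneg _).trans (hD 0 (by simp))
  by_cases h0 : h' = 0
  · have : z = z' := by
      rw [h0] at hh'
      exact sub_eq_zero.1 (norm_eq_zero.1 hh'.symm)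
    rw [this, sub_self, norm_zero, h0, mul_zero]
  have hpos : 0 < h' := lt_of_le_of_ne (by rw [hh']; exact norm_nonneg _) (Ne.symm h0)
  obtain ⟨e, he⟩ : ∃ e : Fin n → ℂ, e = ((h'⁻¹ : ℝ) : ℂ) • (z - z') := ⟨_, rfl⟩
  have hen : ‖e‖ = 1 := by
    rw [he, norm_smul, Complex.norm_real, Real.norm_eq_abs, abs_of_pos (inv_pos.2 hpos), ← hh']
    exact inv_mul_cancel₀ h0
  have hz : z = z' + ((h' : ℝ) : ℂ) • e := by
    rw [he, smul_smul, ← Complex.ofReal_mul, mul_inv_cancel₀ h0, Complex.ofReal_one, one_smul]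
    abel
  obtain ⟨a, b, hq⟩ := k3e1_qd_line D z' e
  have q0 : ‖D.ev z'‖ ≤ A := hD z' (by linarith)
  have q1 : ‖D.ev z' + b * 1 + a * 1 ^ 2‖ ≤ A := by
    rw [← hq 1]
    refine hD _ ?_
    rw [one_smul]
    exact (norm_add_le _ _).trans (by linarith)
  have q2 : ‖D.ev z' + b * (-1) + a * (-1) ^ 2‖ ≤ A := by
    rw [← hq (-1)]
    refine hD _ ?_
    rw [neg_one_smul]
    refine (norm_add_le _ _).trans ?_
    rw [norm_neg]
    linarith
  have s1 : ‖a + b‖ ≤ 2 * A := by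
    have e1 : a + b = (D.ev z' + b * 1 + a * 1 ^ 2) - D.ev z' := by ring
    rw [e1]
    exact (norm_sub_le _ _).trans (by linarith)
  have s2 : ‖a - b‖ ≤ 2 * A := by
    have e1 : a - b = (D.ev z' + b * (-1) + a * (-1) ^ 2) - D.ev z' := by ring
    rw [e1]
    exact (norm_sub_le _ _).trans (by linarith)
  have ha : ‖a‖ ≤ 2 * A := by
    have e1 : (2 : ℂ) * a = (a + b) + (a - b) := by ring
    have e2 : ‖(2 : ℂ) * a‖ = 2 * ‖a‖ := by rw [norm_mul]; simp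
    have := norm_add_le (a + b) (a - b)
    rw [← e1, e2] at this
    linarith
  have hb : ‖b‖ ≤ 2 * A := by
    have e1 : (2 : ℂ) * b = (a + b) - (a - b) := by ring
    have e2 : ‖(2 : ℂ) * b‖ = 2 * ‖b‖ := by rw [norm_mul]; simp
    have := norm_sub_le (a + b) (a - b)
    rw [← e1, e2] at this
    linarith
  rw [hz, hq]
  have e3 : D.ev z' + b * ((h' : ℝ) : ℂ) + a * ((h' : ℝ) : ℂ) ^ 2 - D.ev z' = b * ((h' : ℝ) : ℂ) + a * ((h' : ℝ) : ℂ) ^ 2 := by ring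
  have hn : ‖((h' : ℝ) : ℂ)‖ = h' := by rw [Complex.norm_real, Real.norm_eq_abs, abs_of_pos hpos]
  rw [e3]
  refine (norm_add_le _ _).trans ?_
  rw [norm_mul, norm_mul, norm_pow, hn]
  have t1 : ‖b‖ * h' ≤ 2 * A * h' := mul_le_mul_of_nonneg_right hb hpos.le
  have t2 : ‖a‖ * h' ^ 2 ≤ 2 * A * h' := by
    have : h' ^ 2 ≤ h' := by nlinarith
    exact mul_le_mul ha this (by positivity) (by positivity)
  linarith

theorem k3e1_C_norm (x : Fin n → ℝ) : ‖k3bC x‖ = ‖x‖ := by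
  refine le_antisymm ?_ ?_
  · rw [pi_norm_le_iff_of_nonneg (norm_nonneg _)]
    intro i
    have : ‖k3bC x i‖ = ‖x i‖ := Complex.norm_real _
    rw [this]
    exact norm_le_pi_norm x i
  · rw [pi_norm_le_iff_of_nonneg (norm_nonneg _)]
    intro i
    have : ‖x i‖ = ‖k3bC x i‖ := (Complex.norm_real _).symm
    rw [this]
    exact norm_le_pi_norm (k3bC x) i

theorem k3e1_C_sub (x y : Fin n → ℝ) : k3bC x - k3bC y = k3bC (x - y) := by
  funext i
  simp [k3bC]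

/-- **LEAF L-252-S3e1-Q9** (l.1217-1230).  **Stable balls.**   `D ≤ A` on the polydisc, `D (x) ≥ 1/A` at the tested point `x` of the unit box, `u` a net point with `|u - x| ≤ r`, `64 A² r ≤ 1`: `D` is stable on the polydisc of radius `4 r` about `u`.
PROOF.  `A ≥ 1` (`1/A ≤ D x ≤ A`), `r ≤ 1/64`.  `k3e1_qd_lip`, `k3e1_ev_real`: `D u ≥ 1/A - 4 A r`, `|D z - D u| ≤ 16 A r`; `36 A² r ≤ 1`. -/
theorem k3e1_stb (D : K3bQd n) (A r : ℝ) (x u : Fin n → ℝ) (hA : 0 < A) (hr : 0 < r) (hD : D.Bd A) (hx : ‖x‖ ≤ 1) (hlo : 1 / A ≤ D.evR x) (hu : ‖u - x‖ ≤ r) (hAr : 64 * A ^ 2 * r ≤ 1) :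
    D.Stb u (4 * r) ∧ 1 / (2 * A) ≤ D.evR u := by
  have nx : ‖k3bC x‖ ≤ 1 := by rw [k3e1_C_norm]; exact hx
  have hxA : D.evR x ≤ A := by
    have := hD (k3bC x) (by linarith)
    rw [k3e1_ev_real, Complex.norm_real, Real.norm_eq_abs] at this
    exact (le_abs_self _).trans this
  have hA1 : 1 ≤ A := by
    by_contra hlt
    have hlt' : A < 1 := not_le.mp hlt
    have : 1 < 1 / A := by
      rw [lt_div_iff₀ hA]
      linarith
    linarith
  have hA2 : 1 ≤ A ^ 2 := one_le_pow₀ hA1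
  have hr1 : r ≤ 1 / 64 := by nlinarith [mul_le_mul_of_nonneg_right hA2 hr.le]
  have k1 : 4 * A * r ≤ 1 / (16 * A) := by
    rw [le_div_iff₀ (by positivity)]
    nlinarith
  have eA : 1 / (16 * A) = 1 / A / 16 := by
    field_simp
  have eA2 : 1 / (2 * A) = 1 / A / 2 := by
    field_simp
  have hAi : 0 < 1 / A := by positivity
  have d1 : |D.evR u - D.evR x| ≤ 4 * A * r := by
    have := k3e1_qd_lip D A hD (k3bC u) (k3bC x) (by linarith) (by rw [k3e1_C_sub, k3e1_C_norm]; linarith)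
    rw [k3e1_ev_real, k3e1_ev_real, ← Complex.ofReal_sub, Complex.norm_real, Real.norm_eq_abs, k3e1_C_sub, k3e1_C_norm] at this
    exact this.trans (mul_le_mul_of_nonneg_left hu (by positivity))
  have d2 : 15 / 16 * (1 / A) ≤ D.evR u := by
    have := (abs_le.1 d1).1
    linarith
  refine ⟨⟨by linarith, fun z hz => ?_⟩, by linarith⟩
  have nu : ‖k3bC u‖ ≤ 2 := by
    rw [k3e1_C_norm]
    have : u = x + (u - x) := by abel
    rw [this]
    exact (norm_add_le _ _).trans (by linarith)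
  have := k3e1_qd_lip D A hD z (k3bC u) nu (by linarith)
  rw [k3e1_ev_real] at this
  refine this.trans ?_
  have t1 : 4 * A * ‖z - k3bC u‖ ≤ 4 * A * (4 * r) := mul_le_mul_of_nonneg_left hz (by positivity)
  linarith

/-- the net point is near (`k3bNet` rounds TOWARDS ZERO: the bound is `ρ`, not `ρ/2`; statement corrected by helper208; `Int.floor_le`, `Int.lt_floor_add_one`, `pi_norm_le_iff_of_nonneg`) -/
theorem k3e1_net_near (ρ : ℝ) (hρ : 0 < ρ) (x : Fin n → ℝ) : ‖k3bNet ρ x - x‖ ≤ ρ := by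
  rw [pi_norm_le_iff_of_nonneg hρ.le]
  intro i
  have e : x i = ρ * (x i / ρ) := by
    field_simp
  rw [Pi.sub_apply, Real.norm_eq_abs, abs_le]
  unfold k3bNet
  split_ifs with h
  · have h1 := Int.floor_le (x i / ρ)
    have h2 := Int.lt_floor_add_one (x i / ρ)
    have h3 := mul_le_mul_of_nonneg_left h1 hρ.le
    have h4 := mul_le_mul_of_nonneg_left h2.le hρ.le
    rw [← e] at h3 h4
    constructor <;> linarith
  · have h1 := Int.le_ceil (x i / ρ)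
    have h2 := Int.ceil_lt_add_one (x i / ρ)
    have h3 := mul_le_mul_of_nonneg_left h1 hρ.le
    have h4 := mul_le_mul_of_nonneg_left h2.le hρ.le
    rw [mul_add, ← e] at h4
    rw [← e] at h3
    constructor <;> linarith

/-- rounding towards zero does not increase the norm -/
theorem k3e1_net_norm (ρ : ℝ) (hρ : 0 < ρ) (x : Fin n → ℝ) : ‖k3bNet ρ x‖ ≤ ‖x‖ := by
  rw [pi_norm_le_iff_of_nonneg (norm_nonneg _)]
  intro i
  refine le_trans ?_ (norm_le_pi_norm x i)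
  have e : x i = ρ * (x i / ρ) := by
    field_simp
  rw [Real.norm_eq_abs, Real.norm_eq_abs]
  unfold k3bNet
  split_ifs with h
  · have h0 : (0 : ℝ) ≤ (⌊x i / ρ⌋ : ℝ) := by
      exact_mod_cast Int.floor_nonneg.2 (div_nonneg h hρ.le)
    have h3 := mul_le_mul_of_nonneg_left (Int.floor_le (x i / ρ)) hρ.le
    rw [← e] at h3
    rw [abs_of_nonneg (mul_nonneg hρ.le h0), abs_of_nonneg h]
    exact h3
  · have hx : x i < 0 := not_le.mp h
    have h0 : ((⌈x i / ρ⌉ : ℤ) : ℝ) ≤ 0 := by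
      have : ⌈x i / ρ⌉ ≤ 0 := Int.ceil_le.2 (by push_cast; exact (div_neg_of_neg_of_pos hx hρ).le)
      exact_mod_cast this
    have h3 := mul_le_mul_of_nonneg_left (Int.le_ceil (x i / ρ)) hρ.le
    rw [← e] at h3
    rw [abs_of_nonpos (mul_nonpos_of_nonneg_of_nonpos hρ.le h0), abs_of_neg hx]
    linarith

/-- the net points of the unit box: a finite set of at most `(2/ρ + 3)^n` points -/
theorem k3e1_net_fin (ρ : ℝ) (hρ : 0 < ρ) : ∃ S : Finset (Fin n → ℝ), (S.card : ℝ) ≤ (2 / ρ + 3) ^ n ∧ ∀ x : Fin n → ℝ, ‖x‖ ≤ 1 → k3bNet ρ x ∈ S := by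
  obtain ⟨N, hN⟩ : ∃ N : ℤ, N = ⌊1 / ρ⌋ := ⟨_, rfl⟩
  have hN0 : 0 ≤ N := by
    rw [hN]
    exact Int.floor_nonneg.2 (by positivity)
  have hN1 : (N : ℝ) ≤ 1 / ρ := by
    rw [hN]
    exact Int.floor_le _
  refine ⟨(Fintype.piFinset fun _ : Fin n => Finset.Icc (-N) N).image (fun k i => ρ * ((k i : ℤ) : ℝ)), ?_, fun x hx => ?_⟩
  · have c1 : ((Fintype.piFinset fun _ : Fin n => Finset.Icc (-N) N).image (fun k (i : Fin n) => ρ * ((k i : ℤ) : ℝ))).card ≤ (2 * N + 1).toNat ^ n := by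
      refine Finset.card_image_le.trans ?_
      rw [Fintype.card_piFinset]
      simp only [Int.card_Icc, Finset.prod_const, Finset.card_univ, Fintype.card_fin]
      have : N + 1 - -N = 2 * N + 1 := by ring
      rw [this]
    have c2 : (((2 * N + 1).toNat : ℕ) : ℝ) = 2 * (N : ℝ) + 1 := by
      have : (((2 * N + 1).toNat : ℕ) : ℤ) = 2 * N + 1 := Int.toNat_of_nonneg (by linarith)
      exact_mod_cast this
    calc _ ≤ (((2 * N + 1).toNat ^ n : ℕ) : ℝ) := Nat.cast_le.2 c1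
      _ = (2 * (N : ℝ) + 1) ^ n := by rw [Nat.cast_pow, c2]
      _ ≤ (2 / ρ + 3) ^ n := by
        refine pow_le_pow_left₀ (by positivity) ?_ n
        have : 2 / ρ = 2 * (1 / ρ) := by ring
        rw [this]
        linarith
  · rw [Finset.mem_image]
    refine ⟨fun i => if 0 ≤ x i then ⌊x i / ρ⌋ else ⌈x i / ρ⌉, ?_, ?_⟩
    · rw [Fintype.mem_piFinset]
      intro i
      have hxi : |x i| ≤ 1 := by
        rw [← Real.norm_eq_abs]
        exact (norm_le_pi_norm x i).trans hx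
      obtain ⟨l, u⟩ := abs_le.1 hxi
      rw [Finset.mem_Icc]
      split_ifs with h
      · constructor
        · have : 0 ≤ ⌊x i / ρ⌋ := Int.floor_nonneg.2 (div_nonneg h hρ.le)
          linarith
        · rw [hN]
          exact Int.floor_le_floor (div_le_div_of_nonneg_right u hρ.le)
      · have hx' : x i < 0 := not_le.mp h
        constructor
        · have h1 : ⌊-(x i / ρ)⌋ ≤ N := by
            rw [hN]
            refine Int.floor_le_floor ?_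
            rw [← neg_div]
            exact div_le_div_of_nonneg_right (by linarith) hρ.le
          rw [Int.floor_neg] at h1
          linarith
        · have : ⌈x i / ρ⌉ ≤ 0 := Int.ceil_le.2 (by push_cast; exact (div_neg_of_neg_of_pos hx' hρ).le)
          linarith
    · funext i
      unfold k3bNet
      simp only
      split_ifs <;> rfl

/-- the net map is measurable (`measurable_pi_iff`; `round` is measurable: `measurable_round`/`Int.measurable_round`..) -/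
theorem k3e1_net_meas (ρ : ℝ) : Measurable (k3bNet (n := n) ρ) := by
  rw [measurable_pi_iff]
  intro i
  unfold k3bNet
  have hc : Measurable (fun k : ℤ => (k : ℝ)) := measurable_of_countable _
  have hd : Measurable (fun x : Fin n → ℝ => x i / ρ) := by fun_prop
  refine Measurable.ite (measurableSet_le measurable_const (measurable_pi_apply i)) ?_ ?_
  · exact (hc.comp hd.floor).const_mul ρ
  · exact (hc.comp hd.ceil).const_mul ρ

end

end Claimed.Agent.R252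

end PkS3e1QuadContract
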