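import Claimed.Agent.R252.S3e1.PkC

/-! PACKED FILE (helper215, closed unit S3e1 of row 252, FROZEN): parts S3e1.StageContract.  Each part is wrapped in its own `section`.  -- KEEP -/

section PkS3e1StageContract

/-!
# ROW 252 (S0492), unit S3e1 (sub-architect helper215, chief helper70): CONTRACT, file 10: STAGE A = EVERYTHING BEFORE THE LOCAL SHEET MATCH, for the construction of `S3e1/Build.lean`
`03-comparison.tex` l.905-1238.   ONE SCALE, explicit closed-form bounds (no choice of constants here: that is `S3e1/Main*.lean`).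

PAPER-FREE: every statement is about the definitions of `S3e1/Build.lean` under the standing assumptions `h : K3e1St P Y x S R G nr n₁ nrm p`; every proof is a WIRING of the cited lemmas of `S3e1/{Lift,Frame,Ext,Quad,Cap}Contract.lean`.
Prefix `k3e1_st_`.  Every `sorry` is a leaf `L-252-S3e1-A*`: prove IN PLACE, statement verbatim, helper lemmas directly above (same prefix).  Earlier statements of the S3e1 files may be cited even if still `sorry`.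
NOTATION.  `K = x.K`, `E = x.E = 2^(n₀-n₁)`, `δ = x.δ`, `q₀ = Y.q`, `q₁ = kbQ n₁ = E q₀`, `n_Q = nL q₀^j g`, `Θ = 1/(δ thr)`, `JD = (Λ q₁)^j gs` (bound of the Jacobians of the frames).
-/

set_option autoImplicit false

namespace Claimed.Agent.R252

open MeasureTheory
open scoped ENNReal BigOperators

noncomputable section

variable {v : KbVer} {P : KbPb v} {Y : KbSys P} {x : K3bNum} {S R : ℝ} {G : Finset ℝ} {nr : ℝ → ℝ} {n₁ : ℕ} {nrm : Y.C → KbB v} {p : K3e1Par}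

/-! ## 1. frames      (LEAVES L-252-S3e1-A1, A2) -/

/-- elementary facts -/
theorem k3e1_st_num (h : K3e1St P Y x S R G nr n₁ nrm p) : 1 ≤ x.E ∧ kbQ n₁ = x.E * Y.q ∧ 0 < Y.q ∧ 0 < kbQ n₁ ∧ kbQ n₁ ≤ 1 := by
  refine ⟨?_, ?_, ?_, ?_, ?_⟩
  · rw [h.hE]
    exact one_le_pow₀ (by norm_num)
  · rw [h.hE]
    exact k3e1_q_eq Y h.hn
  · rw [KbSys.q, kbQ]; positivity
  · rw [kbQ]; positivity
  · rw [kbQ]; exact pow_le_one₀ (by norm_num) (by norm_num)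

theorem k3e1_st_gs (h : K3e1St P Y x S R G nr n₁ nrm p) : 0 < p.gs ∧ p.gs ≤ 1 ∧ x.g ≤ p.gs ∧ p.gs ≤ x.g * x.E ^ R ∧ (v = KbVer.one → p.gs = 1) := by
  have hE := (k3e1_st_num h).1
  have hER : 1 ≤ x.E ^ R := Real.one_le_rpow hE (by linarith [h.hR])
  have hg := h.hin.g_pos
  rw [h.gs_def]
  refine ⟨lt_min one_pos (mul_pos hg (by linarith)), min_le_left _ _, le_min h.hin.g_le ?_, min_le_right _ _, fun hv => ?_⟩
  · calc x.g = x.g * 1 := (mul_one _).symm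
      _ ≤ x.g * x.E ^ R := mul_le_mul_of_nonneg_left hER hg.le
  · rw [h.hin.g_one hv, one_mul]
    exact min_eq_left hER

/-- the interval of an old label -/
theorem k3e1_st_I (Y : KbSys P) (c : Y.C) : Y.I c = Set.Ico (Y.tc c) (Y.tc c + Y.q) := by
  rw [KbSys.I, kbI, KbSys.tc, KbSys.q]
  congr 1
  ring

/-- the standing fit in the form of `FrameContract` (`Y.I c = Ico (tc c) (tc c + q₀)`) -/
theorem k3e1_st_fit (h : K3e1St P Y x S R G nr n₁ nrm p) (c : Y.C) (l : P.Lam) (hl : l ∈ Y.A c) : k3e1FitB (nrm c) (Y.ch c) (P.co (Y.wd c) l) (Y.tc c) Y.q x.K x.g := by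
  intro t ht
  rw [← k3e1_st_I] at ht
  exact h.fit c l hl t ht

/-- the closed block -/
theorem k3e1_st_Ic (Y : KbSys P) (n₁ : ℕ) (c : Y.C) : k3e1Ic Y n₁ c = Set.Icc ((k3e1Bk Y n₁ c : ℝ) * kbQ n₁) ((k3e1Bk Y n₁ c : ℝ) * kbQ n₁ + kbQ n₁) := by
  rw [k3e1Ic]
  congr 1
  ring

/-- the old interval lies in the closed new block -/
theorem k3e1_st_I_sub (h : K3e1St P Y x S R G nr n₁ nrm p) (c : Y.C) :
    Set.Ico (Y.tc c) (Y.tc c + Y.q) ⊆ Set.Icc ((k3e1Bk Y n₁ c : ℝ) * kbQ n₁) ((k3e1Bk Y n₁ c : ℝ) * kbQ n₁ + kbQ n₁) := by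
  rw [← k3e1_st_I, ← k3e1_st_Ic]
  exact (k3e1_I_sub Y h.hn c).trans (k3e1_kbI_sub_Ic Y n₁ c)

/-- the closed block lies in `[0,1]` -/
theorem k3e1_st_Ic_unit (h : K3e1St P Y x S R G nr n₁ nrm p) (c : Y.C) : k3e1Ic Y n₁ c ⊆ Set.Icc (0 : ℝ) 1 := by
  obtain ⟨-, -, -, hq, -⟩ := k3e1_st_num h
  have h1 : ((k3e1Bk Y n₁ c : ℝ) + 1) ≤ 2 ^ n₁ := by exact_mod_cast k3e1_bk_lt Y h.hin.ywf h.hn c
  have h2 : (2 : ℝ) ^ n₁ * kbQ n₁ = 1 := by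
    rw [kbQ, ← mul_pow]
    norm_num
  have h3 : ((k3e1Bk Y n₁ c : ℝ) + 1) * kbQ n₁ ≤ 1 :=
    (mul_le_mul_of_nonneg_right h1 hq.le).trans h2.le
  have h4 : (0 : ℝ) ≤ (k3e1Bk Y n₁ c : ℝ) * kbQ n₁ := by positivity
  intro t ht
  rw [k3e1Ic] at ht
  exact ⟨h4.trans ht.1, ht.2.trans h3⟩

theorem k3e1_st_mid (h : K3e1St P Y x S R G nr n₁ nrm p) (c : Y.C) : |k3e1Mid n₁ (k3e1Bk Y n₁ c)| ≤ 1 := by
  obtain ⟨-, -, -, hq, -⟩ := k3e1_st_num h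
  have hm : k3e1Mid n₁ (k3e1Bk Y n₁ c) ∈ k3e1Ic Y n₁ c := by
    rw [k3e1Mid, k3e1_st_Ic]
    constructor <;> linarith
  have := k3e1_st_Ic_unit h c hm
  rw [abs_le]
  constructor <;> linarith [this.1, this.2]

theorem k3e1_st_fr_eq (Y : KbSys P) (n₁ : ℕ) (nrm : Y.C → KbB v) (p : K3e1Par) (c : Y.C) :
    k3e1Fr n₁ p (k3e1Of Y n₁ nrm p c) = k3e1Frm v p.gs (kbQ n₁) ((k3e1Bk Y n₁ c : ℝ) * kbQ n₁ + kbQ n₁ / 2) p.Λ
      (k3e1FrC v p.gs (kbQ n₁) ((k3e1Bk Y n₁ c : ℝ) * kbQ n₁ + kbQ n₁ / 2) (nrm c) (Y.ch c)) := rfl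

/-- **LEAF A1.**  (`k3e1_frm_chart`, `k3e1_frC_ks`, `k3e1_frm_cen` with `Q = x.Q` (`h.hin.ytmp.cen`), `|Mid| ≤ 1` by `k3e1_bk_lt`.) -/
theorem k3e1_st_frame (h : K3e1St P Y x S R G nr n₁ nrm p) (c : Y.C) :
    (k3e1Fr n₁ p (k3e1Of Y n₁ nrm p c)).M * (k3e1Fr n₁ p (k3e1Of Y n₁ nrm p c)).Mi = 1 ∧ kbMn (k3e1Fr n₁ p (k3e1Of Y n₁ nrm p c)).M ≤ 6 * p.Λ * kbQ n₁ ∧
      |(k3e1Fr n₁ p (k3e1Of Y n₁ nrm p c)).M.det| ≤ (p.Λ * kbQ n₁) ^ v.j * p.gs ∧ (p.Λ * kbQ n₁) ^ v.j * p.gs ≤ 5 * |(k3e1Fr n₁ p (k3e1Of Y n₁ nrm p c)).M.det| ∧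
      ‖(k3e1Fr n₁ p (k3e1Of Y n₁ nrm p c)).y0‖ + ‖(k3e1Fr n₁ p (k3e1Of Y n₁ nrm p c)).y1‖ ≤ 100 * (x.Q + 1) := by
  obtain ⟨-, -, -, hq, hq1⟩ := k3e1_st_num h
  obtain ⟨hgs, hgs1, -, -, hv⟩ := k3e1_st_gs h
  have hΛ : 0 < p.Λ := by rw [h.Λ_def]; linarith [h.hK]
  have hmid := k3e1_st_mid h c
  rw [k3e1Mid] at hmid
  rw [k3e1_st_fr_eq]
  obtain ⟨a1, a2, a3, a4⟩ := k3e1_frm_chart v p.gs (kbQ n₁) ((k3e1Bk Y n₁ c : ℝ) * kbQ n₁ + kbQ n₁ / 2) p.Λ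
    (k3e1FrC v p.gs (kbQ n₁) ((k3e1Bk Y n₁ c : ℝ) * kbQ n₁ + kbQ n₁ / 2) (nrm c) (Y.ch c)) hgs hgs1 hv hq hΛ
    (k3e1_frC_ks v p.gs (kbQ n₁) _ hgs hgs1 (nrm c) (Y.ch c) (h.nrm1 c))
  exact ⟨a1, a2, a3, a4, k3e1_frm_cen v p.gs (kbQ n₁) _ p.Λ x.Q hgs hgs1 hq hq1 hmid (nrm c) (Y.ch c) (h.nrm1 c) (h.hin.ytmp.cen c)⟩

/-- **LEAF A1.**  The trace on the closed new block lies in the unit cube.   (`k3e1_frm_trace` with `tI = Bk c · q₁`, `s₀ = Y.tc c`, `q₀ = Y.q`; `‖V‖ ≤ K` from `h.hin.ntv.base` (`Y.A c ⊆ Sp`, `t = 0`); the first coordinate is `(t - i q₁)/q₁ ∈ [0,1]`;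
`‖Fin.cons a b‖ ≤ 1 ↔ |a| ≤ 1 ∧ ‖b‖ ≤ 1`: `pi_norm_le_iff_of_nonneg`, `Fin.forall_fin_succ`.) -/
theorem k3e1_st_box (h : K3e1St P Y x S R G nr n₁ nrm p) (c : Y.C) (l : P.Lam) (hl : l ∈ Y.A c) (t : ℝ) (ht : t ∈ k3e1Ic Y n₁ c) :
    ‖(k3e1Fr n₁ p (k3e1Of Y n₁ nrm p c)).zl n₁ (k3e1Bk Y n₁ c) (P.co (Y.wd c) l) t‖ ≤ 1 := by
  obtain ⟨hE, hqE, hq0, hq, hq1⟩ := k3e1_st_num h
  obtain ⟨hgs, hgs1, hggs, -, hv⟩ := k3e1_st_gs h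
  have hqq : Y.q ≤ kbQ n₁ := by
    rw [hqE]
    calc Y.q = 1 * Y.q := (one_mul _).symm
      _ ≤ x.E * Y.q := mul_le_mul_of_nonneg_right hE hq0.le
  have hV : ‖kbV (P.co (Y.wd c) l)‖ ≤ x.K := by
    have := h.hin.ntv.base (Y.wd c) l (h.hin.ywf.A_sub c hl) 0 (by norm_num)
    linarith [norm_nonneg (kbY (P.co (Y.wd c) l) 0)]
  rw [k3e1_st_Ic] at ht
  have key := k3e1_frm_trace v p.gs (kbQ n₁) ((k3e1Bk Y n₁ c : ℝ) * kbQ n₁) x.g x.K p.Λ (Y.tc c) Y.q (nrm c) (Y.ch c) (P.co (Y.wd c) l) hq0 hqq h.hK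
    h.hin.g_pos hggs hgs1 hv (h.nrm1 c) (k3e1_st_I_sub h c) hV (k3e1_st_fit h c l hl) (by rw [h.Λ_def]) t ht
  rw [k3e1_st_fr_eq, K3bFrm.zl, K3bFrm.z, pi_norm_le_iff_of_nonneg zero_le_one]
  intro i
  refine Fin.cases ?_ (fun k => ?_) i
  · rw [Fin.cons_zero, Real.norm_eq_abs, abs_le]
    constructor
    · have : 0 ≤ (t - (k3e1Bk Y n₁ c : ℝ) * kbQ n₁) / kbQ n₁ := div_nonneg (by linarith [ht.1]) hq.le
      linarith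
    · rw [div_le_one hq]
      linarith [ht.2]
  · rw [Fin.cons_succ]
    exact (norm_le_pi_norm _ k).trans key

/-- **LEAF A2.**  (`k3e1_frm_list` for the common trajectory of a pair: `k3e1_prc_mem`, `k3e1_st_fit`, `k3e1_I_sub`.) -/
theorem k3e1_st_list (h : K3e1St P Y x S R G nr n₁ nrm p) (c c' : Y.C) (hadm : k3e1Adm Y n₁ c c') (hne : (k3e1PrC Y c c').Nonempty) (htr : ¬ k3e1Tr v p.gs (nrm c) (nrm c')) :
    k3e1Of Y n₁ nrm p c ∈ k3e1Cp Y n₁ nrm p c' := by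
  classical
  obtain ⟨hE, hqE, hq0, hq, hq1⟩ := k3e1_st_num h
  obtain ⟨hgs, hgs1, hggs, -, hv⟩ := k3e1_st_gs h
  have hqq : Y.q ≤ kbQ n₁ := by
    rw [hqE]
    calc Y.q = 1 * Y.q := (one_mul _).symm
      _ ≤ x.E * Y.q := mul_le_mul_of_nonneg_right hE hq0.le
  obtain ⟨z, hz⟩ := hne
  obtain ⟨hA, -, hA', -, -, -⟩ := k3e1_prc_mem Y h.hin.ywf hz
  obtain ⟨hw, hb⟩ := hadm
  have f1 := k3e1_st_fit h c z.1 hA
  have f2 := k3e1_st_fit h c' z.1 hA'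
  have i1 := k3e1_st_I_sub h c
  have i2 := k3e1_st_I_sub h c'
  rw [hw] at f1
  rw [hb] at i1
  have key := k3e1_frm_list v p.gs (kbQ n₁) ((k3e1Bk Y n₁ c' : ℝ) * kbQ n₁) x.g x.K (Y.tc c) (Y.tc c') Y.q p.ρL (nrm c) (nrm c') (Y.ch c) (Y.ch c') (P.co (Y.wd c') z.1)
    hq0 hqq h.hK h.hin.g_pos hggs hgs1 (h.nrm1 c) (h.nrm1 c') i1 i2 f1 f2 htr h.ρL_ge
  rw [k3e1Cp, Finset.mem_image]
  refine ⟨_, key, ?_⟩
  rw [k3e1Of, hw, hb]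
  rfl

theorem k3e1_st_cp_card (Y : KbSys P) (n₁ : ℕ) (nrm : Y.C → KbB v) (p : K3e1Par) (c' : Y.C) : ((k3e1Cp Y n₁ nrm p c').card : ℝ) ≤ 14 * (2 * (p.ρL : ℝ) + 1) ^ 3 := by
  classical
  have h1 : (k3e1Cp Y n₁ nrm p c').card ≤ 14 * (2 * p.ρL + 1) ^ 3 := by
    rw [k3e1Cp]
    exact Finset.card_image_le.trans (k3e1_cmpL_card v _ _ _ _ _ _)
  exact_mod_cast h1

theorem k3e1_st_cp_ctx (Y : KbSys P) (n₁ : ℕ) (nrm : Y.C → KbB v) (p : K3e1Par) (c' : Y.C) (φ : K3e1Ix P) (hφ : φ ∈ k3e1Cp Y n₁ nrm p c') : φ.1 = Y.wd c' ∧ φ.2.1 = k3e1Bk Y n₁ c' := by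
  classical
  rw [k3e1Cp, Finset.mem_image] at hφ
  obtain ⟨F, -, rfl⟩ := hφ
  exact ⟨rfl, rfl⟩

/-! ## 2. equations      (LEAVES L-252-S3e1-A3, A4) -/

/-- **LEAF A3.**  (`k3b_eqn_rep`, `k3e1_rep_exists`, `k3e1_st_frame`, `h.hin.pwf.B_pos`, `(h.hin.ywf.adm c).1`.) -/
theorem k3e1_st_rep (h : K3e1St P Y x S R G nr n₁ nrm p) (c c₀ : Y.C) :
    K3bRep (k3e1Fr n₁ p (k3e1Of Y n₁ nrm p c₀)) n₁ (k3e1Bk Y n₁ c₀) (P.B (Y.wd c)) (Y.ch c).T (k3e1Eu Y n₁ p c (k3e1Of Y n₁ nrm p c₀)) := by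
  obtain ⟨Pq, hPq, -⟩ := k3e1_rep_exists (k3e1Fr n₁ p (k3e1Of Y n₁ nrm p c₀)) (k3e1_st_frame h c₀).1 n₁ (k3e1Bk Y n₁ c₀) (P.B (Y.wd c)) (h.hin.pwf.B_pos _) (Y.ch c).T
    (h.hin.ywf.adm c).1
  exact k3b_eqn_rep _ _ _ _ _ ⟨Pq, hPq⟩

/-- **LEAF A3.**  The unconverted equation along a trajectory (`k3e1_st_rep`, `k3e1_rep_dw`; `kbX`, `K3bFrm.zl` unfold). -/
theorem k3e1_st_eu (h : K3e1St P Y x S R G nr n₁ nrm p) (c c₀ : Y.C) (l : KbTj v) (t : ℝ) :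
    (k3e1Eu Y n₁ p c (k3e1Of Y n₁ nrm p c₀)).evR ((k3e1Fr n₁ p (k3e1Of Y n₁ nrm p c₀)).zl n₁ (k3e1Bk Y n₁ c₀) l t) (P.B (Y.wd c) * kbW l t) = kbX (Y.ch c).T l t ∧
      P.B (Y.wd c) * (k3e1Eu Y n₁ p c (k3e1Of Y n₁ nrm p c₀)).dwR ((k3e1Fr n₁ p (k3e1Of Y n₁ nrm p c₀)).zl n₁ (k3e1Bk Y n₁ c₀) l t) (P.B (Y.wd c) * kbW l t) = kbX (kbDw (Y.ch c).T) l t := by
  obtain ⟨h1, h2, -⟩ := k3e1_rep_dw (k3e1_st_rep h c c₀) t (kbY l t) (kbW l t)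
  exact ⟨h1.symm, h2.symm⟩

/-- the curvature of a converted equation (definition of `K3bEq.cv`, `K3bEq.ctr`) -/
theorem k3e1_cv_curv {n : ℕ} (Pq : K3bEq n) (thr : ℝ) (hthr : 0 < thr) : |(Pq.cv thr).c| ≤ thr := by
  unfold K3bEq.cv
  split_ifs with hc
  · show |(0 : ℝ)| ≤ thr
    rw [abs_zero]
    exact hthr.le
  · exact (not_le.1 hc).le

/-- **LEAF A3.**  version one (`k3e1_rep_v1` with `B = 1`: `h.hin.pwf.v1`, `(h.hin.ywf.adm c).2`; `c = 0 < thr`: not replaced) -/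
theorem k3e1_st_v1 (h : K3e1St P Y x S R G nr n₁ nrm p) (hthr : 0 < p.thr) (hv : v = KbVer.one) (c c₀ : Y.C) :
    (k3e1Eq Y n₁ p c (k3e1Of Y n₁ nrm p c₀)).c = 0 ∧ (k3e1Eq Y n₁ p c (k3e1Of Y n₁ nrm p c₀)).a0 = 1 ∧ ∀ i, (k3e1Eq Y n₁ p c (k3e1Of Y n₁ nrm p c₀)).a1 i = 0 := by
  obtain ⟨h1, h2, h3⟩ := k3e1_rep_v1 (k3e1_st_frame h c₀).1 (h.hin.pwf.B_pos _) (k3e1_st_rep h c c₀) ((h.hin.ywf.adm c).2 hv)
  have e : k3e1Eq Y n₁ p c (k3e1Of Y n₁ nrm p c₀) = k3e1Eu Y n₁ p c (k3e1Of Y n₁ nrm p c₀) := by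
    rw [k3e1Eq, K3bEq.cv, if_neg]
    rw [h3, abs_zero]
    exact not_le.2 hthr
  rw [e]
  refine ⟨h3, ?_, h2⟩
  rw [h1, (h.hin.pwf.v1 hv _).1]
  norm_num

/-- **LEAF A4** (field `early` of `K3bCmp.Ok`).
PROOF.  `Pu = k3e1Eu ..`.  By `k3e1_st_eu`, `k3e1_ext`, `h.hin.geo.dw_low`: on the block `|Pu.evR| ≤ 68 E² K δ`, `|Pu.dwR| ≤ 6 E K`; at selected incidences `|Pu.dwR| ≥ 1/K`.
`|Pu.c| < thr` (not replaced): `Ae = 68 E² K`, `16 |c| δ Ae³ ≤ 16 Ae³/Θ ≤ 1`.   `thr ≤ |Pu.c|` (replaced, `k3e1_ctr_pt`): `c = 0`, `evR = Pu.dwR / Pu.c`, `|.| ≤ 6 E K / thr = δ (6 E K Θ)`, `dwR = 1`: `Ae = 6 E K Θ`. -/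
theorem k3e1_st_early (h : K3e1St P Y x S R G nr n₁ nrm p) (Θ A₀ : ℝ) (hthr : p.thr = 1 / (x.δ * Θ)) (hΘ : 16 * (68 * x.E ^ 2 * x.K) ^ 3 ≤ Θ) (hA : 6 * x.E * x.K * Θ ≤ A₀) (c : Y.C) :
    ∃ Ae : ℝ, 2 ≤ Ae ∧ Ae ≤ A₀ ∧ 16 * |(k3e1Eq Y n₁ p c (k3e1Of Y n₁ nrm p c)).c| * x.δ * Ae ^ 3 ≤ 1 ∧
      (∀ l ∈ Y.A c, ∀ t ∈ k3e1Ic Y n₁ c,
        |(k3e1Eq Y n₁ p c (k3e1Of Y n₁ nrm p c)).evR ((k3e1Fr n₁ p (k3e1Of Y n₁ nrm p c)).zl n₁ (k3e1Bk Y n₁ c) (P.co (Y.wd c) l) t) (P.B (Y.wd c) * kbW (P.co (Y.wd c) l) t)| ≤ x.δ * Ae ∧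
        |(k3e1Eq Y n₁ p c (k3e1Of Y n₁ nrm p c)).dwR ((k3e1Fr n₁ p (k3e1Of Y n₁ nrm p c)).zl n₁ (k3e1Bk Y n₁ c) (P.co (Y.wd c) l) t) (P.B (Y.wd c) * kbW (P.co (Y.wd c) l) t)| ≤ Ae) ∧
      ∀ y ∈ Y.S c, 1 / Ae ≤
        |(k3e1Eq Y n₁ p c (k3e1Of Y n₁ nrm p c)).dwR ((k3e1Fr n₁ p (k3e1Of Y n₁ nrm p c)).zl n₁ (k3e1Bk Y n₁ c) (P.co (Y.wd c) y.1) y.2) (P.B (Y.wd c) * kbW (P.co (Y.wd c) y.1) y.2)| := by
  have hE := (k3e1_st_num h).1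
  have hK := h.hK
  have hδ := h.hδ
  have hB := h.hin.pwf.B_pos (Y.wd c)
  obtain ⟨Pu, hPu⟩ : ∃ Pu, Pu = k3e1Eu Y n₁ p c (k3e1Of Y n₁ nrm p c) := ⟨_, rfl⟩
  obtain ⟨A1, hA1⟩ : ∃ A1 : ℝ, A1 = 68 * x.E ^ 2 * x.K := ⟨_, rfl⟩
  have hEK : 1 ≤ x.E * x.K := one_le_mul_of_one_le_of_one_le hE hK
  have hE2K : x.E * x.K ≤ x.E ^ 2 * x.K := by
    have : x.E ≤ x.E ^ 2 := by nlinarith
    exact mul_le_mul_of_nonneg_right this (by linarith)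
  have hA1_68 : 68 ≤ A1 := by rw [hA1]; linarith
  have hA13 : A1 ≤ A1 ^ 3 := by
    have : 1 ≤ A1 ^ 2 := one_le_pow₀ (by linarith)
    calc A1 = A1 * 1 := (mul_one _).symm
      _ ≤ A1 * A1 ^ 2 := mul_le_mul_of_nonneg_left this (by linarith)
      _ = A1 ^ 3 := by ring
  rw [← hA1] at hΘ
  have hΘA : A1 ≤ Θ := by linarith
  have hΘ0 : 0 < Θ := by linarith
  have hthr0 : 0 < p.thr := by rw [hthr]; positivity
  -- bounds for the unconverted equation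
  have hev : ∀ l ∈ Y.A c, ∀ t ∈ k3e1Ic Y n₁ c,
      |Pu.evR ((k3e1Fr n₁ p (k3e1Of Y n₁ nrm p c)).zl n₁ (k3e1Bk Y n₁ c) (P.co (Y.wd c) l) t) (P.B (Y.wd c) * kbW (P.co (Y.wd c) l) t)| ≤ x.δ * A1 ∧
      |Pu.dwR ((k3e1Fr n₁ p (k3e1Of Y n₁ nrm p c)).zl n₁ (k3e1Bk Y n₁ c) (P.co (Y.wd c) l) t) (P.B (Y.wd c) * kbW (P.co (Y.wd c) l) t)| ≤ 6 * x.E * x.K := by
    intro l hl t ht
    obtain ⟨e1, e2⟩ := k3e1_st_eu h c c (P.co (Y.wd c) l) t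
    obtain ⟨b1, b2, -⟩ := k3e1_ext Y h.hin.ywf h.hn h.hin.geo c l hl t ht
    rw [← h.hE] at b1 b2
    rw [hPu]
    constructor
    · rw [e1, hA1]
      refine b1.trans (le_of_eq ?_)
      ring
    · rw [← e2, abs_mul, abs_of_pos hB] at b2
      have : P.B (Y.wd c) * |(k3e1Eu Y n₁ p c (k3e1Of Y n₁ nrm p c)).dwR ((k3e1Fr n₁ p (k3e1Of Y n₁ nrm p c)).zl n₁ (k3e1Bk Y n₁ c) (P.co (Y.wd c) l) t) (P.B (Y.wd c) * kbW (P.co (Y.wd c) l) t)|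
          ≤ P.B (Y.wd c) * (6 * x.E * x.K) := b2.trans (le_of_eq (by ring))
      exact le_of_mul_le_mul_left this hB
  have hlow : ∀ y ∈ Y.S c, 1 / x.K ≤
      |Pu.dwR ((k3e1Fr n₁ p (k3e1Of Y n₁ nrm p c)).zl n₁ (k3e1Bk Y n₁ c) (P.co (Y.wd c) y.1) y.2) (P.B (Y.wd c) * kbW (P.co (Y.wd c) y.1) y.2)| := by
    intro y hy
    obtain ⟨-, e2⟩ := k3e1_st_eu h c c (P.co (Y.wd c) y.1) y.2
    have b := h.hin.geo.dw_low c y hy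
    rw [← e2, abs_mul, abs_of_pos hB] at b
    rw [hPu, div_le_iff₀ (by linarith)]
    have : P.B (Y.wd c) * 1 ≤ P.B (Y.wd c) * (|(k3e1Eu Y n₁ p c (k3e1Of Y n₁ nrm p c)).dwR ((k3e1Fr n₁ p (k3e1Of Y n₁ nrm p c)).zl n₁ (k3e1Bk Y n₁ c) (P.co (Y.wd c) y.1) y.2) (P.B (Y.wd c) * kbW (P.co (Y.wd c) y.1) y.2)| * x.K) := by
      rw [mul_one]
      exact b.trans (le_of_eq (by ring))
    exact le_of_mul_le_mul_left this hB
  have hEq : k3e1Eq Y n₁ p c (k3e1Of Y n₁ nrm p c) = Pu.cv p.thr := by rw [hPu]; rfl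
  rw [hEq]
  by_cases hc : p.thr ≤ |Pu.c|
  · -- replaced
    have ecv : Pu.cv p.thr = Pu.ctr := by rw [K3bEq.cv, if_pos hc]
    have hc0 : Pu.c ≠ 0 := by
      intro h0
      rw [h0, abs_zero] at hc
      linarith
    rw [ecv]
    have hAe : 2 ≤ 6 * x.E * x.K * Θ := by
      have : 1 * 68 ≤ (x.E * x.K) * Θ := mul_le_mul hEK (by linarith) (by norm_num) (by linarith)
      nlinarith
    refine ⟨6 * x.E * x.K * Θ, hAe, hA, ?_, fun l hl t ht => ?_, fun y hy => ?_⟩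
    · have : Pu.ctr.c = 0 := rfl
      rw [this, abs_zero]
      norm_num
    · obtain ⟨c1, c2, -, -, -⟩ := k3e1_ctr_pt Pu ((k3e1Fr n₁ p (k3e1Of Y n₁ nrm p c)).zl n₁ (k3e1Bk Y n₁ c) (P.co (Y.wd c) l) t) (P.B (Y.wd c) * kbW (P.co (Y.wd c) l) t) hc0
      rw [c1, c2]
      refine ⟨?_, by rw [abs_one]; linarith⟩
      rw [abs_div, div_le_iff₀ (abs_pos.2 hc0)]
      have b := (hev l hl t ht).2
      have e : x.δ * (6 * x.E * x.K * Θ) * p.thr = 6 * x.E * x.K := by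
        rw [hthr]
        field_simp
      calc _ ≤ 6 * x.E * x.K := b
        _ = x.δ * (6 * x.E * x.K * Θ) * p.thr := e.symm
        _ ≤ x.δ * (6 * x.E * x.K * Θ) * |Pu.c| := mul_le_mul_of_nonneg_left hc (by positivity)
    · obtain ⟨-, c2, -, -, -⟩ := k3e1_ctr_pt Pu ((k3e1Fr n₁ p (k3e1Of Y n₁ nrm p c)).zl n₁ (k3e1Bk Y n₁ c) (P.co (Y.wd c) y.1) y.2) (P.B (Y.wd c) * kbW (P.co (Y.wd c) y.1) y.2) hc0
      rw [c2, abs_one, div_le_one (by linarith)]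
      linarith
  · -- not replaced
    have ecv : Pu.cv p.thr = Pu := by rw [K3bEq.cv, if_neg hc]
    rw [ecv]
    have hc' := (not_le.1 hc).le
    refine ⟨A1, by linarith, ?_, ?_, fun l hl t ht => ?_, fun y hy => ?_⟩
    · refine le_trans ?_ hA
      calc A1 ≤ Θ := hΘA
        _ = 1 * Θ := (one_mul _).symm
        _ ≤ (6 * x.E * x.K) * Θ := mul_le_mul_of_nonneg_right (by linarith) hΘ0.le
    · have e : 16 * p.thr * x.δ * A1 ^ 3 = 16 * A1 ^ 3 / Θ := by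
        rw [hthr]
        field_simp
      calc 16 * |Pu.c| * x.δ * A1 ^ 3 ≤ 16 * p.thr * x.δ * A1 ^ 3 := by
            have : 0 ≤ x.δ * A1 ^ 3 := by positivity
            nlinarith
        _ = 16 * A1 ^ 3 / Θ := e
        _ ≤ 1 := by rw [div_le_one hΘ0]; exact hΘ
    · obtain ⟨b1, b2⟩ := hev l hl t ht
      exact ⟨b1, b2.trans (by rw [hA1]; linarith)⟩
    · refine le_trans ?_ (hlow y hy)
      refine one_div_le_one_div_of_le (by linarith) ?_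
      rw [hA1]
      have : x.K ≤ x.E * x.K := by nlinarith
      linarith

/-! ## 3. measurability, losses      (LEAVES L-252-S3e1-A5 .. A8) -/

/-- **LEAF A5.**  (`k2s_dn_meas`, `k2s_hid_meas`, `k2s_hv_meas`; finite intersection over `a ∈ G`: `MeasurableSet.biInter`/`Finset.measurableSet_biInter`.) -/
theorem k3e1_st_mk_meas (hP : P.WF) (x : K3bNum) (S R : ℝ) (G : Finset ℝ) (nr : ℝ → ℝ) (γ : P.W) : MeasurableSet (k3e1Mk P x S R G nr γ) := by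
  have e : k3e1Mk P x S R G nr γ = (⋂ a ∈ G, {y | P.dn (P.hid a) γ y ≤ ENNReal.ofReal (x.E * nr a)}) ∩ {y | P.dn (P.hv x.δ (x.E ^ (-R))) γ y ≤ ENNReal.ofReal (x.nL * x.E ^ (1 - S * R))} := by
    ext y
    simp only [k3e1Mk, Set.mem_ofPred_eq, Set.mem_inter_iff, Set.mem_iInter]
  rw [e]
  refine (Finset.measurableSet_biInter G fun a _ => ?_).inter ?_
  · exact measurableSet_le (k2s_dn_meas P hP (k2s_hid_meas P hP a) γ) measurable_const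
  · exact measurableSet_le (k2s_dn_meas P hP (k2s_hv_meas P hP _ _) γ) measurable_const

/-- **LEAF A5.**  (`k3e1_st_mk_meas`, `k3e1_X_meas`, `k3e3_dw_quad`.) -/
theorem k3e1_st_X1_meas (h : K3e1St P Y x S R G nr n₁ nrm p) (c c' : Y.C) : MeasurableSet (k3e1X1 Y x S R G nr c c') := by
  have hP := h.hin.pwf
  have hm := k3e1_st_mk_meas hP x S R G nr (Y.wd c)
  have h1 : Measurable fun z : P.Lam × ℝ × ℝ => (z.1, z.2.1) := measurable_fst.prodMk measurable_snd.fst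
  have h2 : Measurable fun z : P.Lam × ℝ × ℝ => (z.1, z.2.2) := measurable_fst.prodMk measurable_snd.snd
  have h3 := (k3e1_X_meas hP (Y.wd c) (k3e3_dw_quad (h.hin.ywf.adm c).1)).2
  have h4 := (k3e1_X_meas hP (Y.wd c') (k3e3_dw_quad (h.hin.ywf.adm c').1)).1
  have e : k3e1X1 Y x S R G nr c c' = ((fun z : P.Lam × ℝ × ℝ => (z.1, z.2.1)) ⁻¹' k3e1Mk P x S R G nr (Y.wd c)) ∩ (((fun z : P.Lam × ℝ × ℝ => (z.1, z.2.2)) ⁻¹' k3e1Mk P x S R G nr (Y.wd c)) ∩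
      ({z | P.B (Y.wd c) ≤ x.K * x.E * |kbX (kbDw (Y.ch c).T) (P.co (Y.wd c) z.1) z.2.2|} ∩ {z | P.B (Y.wd c') ≤ x.K * x.E * |kbX (kbDw (Y.ch c').T) (P.co (Y.wd c') z.1) z.2.1|})) := by
    ext z
    simp only [k3e1X1, Set.mem_ofPred_eq, Set.mem_inter_iff, Set.mem_preimage]
  rw [e]
  refine (h1 hm).inter ((h2 hm).inter (MeasurableSet.inter ?_ ?_))
  · exact measurableSet_le measurable_const (measurable_const.mul (continuous_abs.measurable.comp h3))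
  · exact measurableSet_le measurable_const (measurable_const.mul (continuous_abs.measurable.comp h4))

theorem k3e1_st_X2_meas (h : K3e1St P Y x S R G nr n₁ nrm p) (c c' : Y.C) : MeasurableSet (k3e1X2 Y nrm p x S R G nr c c') := by
  have e : k3e1X2 Y nrm p x S R G nr c c' = k3e1X1 Y x S R G nr c c' ∩ {_z | ¬ k3e1Tr v p.gs (nrm c) (nrm c')} := by
    ext z
    simp only [k3e1X2, Set.mem_ofPred_eq, Set.mem_inter_iff]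
  rw [e]
  exact (k3e1_st_X1_meas h c c').inter (MeasurableSet.const _)

theorem k3e1_st_X3_meas (h : K3e1St P Y x S R G nr n₁ nrm p) (c c' : Y.C) : MeasurableSet (k3e1X3 Y n₁ nrm p x S R G nr c c') := by
  have e : k3e1X3 Y n₁ nrm p x S R G nr c c' = k3e1X2 Y nrm p x S R G nr c c' ∩ {_z | ENNReal.ofReal p.φ ≤ k3e1Law P n₁ (Y.wd c) (k3e1Ent1 Y n₁ (k3e1X2 Y nrm p x S R G nr) c) ∧
    ENNReal.ofReal p.φ ≤ k3e1Law P n₁ (Y.wd c') (k3e1Ent2 Y n₁ (k3e1X2 Y nrm p x S R G nr) (k3e1Of Y n₁ nrm p) c' (k3e1Of Y n₁ nrm p c))} := by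
    ext z
    simp only [k3e1X3, Set.mem_ofPred_eq, Set.mem_inter_iff]
  rw [e]
  exact (k3e1_st_X2_meas h c c').inter (MeasurableSet.const _)

theorem k3e1_st_G0_meas (h : K3e1St P Y x S R G nr n₁ nrm p) (c c' : Y.C) : MeasurableSet (k3e1G0 Y n₁ nrm p x S R G nr c c') := by
  have e : k3e1G0 Y n₁ nrm p x S R G nr c c' = {_z | k3e1Adm Y n₁ c c'} ∩ (k3e1PrC Y c c' ∩ k3e1X3 Y n₁ nrm p x S R G nr c c') := by
    ext z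
    simp only [k3e1G0, Set.mem_ofPred_eq, Set.mem_inter_iff]
  rw [e]
  exact (MeasurableSet.const _).inter ((k3e1_prc_meas Y h.hin.ywf c c').inter (k3e1_st_X3_meas h c c'))

theorem k3e1_st_mass_biUnion (P : KbPb v) {ι : Type} (G : Finset ι) (T : ι → P.W → Set (P.Lam × ℝ)) : P.mass (fun γ => ⋃ a ∈ G, T a γ) ≤ ∑ a ∈ G, P.mass (T a) := by
  classical
  induction G using Finset.induction_on with
  | empty => simp [KbPb.mass]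
  | insert a s ha ih =>
    rw [Finset.sum_insert ha]
    have e : (fun γ => ⋃ b ∈ insert a s, T b γ) = fun γ => T a γ ∪ ⋃ b ∈ s, T b γ := by
      funext γ
      rw [Finset.set_biUnion_insert]
    rw [e]
    exact (k2s_mass_union P _ _).trans (add_le_add le_rfl ih)

/-- **LEAF A5.**  the mass of the complement of the masks (`P.above`, `k2s_mass_union`-type finite union bound, `h.hin.cap`, `h.hin.capang`, `h.hin.grid_card`) -/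
theorem k3e1_st_mk_mass (h : K3e1St P Y x S R G nr n₁ nrm p) : P.mass (fun γ => (k3e1Mk P x S R G nr γ)ᶜ) ≤ ENNReal.ofReal (x.K + 1) * ENNReal.ofReal x.ε := by
  have hsub : ∀ γ, (k3e1Mk P x S R G nr γ)ᶜ ⊆ (⋃ a ∈ G, P.above (P.hid a) (x.E * nr a) γ) ∪ P.above (P.hv x.δ (x.E ^ (-R))) (x.nL * x.E ^ (1 - S * R)) γ := by
    intro γ y hy
    simp only [k3e1Mk, Set.mem_compl_iff, Set.mem_ofPred_eq, not_and_or, not_forall, not_le] at hy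
    rcases hy with ⟨a, ha, hy⟩ | hy
    · exact Or.inl (Set.mem_biUnion ha hy)
    · exact Or.inr hy
  have hK0 : (0:ℝ) ≤ x.K := le_trans zero_le_one h.hK
  calc P.mass (fun γ => (k3e1Mk P x S R G nr γ)ᶜ)
      ≤ P.mass (fun γ => (⋃ a ∈ G, P.above (P.hid a) (x.E * nr a) γ) ∪ P.above (P.hv x.δ (x.E ^ (-R))) (x.nL * x.E ^ (1 - S * R)) γ) := k2s_mass_mono P hsub
    _ ≤ P.mass (fun γ => ⋃ a ∈ G, P.above (P.hid a) (x.E * nr a) γ) + P.mass (P.above (P.hv x.δ (x.E ^ (-R))) (x.nL * x.E ^ (1 - S * R))) := k2s_mass_union P _ _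
    _ ≤ (∑ a ∈ G, P.mass (P.above (P.hid a) (x.E * nr a))) + ENNReal.ofReal x.ε := add_le_add (k3e1_st_mass_biUnion P G _) h.hin.capang
    _ ≤ (∑ _a ∈ G, ENNReal.ofReal x.ε) + ENNReal.ofReal x.ε := add_le_add (Finset.sum_le_sum fun a ha => h.hin.cap a ha) le_rfl
    _ = ((G.card : ℝ≥0∞) + 1) * ENNReal.ofReal x.ε := by rw [Finset.sum_const, nsmul_eq_mul, add_mul, one_mul]
    _ ≤ ENNReal.ofReal (x.K + 1) * ENNReal.ofReal x.ε := by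
      refine mul_le_mul_left ?_ _
      rw [ENNReal.ofReal_add hK0 zero_le_one, ENNReal.ofReal_one]
      refine add_le_add ?_ le_rfl
      rw [← ENNReal.ofReal_natCast]
      exact ENNReal.ofReal_le_ofReal h.hin.grid_card

/-- **LEAF A6** (l.1005-1035).  (`(X1)ᶜ ⊆` four events; `k3e1_pm_mono`, `k3e1_pm_union`, `k3e1_pm_src`, `k3e1_pm_wit`, `k3e1_st_mk_mass`, `k3e1_pm_floor_wit`, `k3e1_pm_floor_src` with `ε = 1/E`: `¬ (B ≤ K E |X|) ↔ |X| K < (1/E) B`.) -/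
theorem k3e1_st_loss1 (h : K3e1St P Y x S R G nr n₁ nrm p) :
    k3e1PM Y n₁ (fun c c' => (k3e1X1 Y x S R G nr c c')ᶜ) ≤ 2 * (ENNReal.ofReal (x.K + 1) * ENNReal.ofReal x.ε) + ENNReal.ofReal (8 / x.E) := by
  have hP := h.hin.pwf
  have hY := h.hin.ywf
  have hE : 1 ≤ x.E := (k3e1_st_num h).1
  have hE0 : 0 < x.E := by linarith
  have hK0 : 0 < x.K := by linarith [h.hK]
  have hW : ∀ γ, MeasurableSet ((k3e1Mk P x S R G nr γ)ᶜ) := fun γ => (k3e1_st_mk_meas hP x S R G nr γ).compl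
  have m := k3e1_st_mk_mass h
  have a1 := (k3e1_pm_src Y hP hY h.hn (fun γ => (k3e1Mk P x S R G nr γ)ᶜ) hW).trans m
  have a2 := (k3e1_pm_wit Y hP hY h.hn (fun γ => (k3e1Mk P x S R G nr γ)ᶜ) hW).trans m
  have a3 := k3e1_pm_floor_wit Y hP hY h.hn hK0 h.hin.geo (ε := 1 / x.E) (by positivity)
  have a4 := k3e1_pm_floor_src Y hP hY h.hn hK0 h.hin.geo (ε := 1 / x.E) (by positivity)
  have key : ∀ (B X : ℝ), ¬ (B ≤ x.K * x.E * X) → X * x.K < 1 / x.E * B := by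
    intro B X hn
    push Not at hn
    rw [one_div, inv_mul_eq_div, lt_div_iff₀ hE0]
    linarith
  have hsub : ∀ c c', (k3e1X1 Y x S R G nr c c')ᶜ ⊆
      (({z : P.Lam × ℝ × ℝ | (z.1, z.2.1) ∈ (k3e1Mk P x S R G nr (Y.wd c))ᶜ} ∪ {z | (z.1, z.2.2) ∈ (k3e1Mk P x S R G nr (Y.wd c))ᶜ}) ∪
        {z | |kbX (kbDw (Y.ch c).T) (P.co (Y.wd c) z.1) z.2.2| * x.K < 1 / x.E * P.B (Y.wd c)}) ∪
        {z | |kbX (kbDw (Y.ch c').T) (P.co (Y.wd c') z.1) z.2.1| * x.K < 1 / x.E * P.B (Y.wd c')} := by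
    intro c c' z hz
    by_cases h1 : (z.1, z.2.1) ∈ k3e1Mk P x S R G nr (Y.wd c)
    swap
    · exact Or.inl (Or.inl (Or.inl h1))
    by_cases h2 : (z.1, z.2.2) ∈ k3e1Mk P x S R G nr (Y.wd c)
    swap
    · exact Or.inl (Or.inl (Or.inr h2))
    by_cases h3 : P.B (Y.wd c) ≤ x.K * x.E * |kbX (kbDw (Y.ch c).T) (P.co (Y.wd c) z.1) z.2.2|
    swap
    · exact Or.inl (Or.inr (key _ _ h3))
    by_cases h4 : P.B (Y.wd c') ≤ x.K * x.E * |kbX (kbDw (Y.ch c').T) (P.co (Y.wd c') z.1) z.2.1|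
    swap
    · exact Or.inr (key _ _ h4)
    exact absurd (show z ∈ k3e1X1 Y x S R G nr c c' from ⟨h1, h2, h3, h4⟩) hz
  refine (k3e1_pm_mono Y n₁ hsub).trans ?_
  refine (k3e1_pm_union Y n₁ _ _).trans ?_
  refine (add_le_add_left (k3e1_pm_union Y n₁ _ _) _).trans ?_
  refine (add_le_add_left (add_le_add_left (k3e1_pm_union Y n₁ _ _) _) _).trans ?_
  refine (add_le_add (add_le_add (add_le_add a1 a2) a3) a4).trans (le_of_eq ?_)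
  have e : ENNReal.ofReal (8 / x.E) = ENNReal.ofReal (4 * (1 / x.E)) + ENNReal.ofReal (4 * (1 / x.E)) := by
    rw [← ENNReal.ofReal_add (by positivity) (by positivity)]
    congr 1
    ring
  rw [e]
  ring

/-- the old chart as a frame -/
def k3e1StFc (Y : KbSys P) (c : Y.C) : K3bFrm v := ⟨(Y.ch c).y0, (Y.ch c).y1, (Y.ch c).D, (Y.ch c).Di⟩

/-- the extrapolated region of the source chart -/
def k3e1StU (Y : KbSys P) (n₁ : ℕ) (r : ℝ) (c : Y.C) : Set (ℝ × KbB v) :=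
  {o | (k3e1StFc Y c).z n₁ (k3e1Bk Y n₁ c) o.1 o.2 ∈ Metric.closedBall (0 : Fin (v.j + 1) → ℝ) r}

theorem k3e1_st_loss2_eqns_cite : True := by
  have := @k3e1StFc.eq_1
  have := @k3e1StU.eq_1
  trivial

theorem k3e1_st_U_meas (Y : KbSys P) (n₁ : ℕ) (r : ℝ) (c : Y.C) : MeasurableSet (k3e1StU Y n₁ r c) :=
  (k3e1_z_meas (k3e1StFc Y c) n₁ (k3e1Bk Y n₁ c)) Metric.isClosed_closedBall.measurableSet

theorem k3e1_st_U_vol (h : K3e1St P Y x S R G nr n₁ nrm p) (r : ℝ) (hr : 0 ≤ r) (c : Y.C) :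
    volume (k3e1StU Y n₁ r c) ≤ ENNReal.ofReal (kbQ n₁ * (x.K * Y.q ^ v.j * x.g) * (2 * r) ^ (v.j + 1)) := by
  have hq : 0 < kbQ n₁ := by unfold kbQ; positivity
  have e := k3e1_z_vol (k3e1StFc Y c) (h.hin.ywf.inv c) n₁ (k3e1Bk Y n₁ c) (Metric.closedBall (0 : Fin (v.j + 1) → ℝ) r) Metric.isClosed_closedBall.measurableSet
  unfold k3e1StU
  rw [e, Real.volume_pi_closedBall _ hr, Fintype.card_fin, ← ENNReal.ofReal_mul (by positivity)]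
  refine ENNReal.ofReal_le_ofReal ?_
  refine mul_le_mul_of_nonneg_right ?_ (by positivity)
  refine mul_le_mul_of_nonneg_left ?_ hq.le
  exact (h.jac c).2

/-- the base point at a time of the block lies in the extrapolated region -/
theorem k3e1_st_U_mem (h : K3e1St P Y x S R G nr n₁ nrm p) (c : Y.C) (l : P.Lam) (hl : l ∈ Y.A c) (t : ℝ) (ht : t ∈ k3e1Ic Y n₁ c) :
    P.bs (Y.wd c) (l, t) ∈ k3e1StU Y n₁ (6 * x.E * x.K) c := by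
  obtain ⟨hE1, -, -, hq, -⟩ := k3e1_st_num h
  have hK := h.hK
  obtain ⟨-, -, a3⟩ := k3e1_ext Y h.hin.ywf h.hn h.hin.geo c l hl t ht
  rw [← h.hE] at a3
  have h61 : 1 ≤ 6 * x.E * x.K := by nlinarith
  unfold k3e1StU
  rw [Set.mem_ofPred_eq, mem_closedBall_zero_iff, pi_norm_le_iff_of_nonneg (by linarith)]
  intro k
  refine Fin.cases ?_ (fun k' => ?_) k
  · simp only [K3bFrm.z, Fin.cons_zero, KbPb.bs]
    unfold k3e1Ic at ht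
    obtain ⟨t1, t2⟩ := ht
    rw [Real.norm_eq_abs, abs_of_nonneg (div_nonneg (by linarith) hq.le)]
    refine le_trans ?_ h61
    rw [div_le_one hq]
    linarith
  · simp only [K3bFrm.z, Fin.cons_succ, KbPb.bs]
    exact (norm_le_pi_norm _ k').trans a3

/-- **LEAF A7** ((a02:normal-exception)).
PROOF.  `k3e1_pm_normal` with `X = X1`, `Tr c c' = k3e1Tr v gs (nrm c) (nrm c')`, `δ = x.δ`, `β = E^(-R)`, `a = 68 E² (K δ)`, `b₀ = 1/(K E)`, `hi = nL E^(1-SR)`, `ρ = 32 K E^(-R)`, `KL = K` (`h.hin.known`), `N = K² E/n_Q` (`k3e1_count_blk`),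
`U c = {o | Fc.z n₁ (Bk c) o.1 o.2 ∈ closedBall 0 (6 E K)}`, `Fc = ⟨y0, y1, D, Di⟩` the old chart as a frame, `vol = q₁ (K q₀^j g) (12 E K)^(j+1)` (`k3e1_z_vol`, `Real.volume_pi_closedBall`, `h.jac`), `V₀ c c'` from `k3e1_frm_strips` (choice; `Tr` gives `gs ≤ 1/2 < 1`, so `gs = g E^R` and `32 K g/gs = 32 K E^(-R)`).
`hx`: masks (`X1`), `k3e1_ext` (witness time in the block of `c`: `k3e1_prc_mem`, `k3e1_I_sub`, admissibility), floor (`X1`), `k3e1_st_fit`.   Then `2^n₁ q₁ = 1`, `N nL q₀^j g = K² E`, `a/(b₀ δ) = 68 E³ K²`, `2ρ/β + 2 = 64 K + 2`. -/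
theorem k3e1_st_loss2 (h : K3e1St P Y x S R G nr n₁ nrm p) :
    k3e1PM Y n₁ (fun c c' => {z | z ∈ k3e1X1 Y x S R G nr c c' ∧ k3e1Tr v p.gs (nrm c) (nrm c')}) ≤
      ENNReal.ofReal (x.K ^ 2 * x.E * (8 * (1 + 68 * x.E ^ 3 * x.K ^ 2) * x.K * (64 * x.K + 2) ^ v.j * x.E ^ (1 - S * R) * (x.K * (12 * x.E * x.K) ^ (v.j + 1)))) := by
  classical
  obtain ⟨hE1, hqE, hq0, hq1, -⟩ := k3e1_st_num h
  obtain ⟨hgs0, hgs1, -, -, -⟩ := k3e1_st_gs h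
  have hK := h.hK
  have hδ := h.hδ
  have hK0 : 0 < x.K := by linarith
  have hE0 : 0 < x.E := by linarith
  have hg0 : 0 < x.g := h.hin.g_pos
  have hnL : 0 < x.nL := h.hin.nL_pos
  have hER : 0 < x.E ^ (-R) := Real.rpow_pos_of_pos hE0 _
  have hnQ : 0 < x.nL * Y.q ^ v.j * x.g := by positivity
  -- the velocities
  have hstr : ∀ c c', k3e1Tr v p.gs (nrm c) (nrm c') → ∃ V₀ : KbB v, ∀ l : KbTj v, k3e1FitB (nrm c) (Y.ch c) l (Y.tc c) Y.q x.K x.g →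
      k3e1FitB (nrm c') (Y.ch c') l (Y.tc c') Y.q x.K x.g → ‖kbV l - V₀‖ ≤ 32 * x.K * x.g / p.gs := fun c c' htr =>
    k3e1_frm_strips v p.gs x.g x.K Y.q (nrm c) (nrm c') (Y.ch c) (Y.ch c') (Y.tc c) (Y.tc c') hq0 hK0.le hg0.le hgs0 (h.nrm1 c) (h.nrm1 c') htr
  have hgsE : ∀ c c', k3e1Tr v p.gs (nrm c) (nrm c') → 32 * x.K * x.g / p.gs = 32 * x.K * x.E ^ (-R) := by
    intro c c' htr
    have hlt : p.gs < 1 := by
      cases v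
      · exact htr.elim
      · have : p.gs ≤ 1 / 2 := htr.1
        linarith
    have e : p.gs = x.g * x.E ^ R := by
      have := h.gs_def
      rcases le_total 1 (x.g * x.E ^ R) with h1 | h1
      · rw [min_eq_left h1] at this; linarith
      · rw [min_eq_right h1] at this; exact this
    rw [e, Real.rpow_neg hE0.le]
    have : 0 < x.E ^ R := Real.rpow_pos_of_pos hE0 _
    field_simp
  have hN : ∀ γ i, ((k3e1Lb Y n₁ γ i).card : ℝ) ≤ x.K ^ 2 * x.E / (x.nL * Y.q ^ v.j * x.g) := by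
    intro γ i
    rw [le_div_iff₀ hnQ, h.hE]
    exact k3e1_count_blk Y h.hin.pwf h.hin.ywf h.hn hK hnL hg0 h.hin.sat (fun c => (h.jac c).1) γ i
  have key := k3e1_pm_normal Y h.hin.pwf h.hin.ywf h.hn (k3e1X1 Y x S R G nr) (k3e1_st_X1_meas h) (fun c c' => k3e1Tr v p.gs (nrm c) (nrm c'))
    x.δ (x.E ^ (-R)) (68 * x.E ^ 2 * (x.K * x.δ)) (1 / (x.K * x.E)) (x.nL * x.E ^ (1 - S * R)) (32 * x.K * x.E ^ (-R)) x.K
    (x.K ^ 2 * x.E / (x.nL * Y.q ^ v.j * x.g)) (kbQ n₁ * (x.K * Y.q ^ v.j * x.g) * (2 * (6 * x.E * x.K)) ^ (v.j + 1))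
    hδ hER (by positivity) (by positivity) (by have := Real.rpow_pos_of_pos hE0 (1 - S * R); positivity) (by positivity) (by positivity) h.hin.known
    (k3e1StU Y n₁ (6 * x.E * x.K)) (k3e1_st_U_meas Y n₁ _) (k3e1_st_U_vol h _ (by positivity))
    (fun c c' => if htr : k3e1Tr v p.gs (nrm c) (nrm c') then (hstr c c' htr).choose else 0) hN
    (by
      intro c c' hadm htr z hz
      obtain ⟨hzP, hz1⟩ := hz
      obtain ⟨m1, m2, m3, m4, -, -⟩ := k3e1_prc_mem Y h.hin.ywf hzP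
      have ht' : z.2.2 ∈ k3e1Ic Y n₁ c' := k3e1_kbI_sub_Ic Y n₁ c' (k3e1_I_sub Y h.hn c' m4)
      have ht : z.2.2 ∈ k3e1Ic Y n₁ c := by
        unfold k3e1Ic at ht' ⊢
        rw [hadm.2]; exact ht'
      obtain ⟨a1, -, -⟩ := k3e1_ext Y h.hin.ywf h.hn h.hin.geo c z.1 m1 z.2.2 ht
      rw [← h.hE] at a1
      refine ⟨hz1.2.1.2, k3e1_st_U_mem h c z.1 m1 z.2.2 ht, a1, ?_, ?_⟩
      · have := hz1.2.2.1
        rw [div_mul_eq_mul_div, one_mul, div_le_iff₀ (by positivity)]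
        linarith
      · rw [dif_pos htr, ← hgsE c c' htr]
        refine (hstr c c' htr).choose_spec _ (k3e1_st_fit h c z.1 m1) ?_
        have := k3e1_st_fit h c' z.1 m3
        rw [← hadm.1] at this
        exact this)
  refine key.trans (le_of_eq ?_)
  congr 1
  have hq2 : (2 : ℝ) ^ n₁ * kbQ n₁ = 1 := by
    unfold kbQ
    rw [← mul_pow]
    norm_num
  have e1 : 68 * x.E ^ 2 * (x.K * x.δ) / (1 / (x.K * x.E) * x.δ) = 68 * x.E ^ 3 * x.K ^ 2 := by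
    field_simp
  have e2 : 2 * (32 * x.K * x.E ^ (-R)) / x.E ^ (-R) + 2 = 64 * x.K + 2 := by
    field_simp
    ring
  rw [e1, e2]
  obtain ⟨A, hA⟩ : ∃ A, A = (64 * x.K + 2) ^ v.j := ⟨_, rfl⟩
  obtain ⟨B, hB⟩ : ∃ B, B = x.E ^ (1 - S * R) := ⟨_, rfl⟩
  obtain ⟨Q, hQ⟩ : ∃ Q, Q = Y.q ^ v.j := ⟨_, rfl⟩
  have hQ0 : 0 < Q := by rw [hQ]; positivity
  have e3 : (2 * (6 * x.E * x.K)) ^ (v.j + 1) = (12 * x.E * x.K) ^ (v.j + 1) := by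
    congr 1; ring
  rw [e3]
  obtain ⟨D, hD⟩ : ∃ D, D = (12 * x.E * x.K) ^ (v.j + 1) := ⟨_, rfl⟩
  rw [← hA, ← hB, ← hQ, ← hD]
  have e4 : x.K ^ 2 * x.E / (x.nL * Q * x.g) * (2 ^ n₁ * (8 * (1 + 68 * x.E ^ 3 * x.K ^ 2) * x.K * A * (x.nL * B) * (kbQ n₁ * (x.K * Q * x.g) * D)))
      = (2 ^ n₁ * kbQ n₁) * (x.K ^ 2 * x.E * (8 * (1 + 68 * x.E ^ 3 * x.K ^ 2) * x.K * A * B * (x.K * D))) := by
    field_simp
  rw [e4, hq2, one_mul]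

/-- **LEAF A8** (l.1152-1166).  (`{X2 \ X3} ⊆ light1 ∪ light2`; `k3e1_light1`, `k3e1_light2` with `X = X2`, `of = k3e1Of`, `cmp = k3e1Cp`, `K' = 14 (2 ρL + 1)³`, `hcmp` from `k3e1_st_list`, `N = K² E / n_Q` from `k3e1_count_blk`.) -/
theorem k3e1_st_loss3 (h : K3e1St P Y x S R G nr n₁ nrm p) (hφ : 0 ≤ p.φ) :
    k3e1PM Y n₁ (fun c c' => {z | z ∈ k3e1X2 Y nrm p x S R G nr c c' ∧ z ∉ k3e1X3 Y n₁ nrm p x S R G nr c c'}) ≤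
      ENNReal.ofReal (x.K ^ 2 * x.E / (x.nL * Y.q ^ v.j * x.g) * (1 + 14 * (2 * (p.ρL : ℝ) + 1) ^ 3) * p.φ) := by
  classical
  have hP := h.hin.pwf
  have hY := h.hin.ywf
  have hE : 1 ≤ x.E := (k3e1_st_num h).1
  have hq : 0 < Y.q := (k3e1_st_num h).2.2.1
  have hnQ : 0 < x.nL * Y.q ^ v.j * x.g := by
    have := h.hin.nL_pos
    have := h.hin.g_pos
    positivity
  obtain ⟨N, hNdef⟩ : ∃ N : ℝ, N = x.K ^ 2 * x.E / (x.nL * Y.q ^ v.j * x.g) := ⟨_, rfl⟩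
  obtain ⟨K', hK'def⟩ : ∃ K' : ℝ, K' = 14 * (2 * (p.ρL : ℝ) + 1) ^ 3 := ⟨_, rfl⟩
  have hN0 : 0 ≤ N := by
    rw [hNdef]
    have : 0 ≤ x.E := by linarith
    positivity
  have hK'0 : 0 ≤ K' := by
    rw [hK'def]
    positivity
  have hN : ∀ γ i, ((k3e1Lb Y n₁ γ i).card : ℝ) ≤ N := by
    intro γ i
    have h1 := k3e1_count_blk Y hP hY h.hn h.hK h.hin.nL_pos h.hin.g_pos h.hin.sat (fun c => (h.jac c).1) γ i
    rw [hNdef, le_div_iff₀ hnQ, h.hE]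
    exact h1
  have hX := k3e1_st_X2_meas h
  have b1 := k3e1_light1 Y hP hY h.hn (k3e1X2 Y nrm p x S R G nr) hX N hN (ENNReal.ofReal p.φ)
  have b2 := k3e1_light2 Y hP hY h.hn (k3e1X2 Y nrm p x S R G nr) hX (k3e1Of Y n₁ nrm p) (k3e1Cp Y n₁ nrm p) K'
    (fun c' => by rw [hK'def]; exact k3e1_st_cp_card Y n₁ nrm p c')
    (fun c c' hadm hne => by
      obtain ⟨z, hz1, hz2⟩ := hne
      exact k3e1_st_list h c c' hadm ⟨z, hz1⟩ hz2.2) N hN (ENNReal.ofReal p.φ)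
  have hsub : ∀ c c', {z | z ∈ k3e1X2 Y nrm p x S R G nr c c' ∧ z ∉ k3e1X3 Y n₁ nrm p x S R G nr c c'} ⊆
      {z | z ∈ k3e1X2 Y nrm p x S R G nr c c' ∧ k3e1Law P n₁ (Y.wd c) (k3e1Ent1 Y n₁ (k3e1X2 Y nrm p x S R G nr) c) < ENNReal.ofReal p.φ} ∪
      {z | z ∈ k3e1X2 Y nrm p x S R G nr c c' ∧
        k3e1Law P n₁ (Y.wd c') (k3e1Ent2 Y n₁ (k3e1X2 Y nrm p x S R G nr) (k3e1Of Y n₁ nrm p) c' (k3e1Of Y n₁ nrm p c)) < ENNReal.ofReal p.φ} := by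
    rintro c c' z ⟨hz2, hz3⟩
    by_cases h1 : k3e1Law P n₁ (Y.wd c) (k3e1Ent1 Y n₁ (k3e1X2 Y nrm p x S R G nr) c) < ENNReal.ofReal p.φ
    · exact Or.inl ⟨hz2, h1⟩
    by_cases h2 : k3e1Law P n₁ (Y.wd c') (k3e1Ent2 Y n₁ (k3e1X2 Y nrm p x S R G nr) (k3e1Of Y n₁ nrm p) c' (k3e1Of Y n₁ nrm p c)) < ENNReal.ofReal p.φ
    · exact Or.inr ⟨hz2, h2⟩
    exact absurd (show z ∈ k3e1X3 Y n₁ nrm p x S R G nr c c' from ⟨hz2, not_lt.1 h1, not_lt.1 h2⟩) hz3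
  refine (k3e1_pm_mono Y n₁ hsub).trans ?_
  refine (k3e1_pm_union Y n₁ _ _).trans ?_
  refine (add_le_add b1 b2).trans (le_of_eq ?_)
  rw [← hNdef, ← hK'def, ← ENNReal.ofReal_mul hN0, ← ENNReal.ofReal_mul (by positivity), ← ENNReal.ofReal_add (by positivity) (by positivity)]
  congr 1
  ring

/-! ## 4. the tested point      (LEAF L-252-S3e1-A9) -/

/-- the three facts at the source point of a pair for the equation of `e` in the frame of `c` -/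
def k3e1Pt (Y : KbSys P) (n₁ : ℕ) (nrm : Y.C → KbB v) (p : K3e1Par) (c e : Y.C) (z : P.Lam × ℝ × ℝ) (lo hi Δ : ℝ) : Prop :=
  lo ≤ (k3e1Eq Y n₁ p e (k3e1Of Y n₁ nrm p c)).dsc.evR (k3e1Zs Y n₁ nrm p c z) ∧ (k3e1Eq Y n₁ p e (k3e1Of Y n₁ nrm p c)).dsc.evR (k3e1Zs Y n₁ nrm p c z) ≤ hi ∧
    |k3e1Om0 Y c z - (k3e1Sh Y n₁ nrm p c e z).f (k3e1Zs Y n₁ nrm p c z)| ≤ Δ

theorem k3e1_stage_eqns_cite : True := by
  have := @k3e1Pt.eq_1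
  trivial

/-- the tested point for one equation `e` of the world of `c` -/
theorem k3e1_st_pt_aux (h : K3e1St P Y x S R G nr n₁ nrm p) (Θ : ℝ) (hthr : p.thr = 1 / (x.δ * Θ)) (hΘ : 16 * (68 * x.E ^ 2 * x.K) ^ 3 ≤ Θ) (c e : Y.C)
    (hw : Y.wd e = Y.wd c) (z : P.Lam × ℝ × ℝ)
    (hV : |kbX (Y.ch e).T (P.co (Y.wd c) z.1) z.2.1| ≤ 68 * x.E ^ 2 * (x.K * x.δ))
    (hhi : |kbX (kbDw (Y.ch e).T) (P.co (Y.wd c) z.1) z.2.1| ≤ 6 * x.E * (x.K * P.B (Y.wd c)))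
    (hlo : P.B (Y.wd c) ≤ x.K * x.E * |kbX (kbDw (Y.ch e).T) (P.co (Y.wd c) z.1) z.2.1|) :
    k3e1Pt Y n₁ nrm p c e z (1 / (2 * (x.K * x.E) ^ 2)) (54 * (x.E * x.K) ^ 2) (6 * x.E * x.K * Θ * x.δ) := by
  obtain ⟨hE1, -, -, -, -⟩ := k3e1_st_num h
  have hK := h.hK
  have hδ := h.hδ
  have hB : 0 < P.B (Y.wd c) := h.hin.pwf.B_pos _
  obtain ⟨e1, e2⟩ := k3e1_st_eu h e c (P.co (Y.wd c) z.1) z.2.1
  rw [hw] at e1 e2
  obtain ⟨E, hEd⟩ : ∃ E, E = x.E := ⟨_, rfl⟩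
  obtain ⟨K, hKd⟩ : ∃ K, K = x.K := ⟨_, rfl⟩
  obtain ⟨δ, hδd⟩ : ∃ δ, δ = x.δ := ⟨_, rfl⟩
  obtain ⟨B, hBd⟩ : ∃ B, B = P.B (Y.wd c) := ⟨_, rfl⟩
  rw [← hEd, ← hKd] at hΘ
  rw [← hδd] at hthr hδ
  rw [← hEd] at hE1
  rw [← hKd] at hK
  rw [← hEd, ← hKd, ← hδd] at hV
  rw [← hEd, ← hKd, ← hBd] at hhi hlo
  rw [← hBd] at hB e1 e2
  rw [← hEd, ← hKd, ← hδd]
  have hZs : k3e1Zs Y n₁ nrm p c z = (k3e1Fr n₁ p (k3e1Of Y n₁ nrm p c)).zl n₁ (k3e1Bk Y n₁ c) (P.co (Y.wd c) z.1) z.2.1 := rfl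
  have hOm : k3e1Om0 Y c z = B * kbW (P.co (Y.wd c) z.1) z.2.1 := by rw [hBd]; rfl
  rw [← hZs, ← hOm] at e1 e2
  obtain ⟨Pu, hPu⟩ : ∃ Pu, Pu = k3e1Eu Y n₁ p e (k3e1Of Y n₁ nrm p c) := ⟨_, rfl⟩
  rw [← hPu] at e1 e2
  obtain ⟨X1, hX1⟩ : ∃ X1, X1 = kbX (kbDw (Y.ch e).T) (P.co (Y.wd c) z.1) z.2.1 := ⟨_, rfl⟩
  rw [← hX1] at e2 hhi hlo
  have hKE : 1 ≤ K * E := by nlinarith
  have hKE0 : 0 < K * E := by linarith
  have hE0 : 0 < E := by linarith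
  have hK0 : 0 < K := by linarith
  have hd : Pu.dwR (k3e1Zs Y n₁ nrm p c z) (k3e1Om0 Y c z) = X1 / B := by
    rw [← e2]; field_simp
  have hΘ1 : 16 * 68 ^ 3 * (E ^ 6 * K ^ 3) ≤ Θ := by
    calc 16 * 68 ^ 3 * (E ^ 6 * K ^ 3) = 16 * (68 * E ^ 2 * K) ^ 3 := by ring
      _ ≤ Θ := hΘ
  have hEK1 : 1 ≤ E ^ 6 * K ^ 3 := by
    have a1 : 1 ≤ E ^ 6 := one_le_pow₀ hE1
    have a2 : 1 ≤ K ^ 3 := one_le_pow₀ hK
    nlinarith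
  have hΘ0 : 0 < Θ := by nlinarith
  have hthr0 : 0 < p.thr := by rw [hthr]; positivity
  have hVV : |Pu.evR (k3e1Zs Y n₁ nrm p c z) (k3e1Om0 Y c z)| ≤ 68 * E ^ 2 * (K * δ) := by rw [e1]; exact hV
  have hlo' : 1 / (K * E) ≤ |Pu.dwR (k3e1Zs Y n₁ nrm p c z) (k3e1Om0 Y c z)| := by
    rw [hd, abs_div, abs_of_pos hB, div_le_div_iff₀ hKE0 hB]
    linarith
  have hhi' : |Pu.dwR (k3e1Zs Y n₁ nrm p c z) (k3e1Om0 Y c z)| ≤ 6 * E * K := by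
    rw [hd, abs_div, abs_of_pos hB, div_le_iff₀ hB]
    linarith
  have hE4 : E ^ 4 * K ^ 3 ≤ E ^ 6 * K ^ 3 := by
    have : E ^ 4 ≤ E ^ 6 := pow_le_pow_right₀ hE1 (by norm_num)
    exact mul_le_mul_of_nonneg_right this (by positivity)
  have hc4 : 4 * p.thr * (68 * E ^ 2 * (K * δ)) ≤ (1 / (K * E)) ^ 2 := by
    rw [hthr, div_pow, one_pow]
    have : 4 * (1 / (δ * Θ)) * (68 * E ^ 2 * (K * δ)) = 272 * E ^ 2 * K / Θ := by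
      field_simp
      ring
    rw [this, div_le_div_iff₀ hΘ0 (by positivity)]
    have : 272 * E ^ 2 * K * (K * E) ^ 2 = 272 * (E ^ 4 * K ^ 3) := by ring
    rw [this]
    nlinarith
  have hmain := k3e1_cv_pt Pu (k3e1Zs Y n₁ nrm p c z) (k3e1Om0 Y c z) p.thr (68 * E ^ 2 * (K * δ)) (1 / (K * E)) (6 * E * K) hthr0 hVV hlo' hhi'
    (by positivity) (by rw [div_le_one hKE0]; exact hKE) (by nlinarith) hc4
  obtain ⟨m1, m2, -, -, -, -, m7⟩ := hmain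
  have hEq : k3e1Eq Y n₁ p e (k3e1Of Y n₁ nrm p c) = Pu.cv p.thr := by rw [hPu]; rfl
  have hSh : k3e1Sh Y n₁ nrm p c e z = K3bSh.mk (Pu.cv p.thr) (k3bSg ((Pu.cv p.thr).dwR (k3e1Zs Y n₁ nrm p c z) (k3e1Om0 Y c z))) := by
    unfold k3e1Sh
    rw [hEq]
  unfold k3e1Pt
  rw [hEq, hSh]
  refine ⟨?_, ?_, m7.trans ?_⟩
  · have : 1 / (2 * (K * E) ^ 2) = (1 / (K * E)) ^ 2 / 2 := by
      field_simp
    rw [this]; exact m1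
  · have : 54 * (E * K) ^ 2 = 3 / 2 * (6 * E * K) ^ 2 := by ring
    rw [this]; exact m2
  · refine max_le ?_ ?_
    · have : 2 * (68 * E ^ 2 * (K * δ)) / (1 / (K * E)) = 136 * (E ^ 3 * K ^ 2) * δ := by
        field_simp
        ring
      rw [this]
      have a1 : E ^ 2 * K ≤ E ^ 6 * K ^ 3 := by
        have b1 : E ^ 2 ≤ E ^ 6 := pow_le_pow_right₀ hE1 (by norm_num)
        have b2 : K ≤ K ^ 3 := by
          calc K = K ^ 1 := (pow_one K).symm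
            _ ≤ K ^ 3 := pow_le_pow_right₀ hK (by norm_num)
        exact mul_le_mul b1 b2 hK0.le (by positivity)
      have a2 : 136 * (E ^ 2 * K) ≤ 6 * Θ := by nlinarith
      have a3 : 136 * (E ^ 3 * K ^ 2) * δ = (136 * (E ^ 2 * K)) * (E * K * δ) := by ring
      have a4 : 6 * E * K * Θ * δ = (6 * Θ) * (E * K * δ) := by ring
      rw [a3, a4]
      exact mul_le_mul_of_nonneg_right a2 (by positivity)
    · rw [hthr]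
      have : 6 * E * K / (1 / (δ * Θ)) = 6 * E * K * Θ * δ := by
        field_simp
      rw [this]

/-- **LEAF A9** ((a02:source-discriminant), (a02:near-source-graph)).
PROOF.  `k3e1_cv_pt` for `Pu = k3e1Eu Y n₁ p e (Of c)`, `e ∈ {c, c'}`, at `(Zs, Om0)`, with `V = 68 E² K δ`, `lo = 1/(K E)`, `hi = 6 E K`, `thr = 1/(δ Θ)`: `4 thr V = 272 E² K/Θ ≤ 1/(K E)²`.
Values by `k3e1_st_eu` (for `e = c'` rewrite `Y.wd c' = Y.wd c`), bounds: `k3e1_ext` at the source time (in the block of both labels), floors: `e = c`: `h.hin.geo.dw_low` (`1/K ≥ 1/(K E)`), `e = c'`: fourth part of `X1`.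
`max (2V/lo) (hi/thr) = max (136 E³ K² δ) (6 E K Θ δ) = 6 E K Θ δ`. -/
theorem k3e1_st_pt (h : K3e1St P Y x S R G nr n₁ nrm p) (Θ : ℝ) (hthr : p.thr = 1 / (x.δ * Θ)) (hΘ : 16 * (68 * x.E ^ 2 * x.K) ^ 3 ≤ Θ) (c c' : Y.C) (hadm : k3e1Adm Y n₁ c c')
    (z : P.Lam × ℝ × ℝ) (hz : z ∈ k3e1PrC Y c c') (hz1 : z ∈ k3e1X1 Y x S R G nr c c') :
    k3e1Pt Y n₁ nrm p c c z (1 / (2 * (x.K * x.E) ^ 2)) (54 * (x.E * x.K) ^ 2) (6 * x.E * x.K * Θ * x.δ) ∧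
      k3e1Pt Y n₁ nrm p c c' z (1 / (2 * (x.K * x.E) ^ 2)) (54 * (x.E * x.K) ^ 2) (6 * x.E * x.K * Θ * x.δ) := by
  obtain ⟨hE1, -, -, -, -⟩ := k3e1_st_num h
  have hK := h.hK
  obtain ⟨m1, m2, m3, -, -, -⟩ := k3e1_prc_mem Y h.hin.ywf hz
  have ht : z.2.1 ∈ k3e1Ic Y n₁ c := k3e1_kbI_sub_Ic Y n₁ c (k3e1_I_sub Y h.hn c m2)
  have ht' : z.2.1 ∈ k3e1Ic Y n₁ c' := by
    unfold k3e1Ic at ht ⊢
    rw [← hadm.2]; exact ht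
  constructor
  · obtain ⟨a1, a2, -⟩ := k3e1_ext Y h.hin.ywf h.hn h.hin.geo c z.1 m1 z.2.1 ht
    rw [← h.hE] at a1 a2
    refine k3e1_st_pt_aux h Θ hthr hΘ c c rfl z a1 a2 ?_
    have := h.hin.geo.dw_low c (z.1, z.2.1) hz.1
    refine this.trans ?_
    have h0 : 0 ≤ |kbX (kbDw (Y.ch c).T) (P.co (Y.wd c) z.1) z.2.1| := abs_nonneg _
    have : x.K ≤ x.K * x.E := by nlinarith
    exact mul_le_mul_of_nonneg_right this h0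
  · obtain ⟨a1, a2, -⟩ := k3e1_ext Y h.hin.ywf h.hn h.hin.geo c' z.1 m3 z.2.1 ht'
    rw [← h.hE, ← hadm.1] at a1 a2
    have a3 := hz1.2.2.2
    rw [← hadm.1] at a3
    exact k3e1_st_pt_aux h Θ hthr hΘ c c' hadm.1.symm z a1 a2 a3

/-! ## 5. densities, bands      (LEAVES L-252-S3e1-A10, A11) -/

/-- **LEAF A10** ((a02:source-base-density), source entry).   (`k3e1_den_z` with `T = (Y.ch c).T`, `a = K δ`, `b₀ = 1/K`, `hi = E nL` (`δ ∈ G`, `nr δ = nL`), `F = Fr (Of c)`; set inclusion by `k3e1_prc_mem`, `k3e1_I_sub`, `h.hin.geo.val`, `.dw_low`; `k3e1_st_frame`.) -/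
theorem k3e1_st_dens1 (h : K3e1St P Y x S R G nr n₁ nrm p) (c : Y.C) (O : Set (Fin (v.j + 1) → ℝ)) (hO : MeasurableSet O) :
    k3e1Law P n₁ (Y.wd c) {z | (∃ c', k3e1Adm Y n₁ c c' ∧ z ∈ k3e1PrC Y c c' ∧ z ∈ k3e1X1 Y x S R G nr c c') ∧ k3e1Zs Y n₁ nrm p c z ∈ O}
      ≤ ENNReal.ofReal (8 * (1 + x.K ^ 2) * (x.E * x.nL) * ((p.Λ * kbQ n₁) ^ v.j * p.gs)) * volume O := by
  have hK := h.hK
  have hK0 : 0 < x.K := by linarith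
  have hδ := h.hδ
  have hE1 : 1 ≤ x.E := (k3e1_st_num h).1
  have hE0 : 0 < x.E := by linarith
  have hnL := h.hin.nL_pos
  have hfr := k3e1_st_frame h c
  have key := k3e1_den_z h.hin.pwf n₁ (k3e1Bk Y n₁ c) (Y.wd c) (k3e1Fr n₁ p (k3e1Of Y n₁ nrm p c)) hfr.1 (Y.ch c).T (h.hin.ywf.adm c).1 x.δ (x.K * x.δ) (1 / x.K) (x.E * x.nL)
    hδ (by positivity) (by positivity) (by positivity) O hO
  refine (measure_mono ?_).trans (key.trans ?_)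
  · rintro z ⟨⟨c', hadm, hz, hz1⟩, hzO⟩
    obtain ⟨m1, m2, m3, m4, m5, m6⟩ := k3e1_prc_mem Y h.hin.ywf hz
    refine ⟨m5, ?_, ?_, h.hin.geo.val c _ m1 _ m2, ?_, hzO⟩
    · rw [hadm.2]
      exact k3e1_I_sub Y h.hn c' m4
    · have := hz1.1.1 x.δ h.hin.grid_δ
      rwa [h.hin.nr_δ] at this
    · have := h.hin.geo.dw_low c _ hz.1
      rw [div_mul_eq_mul_div, one_mul, div_le_iff₀ hK0]
      linarith
  · refine mul_le_mul_left ((ENNReal.ofReal_le_ofReal ?_)) _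
    have e : x.K * x.δ / (1 / x.K * x.δ) = x.K ^ 2 := by
      field_simp
    rw [e]
    exact mul_le_mul_of_nonneg_left hfr.2.2.1 (by positivity)

/-- **LEAF A10** (witness entry `(c', Of c₀)`).   (`k3e1_den_z` with `T = (Y.ch c').T`, `a = 68 E² (K δ)`, `b₀ = 1/(K E)`; `k3e1_ext` at the source time, fourth part of `X1`.) -/
theorem k3e1_st_dens2 (h : K3e1St P Y x S R G nr n₁ nrm p) (c' c₀ : Y.C) (O : Set (Fin (v.j + 1) → ℝ)) (hO : MeasurableSet O) :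
    k3e1Law P n₁ (Y.wd c') {z | (∃ c, k3e1Of Y n₁ nrm p c = k3e1Of Y n₁ nrm p c₀ ∧ k3e1Adm Y n₁ c c' ∧ z ∈ k3e1PrC Y c c' ∧ z ∈ k3e1X1 Y x S R G nr c c') ∧ k3e1Zs Y n₁ nrm p c₀ z ∈ O}
      ≤ ENNReal.ofReal (8 * (1 + 68 * x.E ^ 3 * x.K ^ 2) * (x.E * x.nL) * ((p.Λ * kbQ n₁) ^ v.j * p.gs)) * volume O := by
  have hK := h.hK
  have hK0 : 0 < x.K := by linarith
  have hδ := h.hδ
  have hE1 : 1 ≤ x.E := (k3e1_st_num h).1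
  have hE0 : 0 < x.E := by linarith
  have hnL := h.hin.nL_pos
  have hfr := k3e1_st_frame h c₀
  have key := k3e1_den_z h.hin.pwf n₁ (k3e1Bk Y n₁ c₀) (Y.wd c') (k3e1Fr n₁ p (k3e1Of Y n₁ nrm p c₀)) hfr.1 (Y.ch c').T (h.hin.ywf.adm c').1 x.δ (68 * x.E ^ 2 * (x.K * x.δ)) (1 / (x.K * x.E)) (x.E * x.nL)
    hδ (by positivity) (by positivity) (by positivity) O hO
  refine (measure_mono ?_).trans (key.trans ?_)
  · rintro z ⟨⟨c, hof, hadm, hz, hz1⟩, hzO⟩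
    obtain ⟨m1, m2, m3, m4, m5, m6⟩ := k3e1_prc_mem Y h.hin.ywf hz
    have hw : Y.wd c = Y.wd c₀ := congrArg Prod.fst hof
    have hb : k3e1Bk Y n₁ c = k3e1Bk Y n₁ c₀ := congrArg (fun φ => φ.2.1) hof
    have hI : z.2.1 ∈ k3e1Ic Y n₁ c' := by
      have := k3e1_I_sub Y h.hn c m2
      rw [hadm.2, kbI] at this
      exact ⟨this.1, this.2.le⟩
    have hext := (k3e1_ext Y h.hin.ywf h.hn h.hin.geo c' z.1 m3 z.2.1 hI).1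
    rw [← h.hE] at hext
    refine ⟨?_, ?_, ?_, hext, ?_, ?_⟩
    · rw [← hadm.1]
      exact m5
    · rw [← hb, hadm.2]
      exact k3e1_I_sub Y h.hn c' m4
    · have := hz1.1.1 x.δ h.hin.grid_δ
      rwa [h.hin.nr_δ, hadm.1] at this
    · have := hz1.2.2.2
      rw [div_mul_eq_mul_div, one_mul, div_le_iff₀ (by positivity)]
      linarith
    · have : k3e1Zs Y n₁ nrm p c₀ z = (k3e1Fr n₁ p (k3e1Of Y n₁ nrm p c₀)).zl n₁ (k3e1Bk Y n₁ c₀) (P.co (Y.wd c') z.1) z.2.1 := by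
        rw [k3e1Zs, k3e1Z0, ← hw, hadm.1]
      rw [← this]
      exact hzO
  · refine mul_le_mul_left ((ENNReal.ofReal_le_ofReal ?_)) _
    have e : 68 * x.E ^ 2 * (x.K * x.δ) / (1 / (x.K * x.E) * x.δ) = 68 * x.E ^ 3 * x.K ^ 2 := by
      field_simp
    rw [e]
    exact mul_le_mul_of_nonneg_left hfr.2.2.1 (by positivity)

/-- the cap of the class at a thickness `a ≤ M E` -/
theorem k3e1_st_band_hi (E K nL δ d a M nra : ℝ) (hE : 1 ≤ E) (hK : 1 ≤ K) (hnL : 0 < nL) (hδ : 0 < δ) (hd : 0 ≤ d) (hM : 0 < M) (ha0 : 0 < a)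
    (ha : a ≤ M * E) (hn : nra ≤ K * nL * (a / δ) ^ d) : max (E * nra) 0 ≤ E ^ (1 + d) * K * nL * (M / δ) ^ d := by
  have hE0 : 0 < E := by linarith
  have hK0 : 0 < K := by linarith
  have h1 : (a / δ) ^ d ≤ (M / δ) ^ d * E ^ d := by
    rw [← Real.mul_rpow (by positivity) hE0.le]
    refine Real.rpow_le_rpow (by positivity) ?_ hd
    rw [div_mul_eq_mul_div]
    exact div_le_div_of_nonneg_right ha hδ.le
  have h2 : E ^ (1 + d) = E * E ^ d := by rw [Real.rpow_add hE0, Real.rpow_one]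
  have h3 : 0 < (M / δ) ^ d := Real.rpow_pos_of_pos (by positivity) _
  have h4 : 0 < E ^ d := Real.rpow_pos_of_pos hE0 _
  refine max_le ?_ (by rw [h2]; positivity)
  calc E * nra ≤ E * (K * nL * (a / δ) ^ d) := mul_le_mul_of_nonneg_left hn hE0.le
    _ ≤ E * (K * nL * ((M / δ) ^ d * E ^ d)) := by
        refine mul_le_mul_of_nonneg_left (mul_le_mul_of_nonneg_left h1 (by positivity)) hE0.le
    _ = E ^ (1 + d) * K * nL * (M / δ) ^ d := by rw [h2]; ring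

/-- **LEAF A11** ((a02:matching-group-mass)).   All pairs whose source label has the frame of `c₀`; `f` = reference graph; band of half width `Cb M`, `M ≥ δ`.
PROOF.  `M ≤ 1`: `h.hin.grid M` gives `a ∈ G`, `M ≤ a ≤ M E`; `k3e1_band_z` with `ρ = Cb M`, `hi = max (E nr a) 0 ≤ E K nL (a/δ)^d ≤ E^(1+d) K nL (M/δ)^d` (`h.hin.capcl`, `Real.mul_rpow`, `Real.rpow_le_rpow`), `2 ρ/a + 2 ≤ 2 Cb + 2`.
`M > 1`: `k3e1_den_z` with `T = P.Pst γ`, `δ := 1`, `a := K`, `b₀ := 1/K` (`h.hin.ntv.sig`, `.dw_low`; `1 ∈ G`), `hi = max (E nr 1) 0 ≤ E K nL (1/δ)^d ≤ E^(1+d) K nL (M/δ)^d`; drop the band condition.   `ofReal (E nr a) = ofReal (max (E nr a) 0)`. -/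
theorem k3e1_st_band (h : K3e1St P Y x S R G nr n₁ nrm p) (c₀ : Y.C) (f : (Fin (v.j + 1) → ℝ) → ℝ) (hf : Measurable f) (M Cb : ℝ) (hM : x.δ ≤ M) (hCb : 1 ≤ Cb)
    (O : Set (Fin (v.j + 1) → ℝ)) (hO : MeasurableSet O) :
    k3e1Law P n₁ (Y.wd c₀) {z | (∃ c c', k3e1Of Y n₁ nrm p c = k3e1Of Y n₁ nrm p c₀ ∧ k3e1Adm Y n₁ c c' ∧ z ∈ k3e1PrC Y c c' ∧ z ∈ k3e1X1 Y x S R G nr c c') ∧ k3e1Zs Y n₁ nrm p c₀ z ∈ O ∧
        |k3e1Om0 Y c₀ z - f (k3e1Zs Y n₁ nrm p c₀ z)| ≤ Cb * M}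
      ≤ ENNReal.ofReal ((2 * Cb + 8 * (1 + x.K ^ 2)) * (x.E ^ (1 + x.d) * x.K * x.nL * (M / x.δ) ^ x.d) * ((p.Λ * kbQ n₁) ^ v.j * p.gs)) * volume O := by
  have hP := h.hin.pwf
  have hE := (k3e1_st_num h).1
  have hK := h.hK
  have hK0 : 0 < x.K := by linarith
  have hδ := h.hδ
  have hM0 : 0 < M := lt_of_lt_of_le hδ hM
  obtain ⟨hF, -, hdet, -, -⟩ := k3e1_st_frame h c₀
  obtain ⟨F, hFd⟩ : ∃ F, F = k3e1Fr n₁ p (k3e1Of Y n₁ nrm p c₀) := ⟨_, rfl⟩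
  rw [← hFd] at hF hdet
  obtain ⟨JD, hJD⟩ : ∃ JD : ℝ, JD = (p.Λ * kbQ n₁) ^ v.j * p.gs := ⟨_, rfl⟩
  rw [← hJD] at hdet ⊢
  obtain ⟨Hh, hHh⟩ : ∃ Hh : ℝ, Hh = x.E ^ (1 + x.d) * x.K * x.nL * (M / x.δ) ^ x.d := ⟨_, rfl⟩
  rw [← hHh]
  -- what a point of the set knows
  have hpt : ∀ z : P.Lam × ℝ × ℝ, (∃ c c', k3e1Of Y n₁ nrm p c = k3e1Of Y n₁ nrm p c₀ ∧ k3e1Adm Y n₁ c c' ∧ z ∈ k3e1PrC Y c c' ∧ z ∈ k3e1X1 Y x S R G nr c c') →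
      (z.1, z.2.1) ∈ P.Ev (Y.wd c₀) ∧ z.2.2 ∈ kbI n₁ (k3e1Bk Y n₁ c₀) ∧ ∀ a ∈ G, P.dn (P.hid a) (Y.wd c₀) (z.1, z.2.1) ≤ ENNReal.ofReal (x.E * nr a) := by
    rintro z ⟨c, c', hof, hadm, hpr, hx1⟩
    have hw : Y.wd c = Y.wd c₀ := congrArg (fun φ => φ.1) hof
    have hb : k3e1Bk Y n₁ c = k3e1Bk Y n₁ c₀ := congrArg (fun φ => φ.2.1) hof
    obtain ⟨-, -, -, m4, m5, -⟩ := k3e1_prc_mem Y h.hin.ywf hpr
    refine ⟨hw ▸ m5, ?_, ?_⟩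
    · have := k3e1_I_sub Y h.hn c' m4
      rw [← hadm.2, hb] at this
      exact this
    · have := hx1.1.1
      rw [hw] at this
      exact this
  have hfin : ∀ c1 hi : ℝ, 0 ≤ c1 → c1 ≤ 2 * Cb + 8 * (1 + x.K ^ 2) → 0 ≤ hi → hi ≤ Hh →
      ENNReal.ofReal (c1 * hi * |F.M.det|) * volume O ≤ ENNReal.ofReal ((2 * Cb + 8 * (1 + x.K ^ 2)) * Hh * JD) * volume O := by
    intro c1 hi h1 h2 h3 h4
    refine mul_le_mul' (ENNReal.ofReal_le_ofReal ?_) le_rfl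
    exact mul_le_mul (mul_le_mul h2 h4 h3 (h1.trans h2)) hdet (abs_nonneg _) (mul_nonneg (h1.trans h2) (h3.trans h4))
  by_cases hM1 : M ≤ 1
  · obtain ⟨a, haG, ha1, ha2⟩ := h.hin.grid M hM hM1
    have ha0 : 0 < a := lt_of_lt_of_le hM0 ha1
    have hhi := k3e1_st_band_hi x.E x.K x.nL x.δ x.d a M (nr a) hE hK h.hin.nL_pos hδ h.hd hM0 ha0 ha2 (h.hin.capcl a haG)
    rw [← hHh] at hhi
    have key := k3e1_band_z hP n₁ (k3e1Bk Y n₁ c₀) (Y.wd c₀) F hF a (Cb * M) (max (x.E * nr a) 0) ha0 (by positivity) (le_max_right _ _) f hf O hO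
    refine (measure_mono ?_).trans (key.trans (hfin _ _ (by positivity) ?_ (le_max_right _ _) hhi))
    · rintro z ⟨hz1, hz2, hz3⟩
      obtain ⟨k1, k2, k3⟩ := hpt z hz1
      refine ⟨k1, k2, (k3 a haG).trans (ENNReal.ofReal_le_ofReal (le_max_left _ _)), ?_, ?_⟩
      · rw [hFd]; exact hz2
      · rw [hFd]; exact hz3
    · have : 2 * (Cb * M) / a ≤ 2 * Cb := by
        rw [div_le_iff₀ ha0]
        nlinarith
      nlinarith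
  · push Not at hM1
    have hhi := k3e1_st_band_hi x.E x.K x.nL x.δ x.d 1 M (nr 1) hE hK h.hin.nL_pos hδ h.hd hM0 one_pos (by nlinarith) (h.hin.capcl 1 h.hin.grid_1)
    rw [← hHh] at hhi
    have key := k3e1_den_z hP n₁ (k3e1Bk Y n₁ c₀) (Y.wd c₀) F hF (P.Pst (Y.wd c₀)) (hP.Pst_adm _).1 1 x.K (1 / x.K) (max (x.E * nr 1) 0) one_pos hK0.le
      (by positivity) (le_max_right _ _) O hO
    refine (measure_mono ?_).trans (key.trans (hfin _ _ (by positivity) ?_ (le_max_right _ _) hhi))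
    · rintro z ⟨hz1, hz2, -⟩
      obtain ⟨k1, k2, k3⟩ := hpt z hz1
      have hs := hP.Ev_sub _ k1
      refine ⟨k1, k2, (k3 1 h.hin.grid_1).trans (ENNReal.ofReal_le_ofReal (le_max_left _ _)), h.hin.ntv.sig _ _ hs.1 _ hs.2, ?_, ?_⟩
      · have := h.hin.ntv.dw_low _ _ k1
        rw [one_div, inv_mul_le_iff₀ hK0]
        exact this
      · rw [hFd]; exact hz2
    · have e : x.K / (1 / x.K * 1) = x.K ^ 2 := by
        field_simp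
      rw [e]
      linarith

/-! ## 6. the discriminants of the heavy entries      (LEAF L-252-S3e1-A12) -/

/-- the source base point of a pair lies in the unit cube -/
theorem k3e1_st_bd_cube (h : K3e1St P Y x S R G nr n₁ nrm p) (c : Y.C) (z : P.Lam × ℝ × ℝ) (hl : z.1 ∈ Y.A c) (ht : z.2.1 ∈ Y.I c) (i : Fin (v.j + 1)) :
    |k3e1Zs Y n₁ nrm p c z i| ≤ 1 := by
  have h1 := k3e1_I_sub Y h.hn c ht
  have h2 : z.2.1 ∈ k3e1Ic Y n₁ c := ⟨h1.1, h1.2.le⟩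
  have h3 := k3e1_st_box h c z.1 hl z.2.1 h2
  exact (norm_le_pi_norm _ i).trans h3

/-- from a heavy entry with density `≤ ϱ₁ ≤ ϱ` to the Remez bound -/
theorem k3e1_st_bd_aux {n : ℕ} {φ C ϱ : ℝ} (hφ : 0 < φ)
    (hC : ∀ (D : K3bQd n) (θ M : ℝ) (Ω : Set (Fin n → ℝ)), 0 < θ → (∀ y ∈ Ω, ∀ i, |y i| ≤ 1) → ENNReal.ofReal θ ≤ volume Ω → (∀ y ∈ Ω, |D.evR y| ≤ M) → D.Bd (C * θ⁻¹ ^ (2 * n) * M))
    (D : K3bQd n) (Ω : Set (Fin n → ℝ)) (ϱ₁ : ℝ) {M : ℝ} (hle : 0 < ϱ₁ → ϱ₁ ≤ ϱ) (hcube : ∀ y ∈ Ω, ∀ i, |y i| ≤ 1)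
    (hvol : ENNReal.ofReal φ ≤ ENNReal.ofReal ϱ₁ * volume Ω) (hval : ∀ y ∈ Ω, |D.evR y| ≤ M) : D.Bd (C * (ϱ / φ) ^ (2 * n) * M) := by
  have h1 : 0 < ϱ₁ := by
    by_contra hcon
    rw [ENNReal.ofReal_of_nonpos (not_lt.1 hcon), zero_mul] at hvol
    exact absurd (ENNReal.ofReal_pos.2 hφ) (not_lt.2 hvol)
  have h2 : 0 < ϱ := h1.trans_le (hle h1)
  have h3 : ENNReal.ofReal (φ / ϱ) ≤ volume Ω := by
    rw [ENNReal.ofReal_div_of_pos h2]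
    refine ENNReal.div_le_of_le_mul ?_
    rw [mul_comm]
    exact hvol.trans (mul_le_mul' (ENNReal.ofReal_le_ofReal (hle h1)) le_rfl)
  have h4 := hC D (φ / ϱ) M Ω (div_pos hφ h2) hcube h3 hval
  rwa [inv_div] at h4

/-- **LEAF A12** (l.1203-1215).   `C` = the constant of `k3e1_disc_bd (v.j + 1)`, passed as the hypothesis `hC`.   `ϱ` = the density bound of `k3e1_st_dens2` (the larger one).
PROOF.  Take `z ∈ G0 c c'`: both entries are heavy.   Source: `Ω = k3e1Zs c '' (Ent1 X2 c)`; `Ω ⊆` unit cube (`k3e1_st_box`), `|dsc| ≤ 54 (E K)²` on `Ω` (`k3e1_st_pt`, first part; `dsc ≥ 0` there);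
`ofReal φ ≤ Law (Ent1 X2 c) ≤ Law {.. ∧ Zs ∈ toMeasurable volume Ω} ≤ ofReal ϱ₁ · volume Ω` (`k3e1_st_dens1`, `measure_toMeasurable`, `ϱ₁ ≤ ϱ`), so `ofReal (φ/ϱ) ≤ volume Ω`; `hC` with `θ = φ/ϱ`.
Witness: the same with `Ent2 X2 Of c' (Of c)`, `k3e1_st_dens2` (`c₀ = c`; for `Of c₁ = Of c`: `k3e1Zs c₁ z = k3e1Zs c z` because world, block and frame agree), `k3e1_st_pt` second part (rewrite `Of c₁ = Of c`). -/
theorem k3e1_st_bd (h : K3e1St P Y x S R G nr n₁ nrm p) (Θ C ϱ : ℝ) (hthr : p.thr = 1 / (x.δ * Θ)) (hΘ : 16 * (68 * x.E ^ 2 * x.K) ^ 3 ≤ Θ) (hφ : 0 < p.φ)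
    (hϱ : ϱ = 8 * (1 + 68 * x.E ^ 3 * x.K ^ 2) * (x.E * x.nL) * ((p.Λ * kbQ n₁) ^ v.j * p.gs))
    (hC : ∀ (D : K3bQd (v.j + 1)) (θ M : ℝ) (Ω : Set (Fin (v.j + 1) → ℝ)), 0 < θ → (∀ y ∈ Ω, ∀ i, |y i| ≤ 1) → ENNReal.ofReal θ ≤ volume Ω → (∀ y ∈ Ω, |D.evR y| ≤ M) → D.Bd (C * θ⁻¹ ^ (2 * (v.j + 1)) * M))
    (c c' : Y.C) (hne : (k3e1G0 Y n₁ nrm p x S R G nr c c').Nonempty) :
    (k3e1Eq Y n₁ p c (k3e1Of Y n₁ nrm p c)).dsc.Bd (C * (ϱ / p.φ) ^ (2 * (v.j + 1)) * (54 * (x.E * x.K) ^ 2)) ∧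
      (k3e1Eq Y n₁ p c' (k3e1Of Y n₁ nrm p c)).dsc.Bd (C * (ϱ / p.φ) ^ (2 * (v.j + 1)) * (54 * (x.E * x.K) ^ 2)) := by
  obtain ⟨z₀, -, -, -, hv1, hv2⟩ := hne
  have hE1 : 1 ≤ x.E := (k3e1_st_num h).1
  have hK1 : 1 ≤ x.K := h.hK
  have hlo : 0 < 1 / (2 * (x.K * x.E) ^ 2) := by positivity
  constructor
  · -- the source entry
    have hcube : ∀ y ∈ k3e1Zs Y n₁ nrm p c '' k3e1Ent1 Y n₁ (k3e1X2 Y nrm p x S R G nr) c, ∀ i, |y i| ≤ 1 := by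
      rintro y ⟨z, ⟨c'', -, hz, -⟩, rfl⟩ i
      exact k3e1_st_bd_cube h c z (k3e1_prc_mem Y h.hin.ywf hz).1 (k3e1_prc_mem Y h.hin.ywf hz).2.1 i
    have hval : ∀ y ∈ k3e1Zs Y n₁ nrm p c '' k3e1Ent1 Y n₁ (k3e1X2 Y nrm p x S R G nr) c,
        |(k3e1Eq Y n₁ p c (k3e1Of Y n₁ nrm p c)).dsc.evR y| ≤ 54 * (x.E * x.K) ^ 2 := by
      rintro y ⟨z, ⟨c'', hadm, hz, hz2⟩, rfl⟩
      obtain ⟨a1, a2, -⟩ := (k3e1_st_pt h Θ hthr hΘ c c'' hadm z hz hz2.1).1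
      rw [abs_of_nonneg (hlo.le.trans a1)]
      exact a2
    have hvol : ENNReal.ofReal p.φ ≤ ENNReal.ofReal (8 * (1 + x.K ^ 2) * (x.E * x.nL) * ((p.Λ * kbQ n₁) ^ v.j * p.gs))
        * volume (k3e1Zs Y n₁ nrm p c '' k3e1Ent1 Y n₁ (k3e1X2 Y nrm p x S R G nr) c) := by
      rw [← measure_toMeasurable (k3e1Zs Y n₁ nrm p c '' k3e1Ent1 Y n₁ (k3e1X2 Y nrm p x S R G nr) c)]
      refine hv1.trans ((measure_mono ?_).trans (k3e1_st_dens1 h c _ (measurableSet_toMeasurable _ _)))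
      rintro z ⟨c'', hadm, hz, hz2⟩
      exact ⟨⟨c'', hadm, hz, hz2.1⟩, subset_toMeasurable _ _ ⟨z, ⟨c'', hadm, hz, hz2⟩, rfl⟩⟩
    have hle : 0 < 8 * (1 + x.K ^ 2) * (x.E * x.nL) * ((p.Λ * kbQ n₁) ^ v.j * p.gs) → 8 * (1 + x.K ^ 2) * (x.E * x.nL) * ((p.Λ * kbQ n₁) ^ v.j * p.gs) ≤ ϱ := by
      intro h0
      rw [hϱ]
      have h1 : 0 < (x.E * x.nL) * ((p.Λ * kbQ n₁) ^ v.j * p.gs) := by
        have h2 : 8 * (1 + x.K ^ 2) * (x.E * x.nL) * ((p.Λ * kbQ n₁) ^ v.j * p.gs) = (8 * (1 + x.K ^ 2)) * ((x.E * x.nL) * ((p.Λ * kbQ n₁) ^ v.j * p.gs)) := by ring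
        rw [h2] at h0
        exact (pos_iff_pos_of_mul_pos h0).1 (by positivity)
      have h3 : x.K ^ 2 ≤ 68 * x.E ^ 3 * x.K ^ 2 := by
        have : 1 ≤ x.E ^ 3 := one_le_pow₀ hE1
        nlinarith [sq_nonneg x.K]
      have h4 : 8 * (1 + x.K ^ 2) ≤ 8 * (1 + 68 * x.E ^ 3 * x.K ^ 2) := by linarith
      calc 8 * (1 + x.K ^ 2) * (x.E * x.nL) * ((p.Λ * kbQ n₁) ^ v.j * p.gs) = (8 * (1 + x.K ^ 2)) * ((x.E * x.nL) * ((p.Λ * kbQ n₁) ^ v.j * p.gs)) := by ring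
        _ ≤ (8 * (1 + 68 * x.E ^ 3 * x.K ^ 2)) * ((x.E * x.nL) * ((p.Λ * kbQ n₁) ^ v.j * p.gs)) := mul_le_mul_of_nonneg_right h4 h1.le
        _ = _ := by ring
    exact k3e1_st_bd_aux hφ hC _ _ _ hle hcube hvol hval
  · -- the witness entry
    have hZ : ∀ c₁ : Y.C, k3e1Of Y n₁ nrm p c₁ = k3e1Of Y n₁ nrm p c → ∀ z, k3e1Zs Y n₁ nrm p c₁ z = k3e1Zs Y n₁ nrm p c z := by
      intro c₁ hc₁ z
      have e1 : Y.wd c₁ = Y.wd c := congrArg Prod.fst hc₁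
      have e2 : k3e1Bk Y n₁ c₁ = k3e1Bk Y n₁ c := congrArg (fun φ => φ.2.1) hc₁
      unfold k3e1Zs k3e1Z0
      rw [hc₁, e1, e2]
    have hcube : ∀ y ∈ k3e1Zs Y n₁ nrm p c '' k3e1Ent2 Y n₁ (k3e1X2 Y nrm p x S R G nr) (k3e1Of Y n₁ nrm p) c' (k3e1Of Y n₁ nrm p c), ∀ i, |y i| ≤ 1 := by
      rintro y ⟨z, ⟨c₁, hc₁, -, hz, -⟩, rfl⟩ i
      rw [← hZ c₁ hc₁]
      exact k3e1_st_bd_cube h c₁ z (k3e1_prc_mem Y h.hin.ywf hz).1 (k3e1_prc_mem Y h.hin.ywf hz).2.1 i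
    have hval : ∀ y ∈ k3e1Zs Y n₁ nrm p c '' k3e1Ent2 Y n₁ (k3e1X2 Y nrm p x S R G nr) (k3e1Of Y n₁ nrm p) c' (k3e1Of Y n₁ nrm p c),
        |(k3e1Eq Y n₁ p c' (k3e1Of Y n₁ nrm p c)).dsc.evR y| ≤ 54 * (x.E * x.K) ^ 2 := by
      rintro y ⟨z, ⟨c₁, hc₁, hadm, hz, hz2⟩, rfl⟩
      obtain ⟨a1, a2, -⟩ := (k3e1_st_pt h Θ hthr hΘ c₁ c' hadm z hz hz2.1).2
      rw [hc₁, hZ c₁ hc₁] at a1 a2
      rw [abs_of_nonneg (hlo.le.trans a1)]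
      exact a2
    have hvol : ENNReal.ofReal p.φ ≤ ENNReal.ofReal ϱ
        * volume (k3e1Zs Y n₁ nrm p c '' k3e1Ent2 Y n₁ (k3e1X2 Y nrm p x S R G nr) (k3e1Of Y n₁ nrm p) c' (k3e1Of Y n₁ nrm p c)) := by
      rw [← measure_toMeasurable (k3e1Zs Y n₁ nrm p c '' k3e1Ent2 Y n₁ (k3e1X2 Y nrm p x S R G nr) (k3e1Of Y n₁ nrm p) c' (k3e1Of Y n₁ nrm p c)), hϱ]
      refine hv2.trans ((measure_mono ?_).trans (k3e1_st_dens2 h c' c _ (measurableSet_toMeasurable _ _)))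
      rintro z ⟨c₁, hc₁, hadm, hz, hz2⟩
      exact ⟨⟨c₁, hc₁, hadm, hz, hz2.1⟩, subset_toMeasurable _ _ ⟨z, ⟨c₁, hc₁, hadm, hz, hz2⟩, rfl⟩⟩
    exact k3e1_st_bd_aux hφ hC _ _ _ (fun _ => le_rfl) hcube hvol hval

end

end Claimed.Agent.R252

end PkS3e1StageContract
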