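import Claimed.Agent.R252.S4E.Contract
import Claimed.Agent.R252.S3e1.PkD

/-! PACKED FILE (helper215, closed unit S3e1 of row 252, FROZEN): parts S3e1.MatchContract, S3e1.MatchStageContract.  Each part is wrapped in its own `section`.  -- KEEP -/

section PkS3e1MatchContract

/-!
# ROW 252 (S0492), unit S3e1 (sub-architect helper215, chief helper70): CONTRACT, file 4: LOCAL SHEET MATCH, ABSTRACT FORM
`03-comparison.tex` l.1240-1316 ((a02:local-sheet-match), (a02:matching-group-mass)): outside a small pair mass the source sheet and the witness sheet differ by `≤ M₀` on the comparison ball.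

PAPER-FREE.  Imports `R252/S4E/Contract.lean` ONLY for the class `k4eSh` of comparison graphs, `k4eClose`, the code bins `k4eBin`, `k4eNbr` (+ their three lemmas, leaf L-252-S4E-D1) and the THREE HUBS of Sec. 3
`K4eMatch` (= Cor 3.4), `K4eRemez`, `K4eCode` (= L3.1), which enter as HYPOTHESES.  Prefix `k3e1_`.  Every `sorry` is a leaf `L-252-S3e1-M*`: prove IN PLACE, statement verbatim, helpers directly above.

SETTING.  `X` = pairs `(ℓ,t₀,t)` with the (restricted, unnormalised, finite) pair law `Pi`; `a₁ x`, `a₂ x` = (old label, branch) at the source / witness time ("indices" of the two colours); `ub x` = (frame `D`, ball `U`);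
`bp x` = the source base point `z₀` in the coordinates of `D`; `f₁ e u`, `f₂ e u` = the sheets on the ball `closedBall (u₀ u) r` (this is `2U` of the paper; the discriminants are stable on the polydisc `4r`, this is `8U`).
DEVIATION FROM THE PAPER (simpler): the polynomial RANGE of the discrepancy `M` (l.1262-1275: implicit differentiation, finite jets) is NOT needed: discrepancies above `2^kmax M₀` are killed by Remez for sheets (`K4eRemez`) and a crude count (`k3e1_huge`).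
-/

set_option autoImplicit false

namespace Claimed.Agent.R252

open MeasureTheory
open scoped ENNReal BigOperators Classical

noncomputable section

/-- disjoint pieces of a set: the images of the restrictions add up to at most the image of the restriction -/
theorem k3e1_restr_sum_le {X Y ι : Type} [MeasurableSpace X] [MeasurableSpace Y] [Fintype ι] (Pi : Measure X) (bp : X → Y)
    (hbp : Measurable bp) (A : Set X) (B : ι → Set X) (hB : ∀ i, MeasurableSet (B i)) (hBA : ∀ i, B i ⊆ A)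
    (hd : ∀ i j, i ≠ j → Disjoint (B i) (B j)) :
    ∑ i, (Pi.restrict (B i)).map bp ≤ (Pi.restrict A).map bp := by
  refine Measure.le_iff.2 fun s hs => ?_
  rw [Measure.finsetSum_apply, Measure.map_apply hbp hs]
  have e : ∀ i, (Pi.restrict (B i)).map bp s = Pi (bp ⁻¹' s ∩ B i) := fun i => by
    rw [Measure.map_apply hbp hs, Measure.restrict_apply (hbp hs)]
  simp only [e]
  rw [← measure_biUnion_finset (fun i _ j _ hij => (hd i j hij).mono Set.inter_subset_right Set.inter_subset_right)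
    fun i _ => (hbp hs).inter (hB i), Measure.restrict_apply (hbp hs)]
  refine measure_mono fun x hx => ?_
  simp only [Set.mem_iUnion, exists_prop] at hx
  obtain ⟨i, -, hx1, hx2⟩ := hx
  exact ⟨hx1, hBA i hx2⟩

/-- the heavy indices of one colour are few -/
theorem k3e1_heavy_card {X E : Type} [MeasurableSpace X] [Fintype E] (Pi : Measure X) (a : X → E)
    (ha : ∀ e, MeasurableSet (a ⁻¹' {e})) (φ : ℝ≥0∞) :
    ((Finset.univ.filter fun e => φ ≤ Pi (a ⁻¹' {e})).card : ℝ≥0∞) * φ ≤ Pi Set.univ := by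
  calc ((Finset.univ.filter fun e => φ ≤ Pi (a ⁻¹' {e})).card : ℝ≥0∞) * φ
      = ∑ _e ∈ Finset.univ.filter (fun e => φ ≤ Pi (a ⁻¹' {e})), φ := by rw [Finset.sum_const, nsmul_eq_mul]
    _ ≤ ∑ e ∈ Finset.univ.filter (fun e => φ ≤ Pi (a ⁻¹' {e})), Pi (a ⁻¹' {e}) :=
        Finset.sum_le_sum fun e he => (Finset.mem_filter.1 he).2
    _ = Pi (⋃ e ∈ Finset.univ.filter (fun e => φ ≤ Pi (a ⁻¹' {e})), a ⁻¹' {e}) := by
        refine (measure_biUnion_finset (fun e _ e' _ hee => ?_) fun e _ => ha e).symm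
        exact Set.disjoint_left.2 fun x hx hx' => hee (hx.symm.trans hx')
    _ ≤ Pi Set.univ := measure_mono (Set.subset_univ _)

/-- **LEAF L-252-S3e1-M1** (l.1290-1316, ~250 l.; twin of `k4e_bad_small`).  **ONE GROUP.**  `φ` = floor of the heavy indices, `cap` = bound of all index-base densities.  After the deletion of the light indices of both colours less than half of the group survives.
PROOF.  `m := Pi univ`, `H_κ := {e | φ ≤ Pi {a_κ = e}}`, `card H_κ · φ ≤ m` (disjoint fibres).  Let `G' := {a₁ ∈ H₁, a₂ ∈ H₂}`, `m' := Pi G'` and suppose `m < 2 m'` (so `0 < m' < ∞`).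
`E := H₁ ⊕ H₂` (subtypes), `f := Sum.elim f₁ f₂`, `card E · φ ≤ 2 m ≤ φ R^{d+ε}`, so `card E ≤ R^{d+ε}`; `E` is nonempty.
`pr (inl e₁) (inr e₂) := m'⁻¹ • (Pi.restrict (G' ∩ {a₁ = e₁} ∩ {a₂ = e₂})).map bp`, all other `pr := 0`.
Row sums: `∑_{e'} pr (inl e₁) e' ≤ m'⁻¹ • (Pi.restrict {a₁ = e₁}).map bp ≤ (cap / m') • vol|ball`, and `cap/m' ≤ R^ε/(card E (2r)^n)` because `card E · cap (2r)^n ≤ (2m/φ) cap (2r)^n < (4 m'/φ) cap (2r)^n ≤ R^ε m'` (`hcap`).  Column sums alike (`hm₂`).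
Events: `hval`, `hdis` (if the pair `(e₁,e₂)` is close, `{a₁ = e₁, a₂ = e₂}` is `Pi`-null by `hdis`, so `pr = 0`); `ae_map_iff` with the measurable set `{u | |f₁ e₁ u - f₂ e₂ u| ≤ ..}` (`hfm`).
Total mass `= m'⁻¹ m' = 1`, but the hub gives `< R^{-ε} ≤ 1`. -/
theorem k3e1_group {n : ℕ} {d ε R : ℝ} (hub : K4eMatch n d ε R) {X E₁ E₂ : Type} [MeasurableSpace X] [Fintype E₁] [Fintype E₂]
    (Pi : Measure X) [IsFiniteMeasure Pi] (a₁ : X → E₁) (a₂ : X → E₂) (ha₁ : ∀ e, MeasurableSet (a₁ ⁻¹' {e})) (ha₂ : ∀ e, MeasurableSet (a₂ ⁻¹' {e}))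
    (bp : X → Fin n → ℝ) (hbp : Measurable bp) (u₀ : Fin n → ℝ) (r M Δ : ℝ)
    (f₁ : E₁ → (Fin n → ℝ) → ℝ) (f₂ : E₂ → (Fin n → ℝ) → ℝ) (f₀ : (Fin n → ℝ) → ℝ) (hfm₁ : ∀ e, Measurable (f₁ e)) (hfm₂ : ∀ e, Measurable (f₂ e))
    (hr : 0 < r) (hΔ : 0 < Δ) (hM : M = R * Δ) (hR : 1 < R) (hε : 0 < ε)
    (hf₀ : f₀ ∈ k4eSh n u₀ r) (hf₁ : ∀ e, f₁ e ∈ k4eSh n u₀ r) (hf₂ : ∀ e, f₂ e ∈ k4eSh n u₀ r)
    (hn₁ : ∀ e, Pi (a₁ ⁻¹' {e}) ≠ 0 → k4eClose (Metric.closedBall u₀ r) (f₁ e) f₀ (M * R ^ ε))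
    (hn₂ : ∀ e, Pi (a₂ ⁻¹' {e}) ≠ 0 → k4eClose (Metric.closedBall u₀ r) (f₂ e) f₀ (M * R ^ ε))
    (cap φ : ℝ≥0∞) (hφ0 : φ ≠ 0) (hφ1 : φ ≠ ∞)
    (hm₁ : ∀ e, (Pi.restrict (a₁ ⁻¹' {e})).map bp ≤ cap • volume.restrict (Metric.closedBall u₀ r))
    (hm₂ : ∀ e, (Pi.restrict (a₂ ⁻¹' {e})).map bp ≤ cap • volume.restrict (Metric.closedBall u₀ r))
    (hcap : 4 * cap * ENNReal.ofReal ((2 * r) ^ n) ≤ ENNReal.ofReal (R ^ ε) * φ)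
    (hmass : 2 * Pi Set.univ ≤ φ * ENNReal.ofReal (R ^ (d + ε)))
    (hval : ∀ᵐ x ∂Pi, |f₁ (a₁ x) (bp x) - f₂ (a₂ x) (bp x)| ≤ Δ * R ^ ε)
    (hdis : ∀ᵐ x ∂Pi, ¬ k4eClose (Metric.closedBall u₀ r) (f₁ (a₁ x)) (f₂ (a₂ x)) (M * R ^ (-ε))) :
    2 * Pi {x | φ ≤ Pi (a₁ ⁻¹' {a₁ x}) ∧ φ ≤ Pi (a₂ ⁻¹' {a₂ x})} ≤ Pi Set.univ := by
  by_contra hcon
  rw [not_le] at hcon
  obtain ⟨m', hm'⟩ : ∃ m' : ℝ≥0∞, m' = Pi {x | φ ≤ Pi (a₁ ⁻¹' {a₁ x}) ∧ φ ≤ Pi (a₂ ⁻¹' {a₂ x})} := ⟨_, rfl⟩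
  rw [← hm'] at hcon
  have hm0 : m' ≠ 0 := by
    rintro rfl
    simp at hcon
  have hmtop : m' ≠ ∞ := hm' ▸ measure_ne_top Pi _
  have hR0 : 0 < R := by linarith
  have h2r : (0 : ℝ) < (2 * r) ^ n := by positivity
  obtain ⟨H₁, hH₁⟩ : ∃ H : Finset E₁, H = Finset.univ.filter fun e => φ ≤ Pi (a₁ ⁻¹' {e}) := ⟨_, rfl⟩
  obtain ⟨H₂, hH₂⟩ : ∃ H : Finset E₂, H = Finset.univ.filter fun e => φ ≤ Pi (a₂ ⁻¹' {e}) := ⟨_, rfl⟩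
  have hmem₁ : ∀ e, e ∈ H₁ ↔ φ ≤ Pi (a₁ ⁻¹' {e}) := fun e => by rw [hH₁]; simp
  have hmem₂ : ∀ e, e ∈ H₂ ↔ φ ≤ Pi (a₂ ⁻¹' {e}) := fun e => by rw [hH₂]; simp
  have hc₁ : (H₁.card : ℝ≥0∞) * φ ≤ Pi Set.univ := hH₁ ▸ k3e1_heavy_card Pi a₁ ha₁ φ
  have hc₂ : (H₂.card : ℝ≥0∞) * φ ≤ Pi Set.univ := hH₂ ▸ k3e1_heavy_card Pi a₂ ha₂ φ
  have hcardE : Fintype.card (H₁ ⊕ H₂) = H₁.card + H₂.card := by
    rw [Fintype.card_sum, Fintype.card_coe, Fintype.card_coe]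
  have hcE : (Fintype.card (H₁ ⊕ H₂) : ℝ≥0∞) * φ ≤ 2 * Pi Set.univ := by
    rw [hcardE, Nat.cast_add, add_mul, two_mul]
    exact add_le_add hc₁ hc₂
  -- the group is not empty
  have hne : Nonempty (H₁ ⊕ H₂) := by
    have : {x | φ ≤ Pi (a₁ ⁻¹' {a₁ x}) ∧ φ ≤ Pi (a₂ ⁻¹' {a₂ x})}.Nonempty := by
      by_contra h
      rw [Set.not_nonempty_iff_eq_empty] at h
      rw [h, measure_empty] at hm'
      exact hm0 hm'
    obtain ⟨x, hx⟩ := this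
    exact ⟨Sum.inl ⟨a₁ x, (hmem₁ _).2 hx.1⟩⟩
  have hcard0 : 0 < Fintype.card (H₁ ⊕ H₂) := Fintype.card_pos
  have hcardR : (Fintype.card (H₁ ⊕ H₂) : ℝ) ≤ R ^ (d + ε) := by
    have h1 : (Fintype.card (H₁ ⊕ H₂) : ℝ≥0∞) * φ ≤ ENNReal.ofReal (R ^ (d + ε)) * φ := by
      rw [mul_comm (ENNReal.ofReal _)]
      exact hcE.trans hmass
    have h2 := (ENNReal.mul_le_mul_iff_left hφ0 hφ1).1 h1
    rw [← ENNReal.ofReal_natCast] at h2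
    exact (ENNReal.ofReal_le_ofReal_iff (by positivity)).1 h2
  -- the constant
  have hconst : m'⁻¹ * cap ≤ ENNReal.ofReal (R ^ ε / (Fintype.card (H₁ ⊕ H₂) * (2 * r) ^ n)) := by
    have hK0 : (Fintype.card (H₁ ⊕ H₂) : ℝ≥0∞) * ENNReal.ofReal ((2 * r) ^ n) ≠ 0 :=
      mul_ne_zero (by exact_mod_cast hcard0.ne') (ENNReal.ofReal_pos.2 h2r).ne'
    have hKt : (Fintype.card (H₁ ⊕ H₂) : ℝ≥0∞) * ENNReal.ofReal ((2 * r) ^ n) ≠ ∞ :=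
      ENNReal.mul_ne_top (ENNReal.natCast_ne_top _) ENNReal.ofReal_ne_top
    have h1 : ((Fintype.card (H₁ ⊕ H₂) : ℝ≥0∞) * ENNReal.ofReal ((2 * r) ^ n) * cap) * φ ≤ (m' * ENNReal.ofReal (R ^ ε)) * φ := by
      calc ((Fintype.card (H₁ ⊕ H₂) : ℝ≥0∞) * ENNReal.ofReal ((2 * r) ^ n) * cap) * φ
          = ((Fintype.card (H₁ ⊕ H₂) : ℝ≥0∞) * φ) * (cap * ENNReal.ofReal ((2 * r) ^ n)) := by ring
        _ ≤ (2 * Pi Set.univ) * (cap * ENNReal.ofReal ((2 * r) ^ n)) := mul_le_mul' hcE le_rfl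
        _ ≤ (2 * (2 * m')) * (cap * ENNReal.ofReal ((2 * r) ^ n)) := mul_le_mul' (mul_le_mul' le_rfl hcon.le) le_rfl
        _ = m' * (4 * cap * ENNReal.ofReal ((2 * r) ^ n)) := by ring
        _ ≤ m' * (ENNReal.ofReal (R ^ ε) * φ) := mul_le_mul' le_rfl hcap
        _ = _ := by ring
    have h2 := (ENNReal.mul_le_mul_iff_left hφ0 hφ1).1 h1
    have e3 : ENNReal.ofReal (R ^ ε / (Fintype.card (H₁ ⊕ H₂) * (2 * r) ^ n))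
        = ((Fintype.card (H₁ ⊕ H₂) : ℝ≥0∞) * ENNReal.ofReal ((2 * r) ^ n))⁻¹ * ENNReal.ofReal (R ^ ε) := by
      rw [ENNReal.ofReal_div_of_pos (by positivity), ENNReal.ofReal_mul (by positivity), ENNReal.ofReal_natCast,
        div_eq_mul_inv, mul_comm]
    rw [e3]
    calc m'⁻¹ * cap = m'⁻¹ * (((Fintype.card (H₁ ⊕ H₂) : ℝ≥0∞) * ENNReal.ofReal ((2 * r) ^ n))⁻¹ *
          ((Fintype.card (H₁ ⊕ H₂) : ℝ≥0∞) * ENNReal.ofReal ((2 * r) ^ n) * cap)) := by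
          rw [← mul_assoc _ _ cap, ENNReal.inv_mul_cancel hK0 hKt, one_mul]
      _ ≤ m'⁻¹ * (((Fintype.card (H₁ ⊕ H₂) : ℝ≥0∞) * ENNReal.ofReal ((2 * r) ^ n))⁻¹ * (m' * ENNReal.ofReal (R ^ ε))) :=
          mul_le_mul' le_rfl (mul_le_mul' le_rfl h2)
      _ = (m'⁻¹ * m') * (((Fintype.card (H₁ ⊕ H₂) : ℝ≥0∞) * ENNReal.ofReal ((2 * r) ^ n))⁻¹ * ENNReal.ofReal (R ^ ε)) := by
          ring
      _ = _ := by rw [ENNReal.inv_mul_cancel hm0 hmtop, one_mul]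
  have hmargin : ∀ μ : Measure (Fin n → ℝ), μ ≤ cap • volume.restrict (Metric.closedBall u₀ r) → m'⁻¹ • μ ≤
      ENNReal.ofReal (R ^ ε / (Fintype.card (H₁ ⊕ H₂) * (2 * r) ^ n)) • volume.restrict (Metric.closedBall u₀ r) := by
    intro μ hμ
    refine Measure.le_iff'.2 fun s => ?_
    have h1 := hμ s
    simp only [Measure.smul_apply, smul_eq_mul] at h1 ⊢
    calc m'⁻¹ * μ s ≤ m'⁻¹ * (cap * volume.restrict (Metric.closedBall u₀ r) s) := mul_le_mul' le_rfl h1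
      _ = m'⁻¹ * cap * volume.restrict (Metric.closedBall u₀ r) s := (mul_assoc _ _ _).symm
      _ ≤ _ := mul_le_mul' hconst le_rfl
  -- the law
  let μ₁₂ : H₁ → H₂ → Measure (Fin n → ℝ) := fun e₁ e₂ => m'⁻¹ • (Pi.restrict (a₁ ⁻¹' {e₁.1} ∩ a₂ ⁻¹' {e₂.1})).map bp
  let pr : H₁ ⊕ H₂ → H₁ ⊕ H₂ → Measure (Fin n → ℝ) := fun e e' =>
    Sum.elim (fun e₁ => Sum.elim (fun _ => 0) (fun e₂ => μ₁₂ e₁ e₂) e') (fun _ => 0) e
  let f : H₁ ⊕ H₂ → (Fin n → ℝ) → ℝ := Sum.elim (fun e => f₁ e.1) (fun e => f₂ e.1)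
  have hf : ∀ e, f e ∈ k4eSh n u₀ r := by
    rintro (e | e)
    · exact hf₁ e.1
    · exact hf₂ e.1
  have hpos : ∀ {x : ℝ≥0∞}, φ ≤ x → x ≠ 0 := fun h h0 => hφ0 (le_antisymm (h0 ▸ h) zero_le)
  have hcl : ∀ e, k4eClose (Metric.closedBall u₀ r) (f e) f₀ (M * R ^ ε) := by
    rintro (e | e)
    · exact hn₁ e.1 (hpos ((hmem₁ _).1 e.2))
    · exact hn₂ e.1 (hpos ((hmem₂ _).1 e.2))
  have hrow : ∀ e₁, ∑ e₂, pr e₁ e₂ ≤
      ENNReal.ofReal (R ^ ε / (Fintype.card (H₁ ⊕ H₂) * (2 * r) ^ n)) • volume.restrict (Metric.closedBall u₀ r) := by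
    rintro (e₁ | e₁)
    · rw [Fintype.sum_sum_type]
      simp only [pr, Sum.elim_inl, Sum.elim_inr, Finset.sum_const_zero, zero_add, μ₁₂]
      rw [← Finset.smul_sum]
      refine hmargin _ (le_trans ?_ (hm₁ e₁.1))
      exact k3e1_restr_sum_le Pi bp hbp _ _ (fun e₂ => (ha₁ _).inter (ha₂ _)) (fun e₂ => Set.inter_subset_left)
        fun i j hij => Set.disjoint_left.2 fun x hx hx' => hij (Subtype.ext (hx.2.symm.trans hx'.2))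
    · simp only [pr, Sum.elim_inr, Finset.sum_const_zero]
      exact Measure.zero_le _
  have hcol : ∀ e₂, ∑ e₁, pr e₁ e₂ ≤
      ENNReal.ofReal (R ^ ε / (Fintype.card (H₁ ⊕ H₂) * (2 * r) ^ n)) • volume.restrict (Metric.closedBall u₀ r) := by
    rintro (e₂ | e₂)
    · rw [Fintype.sum_sum_type]
      simp only [pr, Sum.elim_inl, Sum.elim_inr, Finset.sum_const_zero, zero_add]
      exact Measure.zero_le _
    · rw [Fintype.sum_sum_type]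
      simp only [pr, Sum.elim_inl, Sum.elim_inr, Finset.sum_const_zero, add_zero, μ₁₂]
      rw [← Finset.smul_sum]
      refine hmargin _ (le_trans ?_ (hm₂ e₂.1))
      exact k3e1_restr_sum_le Pi bp hbp _ _ (fun e₁ => (ha₁ _).inter (ha₂ _)) (fun e₁ => Set.inter_subset_right)
        fun i j hij => Set.disjoint_left.2 fun x hx hx' => hij (Subtype.ext (hx.1.symm.trans hx'.1))
  have hev : ∀ e₁ e₂, ∀ᵐ u ∂(pr e₁ e₂), |f e₁ u - f e₂ u| ≤ Δ * R ^ ε ∧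
      ¬ k4eClose (Metric.closedBall u₀ r) (f e₁) (f e₂) (M * R ^ (-ε)) := by
    rintro (e₁ | e₁) (e₂ | e₂)
    · simp [pr]
    · simp only [pr, Sum.elim_inl, Sum.elim_inr, μ₁₂, f]
      refine Measure.ae_smul_measure ?_ _
      have hms : MeasurableSet {u | |f₁ e₁.1 u - f₂ e₂.1 u| ≤ Δ * R ^ ε ∧
          ¬ k4eClose (Metric.closedBall u₀ r) (f₁ e₁.1) (f₂ e₂.1) (M * R ^ (-ε))} :=
        (measurableSet_le ((hfm₁ _).sub (hfm₂ _)).abs measurable_const).inter (MeasurableSet.const _)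
      rw [ae_map_iff hbp.aemeasurable hms]
      filter_upwards [ae_restrict_of_ae hval, ae_restrict_of_ae hdis, ae_restrict_mem ((ha₁ e₁.1).inter (ha₂ e₂.1))]
        with x h1 h2 h3
      have e1 : a₁ x = e₁.1 := h3.1
      have e2 : a₂ x = e₂.1 := h3.2
      rw [e1, e2] at h1 h2
      exact ⟨h1, h2⟩
    · simp [pr]
    · simp [pr]
  have hfin := hub u₀ r M Δ (H₁ ⊕ H₂) f f₀ pr hr hΔ hM hf₀ hf hcardR hcl hrow hcol hev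
  have htot : 1 ≤ ∑ e₁, ∑ e₂, pr e₁ e₂ Set.univ := by
    rw [Fintype.sum_sum_type]
    simp only [Fintype.sum_sum_type, pr, Sum.elim_inl, Sum.elim_inr, Measure.coe_zero, _root_.Pi.zero_apply, Finset.sum_const_zero,
      zero_add, add_zero, μ₁₂]
    have e : ∀ (e₁ : H₁) (e₂ : H₂), (m'⁻¹ • (Pi.restrict (a₁ ⁻¹' {e₁.1} ∩ a₂ ⁻¹' {e₂.1})).map bp) Set.univ
        = m'⁻¹ * Pi (a₁ ⁻¹' {e₁.1} ∩ a₂ ⁻¹' {e₂.1}) := by
      intro e₁ e₂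
      rw [Measure.smul_apply, Measure.map_apply hbp MeasurableSet.univ, Set.preimage_univ,
        Measure.restrict_apply MeasurableSet.univ, Set.univ_inter, smul_eq_mul]
    simp only [e, ← Finset.mul_sum]
    have hsub : {x | φ ≤ Pi (a₁ ⁻¹' {a₁ x}) ∧ φ ≤ Pi (a₂ ⁻¹' {a₂ x})}
        ⊆ ⋃ e₁ ∈ (Finset.univ : Finset H₁), ⋃ e₂ ∈ (Finset.univ : Finset H₂), (a₁ ⁻¹' {e₁.1} ∩ a₂ ⁻¹' {e₂.1}) := by
      intro x hx
      simp only [Set.mem_iUnion, exists_prop]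
      exact ⟨⟨a₁ x, (hmem₁ _).2 hx.1⟩, Finset.mem_univ _, ⟨a₂ x, (hmem₂ _).2 hx.2⟩, Finset.mem_univ _, rfl, rfl⟩
    have h1 : m' ≤ ∑ e₁ : H₁, ∑ e₂ : H₂, Pi (a₁ ⁻¹' {e₁.1} ∩ a₂ ⁻¹' {e₂.1}) := by
      rw [hm']
      refine (measure_mono hsub).trans ((measure_biUnion_finset_le _ _).trans ?_)
      exact Finset.sum_le_sum fun e₁ _ => measure_biUnion_finset_le _ _
    calc (1 : ℝ≥0∞) = m'⁻¹ * m' := (ENNReal.inv_mul_cancel hm0 hmtop).symm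
      _ ≤ _ := mul_le_mul' le_rfl h1
  have h1 : ENNReal.ofReal (R ^ (-ε)) ≤ 1 :=
    ENNReal.ofReal_le_one.2 (Real.rpow_le_one_of_one_le_of_nonpos hR.le (by linarith))
  exact absurd (htot.trans_lt hfin) (not_lt.2 h1)

/-- the light entries of one colour -/
theorem k3e1_light_sum {X G E : Type} [MeasurableSpace X] [Fintype G] [Fintype E] (Pi : Measure X) (grp : X → G) (a : X → E)
    (φ : ℝ≥0∞) (N : ℕ)
    (ho : ((Finset.univ : Finset (G × E)).filter fun p => Pi (grp ⁻¹' {p.1} ∩ a ⁻¹' {p.2}) ≠ 0).card ≤ N) :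
    ∑ g, ∑ e ∈ Finset.univ.filter (fun e => Pi (grp ⁻¹' {g} ∩ a ⁻¹' {e}) < φ), Pi (grp ⁻¹' {g} ∩ a ⁻¹' {e}) ≤ N * φ := by
  have h1 : ∀ g, ∑ e ∈ Finset.univ.filter (fun e => Pi (grp ⁻¹' {g} ∩ a ⁻¹' {e}) < φ), Pi (grp ⁻¹' {g} ∩ a ⁻¹' {e})
      ≤ ∑ e, if Pi (grp ⁻¹' {g} ∩ a ⁻¹' {e}) ≠ 0 then φ else 0 := by
    intro g
    rw [Finset.sum_filter]
    refine Finset.sum_le_sum fun e _ => ?_
    by_cases h0 : Pi (grp ⁻¹' {g} ∩ a ⁻¹' {e}) = 0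
    · simp [h0]
    · rw [if_pos h0]
      split_ifs with h2
      · exact h2.le
      · exact zero_le
  refine (Finset.sum_le_sum fun g _ => h1 g).trans ?_
  rw [← Finset.sum_product' (f := fun g e => if Pi (grp ⁻¹' {g} ∩ a ⁻¹' {e}) ≠ 0 then φ else 0), Finset.univ_product_univ,
    ← Finset.sum_filter, Finset.sum_const, nsmul_eq_mul]
  exact mul_le_mul' (by exact_mod_cast ho) le_rfl

/-- **LEAF L-252-S3e1-M2** (l.1284-1292, ~120 l.).  **Summation over the groups.**  If in every group less than half survives the deletion of the light (group, index) entries, the total mass is at most twice the mass of the light entries.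
PROOF.  For fixed `g`: `Pi {grp = g} ≤ Pi (HH_g) + ∑_{e light in g} Pi {grp = g, a₁ = e} + (same for a₂)`, `2 Pi (HH_g) ≤ Pi {grp = g}`, all finite: `Pi {grp = g} ≤ 2 (light₁ g + light₂ g)`.
An entry of mass `0` contributes nothing, a light entry contributes `< φ`; the number of entries of non-zero mass is `≤ n₁` resp. `n₂`.  `Pi univ = ∑_g Pi {grp = g}`. -/
theorem k3e1_sum_groups {X G E₁ E₂ : Type} [MeasurableSpace X] [Fintype G] [Fintype E₁] [Fintype E₂] (Pi : Measure X) [IsFiniteMeasure Pi]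
    (grp : X → G) (a₁ : X → E₁) (a₂ : X → E₂) (hg : ∀ g, MeasurableSet (grp ⁻¹' {g})) (ha₁ : ∀ e, MeasurableSet (a₁ ⁻¹' {e})) (ha₂ : ∀ e, MeasurableSet (a₂ ⁻¹' {e}))
    (φ : ℝ≥0∞) (n₁ n₂ : ℕ)
    (ho₁ : ((Finset.univ : Finset (G × E₁)).filter fun p => Pi (grp ⁻¹' {p.1} ∩ a₁ ⁻¹' {p.2}) ≠ 0).card ≤ n₁)
    (ho₂ : ((Finset.univ : Finset (G × E₂)).filter fun p => Pi (grp ⁻¹' {p.1} ∩ a₂ ⁻¹' {p.2}) ≠ 0).card ≤ n₂)
    (hgrp : ∀ g, 2 * Pi {x | grp x = g ∧ φ ≤ Pi (grp ⁻¹' {g} ∩ a₁ ⁻¹' {a₁ x}) ∧ φ ≤ Pi (grp ⁻¹' {g} ∩ a₂ ⁻¹' {a₂ x})} ≤ Pi (grp ⁻¹' {g})) :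
    Pi Set.univ ≤ 2 * ((n₁ : ℝ≥0∞) + n₂) * φ := by
  have hone : ∀ g, Pi (grp ⁻¹' {g}) ≤ 2 *
      (∑ e ∈ Finset.univ.filter (fun e => Pi (grp ⁻¹' {g} ∩ a₁ ⁻¹' {e}) < φ), Pi (grp ⁻¹' {g} ∩ a₁ ⁻¹' {e})
        + ∑ e ∈ Finset.univ.filter (fun e => Pi (grp ⁻¹' {g} ∩ a₂ ⁻¹' {e}) < φ), Pi (grp ⁻¹' {g} ∩ a₂ ⁻¹' {e})) := by
    intro g
    have hsub : grp ⁻¹' {g} ⊆ {x | grp x = g ∧ φ ≤ Pi (grp ⁻¹' {g} ∩ a₁ ⁻¹' {a₁ x}) ∧ φ ≤ Pi (grp ⁻¹' {g} ∩ a₂ ⁻¹' {a₂ x})}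
        ∪ ((⋃ e ∈ Finset.univ.filter (fun e => Pi (grp ⁻¹' {g} ∩ a₁ ⁻¹' {e}) < φ), (grp ⁻¹' {g} ∩ a₁ ⁻¹' {e}))
          ∪ ⋃ e ∈ Finset.univ.filter (fun e => Pi (grp ⁻¹' {g} ∩ a₂ ⁻¹' {e}) < φ), (grp ⁻¹' {g} ∩ a₂ ⁻¹' {e})) := by
      intro x hx
      by_cases h1 : φ ≤ Pi (grp ⁻¹' {g} ∩ a₁ ⁻¹' {a₁ x})
      · by_cases h2 : φ ≤ Pi (grp ⁻¹' {g} ∩ a₂ ⁻¹' {a₂ x})
        · exact Or.inl ⟨hx, h1, h2⟩
        · refine Or.inr (Or.inr ?_)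
          simp only [Set.mem_iUnion, exists_prop]
          exact ⟨a₂ x, Finset.mem_filter.2 ⟨Finset.mem_univ _, not_le.1 h2⟩, hx, rfl⟩
      · refine Or.inr (Or.inl ?_)
        simp only [Set.mem_iUnion, exists_prop]
        exact ⟨a₁ x, Finset.mem_filter.2 ⟨Finset.mem_univ _, not_le.1 h1⟩, hx, rfl⟩
    have h3 := (measure_mono (μ := Pi) hsub).trans ((measure_union_le _ _).trans (add_le_add le_rfl ((measure_union_le _ _).trans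
      (add_le_add (measure_biUnion_finset_le _ _) (measure_biUnion_finset_le _ _)))))
    have h4 : Pi (grp ⁻¹' {g}) + Pi (grp ⁻¹' {g}) ≤ Pi (grp ⁻¹' {g}) + 2 *
      (∑ e ∈ Finset.univ.filter (fun e => Pi (grp ⁻¹' {g} ∩ a₁ ⁻¹' {e}) < φ), Pi (grp ⁻¹' {g} ∩ a₁ ⁻¹' {e})
        + ∑ e ∈ Finset.univ.filter (fun e => Pi (grp ⁻¹' {g} ∩ a₂ ⁻¹' {e}) < φ), Pi (grp ⁻¹' {g} ∩ a₂ ⁻¹' {e})) := by
      calc Pi (grp ⁻¹' {g}) + Pi (grp ⁻¹' {g}) = 2 * Pi (grp ⁻¹' {g}) := (two_mul _).symm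
        _ ≤ 2 * _ := mul_le_mul' le_rfl h3
        _ = 2 * _ + 2 * _ := mul_add _ _ _
        _ ≤ _ := add_le_add (hgrp g) le_rfl
    exact (ENNReal.add_le_add_iff_left (measure_ne_top Pi _)).1 h4
  have hcov : (Set.univ : Set X) ⊆ ⋃ g ∈ (Finset.univ : Finset G), grp ⁻¹' {g} := by
    intro x _
    simp
  refine (measure_mono hcov).trans ((measure_biUnion_finset_le _ _).trans ((Finset.sum_le_sum fun g _ => hone g).trans ?_))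
  rw [← Finset.mul_sum, Finset.sum_add_distrib, mul_assoc, add_mul]
  exact mul_le_mul' le_rfl (add_le_add (k3e1_light_sum Pi grp a₁ φ n₁ ho₁) (k3e1_light_sum Pi grp a₂ φ n₂ ho₂))

/-- **LEAF L-252-S3e1-M3** (~100 l.).  **Huge discrepancies, one pair of sheets.**  Two sheets which agree up to `η` at the base points of the event `S` but are NOT `C θ^{-C} η`-close on the ball: the base points fill a relative volume `< θ`.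
PROOF.  `F := {u ∈ closedBall u₀ r | |f u - g u| ≤ η}` is measurable; `volume F < θ (2r)^n`, otherwise the hub makes the pair close.
`Pi S = (Pi.restrict S).map bp univ = (Pi.restrict S).map bp F` (a.e. `bp x ∈ F`: `hval`, and `bp x ∈ closedBall` a.e. because of `hm`: the complement of the ball is null for `volume.restrict`) `≤ cap · volume F`. -/
theorem k3e1_huge {n : ℕ} {C : ℝ} (hub : K4eRemez n C) {X : Type} [MeasurableSpace X] (Pi : Measure X) (S : Set X) (hS : MeasurableSet S)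
    (bp : X → Fin n → ℝ) (hbp : Measurable bp) (u₀ : Fin n → ℝ) (r θ η : ℝ) (f g : (Fin n → ℝ) → ℝ) (hfm : Measurable f) (hgm : Measurable g)
    (hr : 0 < r) (hθ : 0 < θ) (hθ1 : θ ≤ 1) (hf : f ∈ k4eSh n u₀ r) (hg : g ∈ k4eSh n u₀ r) (cap : ℝ≥0∞)
    (hm : (Pi.restrict S).map bp ≤ cap • volume.restrict (Metric.closedBall u₀ r))
    (hval : ∀ᵐ x ∂(Pi.restrict S), |f (bp x) - g (bp x)| ≤ η)
    (hdis : ¬ k4eClose (Metric.closedBall u₀ r) f g (C * θ ^ (-C) * η)) :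
    Pi S ≤ cap * ENNReal.ofReal (θ * (2 * r) ^ n) := by
  have hV : MeasurableSet {u : Fin n → ℝ | |f u - g u| ≤ η} := measurableSet_le (hfm.sub hgm).abs measurable_const
  have hF : MeasurableSet (Metric.closedBall u₀ r ∩ {u : Fin n → ℝ | |f u - g u| ≤ η}) :=
    Metric.isClosed_closedBall.measurableSet.inter hV
  have hvol : volume (Metric.closedBall u₀ r ∩ {u : Fin n → ℝ | |f u - g u| ≤ η}) ≤ ENNReal.ofReal (θ * (2 * r) ^ n) := by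
    by_contra hcon
    exact hdis (hub u₀ r θ η f g _ hr hθ hθ1 hf hg hF Set.inter_subset_left (not_le.1 hcon).le fun u hu => hu.2)
  have h1 : (Pi.restrict S).map bp (Metric.closedBall u₀ r)ᶜ = 0 := by
    refine le_antisymm ((hm _).trans ?_) zero_le
    rw [Measure.smul_apply, Measure.restrict_apply Metric.isClosed_closedBall.measurableSet.compl]
    simp
  have h2 : (Pi.restrict S).map bp {u : Fin n → ℝ | |f u - g u| ≤ η}ᶜ = 0 := by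
    rw [Measure.map_apply hbp hV.compl]
    exact hval
  calc Pi S = (Pi.restrict S).map bp Set.univ := by
        rw [Measure.map_apply hbp MeasurableSet.univ, Set.preimage_univ, Measure.restrict_apply MeasurableSet.univ,
          Set.univ_inter]
    _ ≤ (Pi.restrict S).map bp (Metric.closedBall u₀ r ∩ {u : Fin n → ℝ | |f u - g u| ≤ η})
          + ((Pi.restrict S).map bp (Metric.closedBall u₀ r)ᶜ + (Pi.restrict S).map bp {u : Fin n → ℝ | |f u - g u| ≤ η}ᶜ) := by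
        refine (measure_mono fun u _ => ?_).trans ((measure_union_le _ _).trans (add_le_add le_rfl (measure_union_le _ _)))
        by_cases hu1 : u ∈ Metric.closedBall u₀ r
        · by_cases hu2 : u ∈ {u : Fin n → ℝ | |f u - g u| ≤ η}
          · exact Or.inl ⟨hu1, hu2⟩
          · exact Or.inr (Or.inr hu2)
        · exact Or.inr (Or.inl hu1)
    _ = (Pi.restrict S).map bp (Metric.closedBall u₀ r ∩ {u : Fin n → ℝ | |f u - g u| ≤ η}) := by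
        rw [h1, h2, add_zero, add_zero]
    _ ≤ cap * volume (Metric.closedBall u₀ r ∩ {u : Fin n → ℝ | |f u - g u| ≤ η}) := by
        refine (hm _).trans ?_
        rw [Measure.smul_apply, smul_eq_mul]
        exact mul_le_mul' le_rfl (Measure.restrict_apply_le _ _)
    _ ≤ _ := mul_le_mul' le_rfl hvol

theorem k3e1_m4_close_mono {U : Type} {Bx : Set U} {f g : U → ℝ} {η η' : ℝ} (h : k4eClose Bx f g η) (hη : η ≤ η') :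
    k4eClose Bx f g η' := fun u hu => (h u hu).trans hη

theorem k3e1_m4_lab_meas {X L : Type} [MeasurableSpace X] [Finite L] (lab : X → L) (h : ∀ l, MeasurableSet (lab ⁻¹' {l})) (T : Set L) :
    MeasurableSet (lab ⁻¹' T) := by
  have e : lab ⁻¹' T = ⋃ l ∈ T, lab ⁻¹' {l} := by
    ext x
    simp
  rw [e]
  exact MeasurableSet.biUnion (Set.to_countable T) fun l _ => h l

theorem k3e1_m4_sum_le {X L : Type} [MeasurableSpace X] [Fintype L] (Pi : Measure X) (lab : X → L) (T : Set L) (c : ℝ≥0∞) (N : ℕ)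
    (F : Finset L) (hF : ∀ l ∈ T, Pi (lab ⁻¹' {l}) ≠ 0 → l ∈ F) (hc : ∀ l ∈ T, Pi (lab ⁻¹' {l}) ≤ c) (hN : F.card ≤ N) :
    Pi (lab ⁻¹' T) ≤ N * c := by
  have e : lab ⁻¹' T ⊆ ⋃ l ∈ (Finset.univ.filter fun l => l ∈ T), lab ⁻¹' {l} := by
    intro x hx
    simp only [Set.mem_iUnion]
    exact ⟨lab x, Finset.mem_filter.2 ⟨Finset.mem_univ _, hx⟩, rfl⟩
  calc Pi (lab ⁻¹' T) ≤ ∑ l ∈ Finset.univ.filter (fun l => l ∈ T), Pi (lab ⁻¹' {l}) :=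
        (measure_mono e).trans (measure_biUnion_finset_le _ _)
    _ ≤ ∑ l ∈ Finset.univ.filter (fun l => l ∈ T), (if l ∈ F then c else 0) := by
        refine Finset.sum_le_sum fun l hl => ?_
        have hlT : l ∈ T := (Finset.mem_filter.1 hl).2
        split_ifs with h
        · exact hc l hlT
        · by_contra hne
          exact h (hF l hlT fun h0 => hne (by rw [h0]))
    _ ≤ ∑ l ∈ F, c := by
        rw [← Finset.sum_filter]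
        exact Finset.sum_le_sum_of_subset fun l hl => (Finset.mem_filter.1 hl).2
    _ = F.card * c := by rw [Finset.sum_const, nsmul_eq_mul]
    _ ≤ N * c := by gcongr

theorem k3e1_m4_triple_meas {X E₁ E₂ 𝒰 : Type} [MeasurableSpace X] (a₁ : X → E₁) (a₂ : X → E₂) (ub : X → 𝒰)
    (ha₁ : ∀ e, MeasurableSet (a₁ ⁻¹' {e})) (ha₂ : ∀ e, MeasurableSet (a₂ ⁻¹' {e})) (hub : ∀ u, MeasurableSet (ub ⁻¹' {u})) (τ : E₁ × 𝒰 × E₂) :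
    MeasurableSet ((fun x => (a₁ x, ub x, a₂ x)) ⁻¹' {τ}) := by
  have e : (fun x => (a₁ x, ub x, a₂ x)) ⁻¹' {τ} = a₁ ⁻¹' {τ.1} ∩ ub ⁻¹' {τ.2.1} ∩ a₂ ⁻¹' {τ.2.2} := by
    ext x
    obtain ⟨e₁, u, e₂⟩ := τ
    simp [Prod.ext_iff, and_assoc]
  rw [e]
  exact ((ha₁ _).inter (hub _)).inter (ha₂ _)

/-- the huge discrepancies -/
theorem k3e1_m4_huge {n : ℕ} {Cr : ℝ} (hrem : K4eRemez n Cr)
    {X E₁ E₂ 𝒰 : Type} [MeasurableSpace X] [Fintype E₁] [Fintype E₂] [Fintype 𝒰] (Pi : Measure X)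
    (a₁ : X → E₁) (a₂ : X → E₂) (ub : X → 𝒰) (ha₁ : ∀ e, MeasurableSet (a₁ ⁻¹' {e})) (ha₂ : ∀ e, MeasurableSet (a₂ ⁻¹' {e})) (hub : ∀ u, MeasurableSet (ub ⁻¹' {u}))
    (bp : X → Fin n → ℝ) (hbp : Measurable bp) (u₀ : 𝒰 → Fin n → ℝ) (r Δ Mh θ : ℝ) (nO : ℕ)
    (f₁ : E₁ → 𝒰 → (Fin n → ℝ) → ℝ) (f₂ : E₂ → 𝒰 → (Fin n → ℝ) → ℝ) (hfm₁ : ∀ e u, Measurable (f₁ e u)) (hfm₂ : ∀ e u, Measurable (f₂ e u))
    (hr : 0 < r) (hθ : 0 < θ) (hθ1 : θ ≤ 1)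
    (hf₁ : ∀ e u, f₁ e u ∈ k4eSh n (u₀ u) r) (hf₂ : ∀ e u, f₂ e u ∈ k4eSh n (u₀ u) r) (cap : ℝ≥0∞)
    (hm₁ : ∀ e u, (Pi.restrict (a₁ ⁻¹' {e} ∩ ub ⁻¹' {u})).map bp ≤ cap • volume.restrict (Metric.closedBall (u₀ u) r))
    (ho₁ : ∀ e, (Finset.univ.filter fun u => Pi (a₁ ⁻¹' {e} ∩ ub ⁻¹' {u}) ≠ 0).card ≤ nO)
    (hval : ∀ᵐ x ∂Pi, |f₁ (a₁ x) (ub x) (bp x) - f₂ (a₂ x) (ub x) (bp x)| ≤ Δ)
    (hθ' : Cr * θ ^ (-Cr) * Δ ≤ Mh) :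
    Pi {x | ¬ k4eClose (Metric.closedBall (u₀ (ub x)) r) (f₁ (a₁ x) (ub x)) (f₂ (a₂ x) (ub x)) Mh}
      ≤ ((Fintype.card E₁ * nO * Fintype.card E₂ : ℕ) : ℝ≥0∞) * cap * ENNReal.ofReal (θ * (2 * r) ^ n) := by
  obtain ⟨lab, hlab⟩ : ∃ lab : X → E₁ × 𝒰 × E₂, lab = fun x => (a₁ x, ub x, a₂ x) := ⟨_, rfl⟩
  obtain ⟨T, hT⟩ : ∃ T : Set (E₁ × 𝒰 × E₂), T = {τ | ¬ k4eClose (Metric.closedBall (u₀ τ.2.1) r) (f₁ τ.1 τ.2.1) (f₂ τ.2.2 τ.2.1) Mh} := ⟨_, rfl⟩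
  have hset : {x | ¬ k4eClose (Metric.closedBall (u₀ (ub x)) r) (f₁ (a₁ x) (ub x)) (f₂ (a₂ x) (ub x)) Mh} = lab ⁻¹' T := by
    rw [hlab, hT]
    rfl
  have hlm : ∀ τ, MeasurableSet (lab ⁻¹' {τ}) := by
    intro τ
    rw [hlab]
    exact k3e1_m4_triple_meas a₁ a₂ ub ha₁ ha₂ hub τ
  have hsub : ∀ τ : E₁ × 𝒰 × E₂, lab ⁻¹' {τ} ⊆ a₁ ⁻¹' {τ.1} ∩ ub ⁻¹' {τ.2.1} := by
    intro τ x hx
    have hx' : lab x = τ := hx
    rw [hlab] at hx'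
    rw [← hx']
    exact ⟨rfl, rfl⟩
  obtain ⟨F, hF⟩ : ∃ F : Finset (E₁ × 𝒰 × E₂), F = Finset.univ.biUnion fun e₁ =>
      ((Finset.univ.filter fun u => Pi (a₁ ⁻¹' {e₁} ∩ ub ⁻¹' {u}) ≠ 0) ×ˢ (Finset.univ : Finset E₂)).image (Prod.mk e₁) := ⟨_, rfl⟩
  have hFcard : F.card ≤ Fintype.card E₁ * nO * Fintype.card E₂ := by
    rw [hF]
    refine Finset.card_biUnion_le.trans ?_
    calc ∑ e₁ : E₁, (((Finset.univ.filter fun u => Pi (a₁ ⁻¹' {e₁} ∩ ub ⁻¹' {u}) ≠ 0) ×ˢ (Finset.univ : Finset E₂)).image (Prod.mk e₁)).card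
        ≤ ∑ _e₁ : E₁, nO * Fintype.card E₂ := by
          refine Finset.sum_le_sum fun e₁ _ => ?_
          refine Finset.card_image_le.trans ?_
          rw [Finset.card_product, Finset.card_univ]
          exact Nat.mul_le_mul_right _ (ho₁ e₁)
      _ = Fintype.card E₁ * nO * Fintype.card E₂ := by
          rw [Finset.sum_const, Finset.card_univ, smul_eq_mul, mul_assoc]
  rw [hset, mul_assoc]
  refine k3e1_m4_sum_le Pi lab T _ _ F ?_ ?_ hFcard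
  · intro τ _ hne
    rw [hF, Finset.mem_biUnion]
    refine ⟨τ.1, Finset.mem_univ _, Finset.mem_image.2 ⟨τ.2, ?_, rfl⟩⟩
    rw [Finset.mem_product]
    refine ⟨Finset.mem_filter.2 ⟨Finset.mem_univ _, fun h0 => hne ?_⟩, Finset.mem_univ _⟩
    exact measure_mono_null (hsub τ) h0
  · intro τ hτ
    rw [hT] at hτ
    refine k3e1_huge hrem Pi (lab ⁻¹' {τ}) (hlm τ) bp hbp (u₀ τ.2.1) r θ Δ (f₁ τ.1 τ.2.1) (f₂ τ.2.2 τ.2.1) (hfm₁ _ _) (hfm₂ _ _) hr hθ hθ1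
      (hf₁ _ _) (hf₂ _ _) cap ?_ ?_ ?_
    · exact (Measure.map_mono (Measure.restrict_mono (hsub τ) le_rfl) hbp).trans (hm₁ τ.1 τ.2.1)
    · filter_upwards [ae_restrict_of_ae hval, ae_restrict_mem (hlm τ)] with x hx hxm
      have hx' : lab x = τ := hxm
      rw [hlab] at hx'
      rw [← hx']
      exact hx
    · intro hcl
      exact hτ (k3e1_m4_close_mono hcl hθ')

/-- base points lie in the ball a.e. -/
theorem k3e1_m4_ball {n : ℕ} {X E₁ 𝒰 : Type} [MeasurableSpace X] [Fintype E₁] (Pi : Measure X) (a₁ : X → E₁) (ub : X → 𝒰)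
    (ha₁ : ∀ e, MeasurableSet (a₁ ⁻¹' {e})) (hub : ∀ u, MeasurableSet (ub ⁻¹' {u})) (bp : X → Fin n → ℝ) (hbp : Measurable bp)
    (u₀ : 𝒰 → Fin n → ℝ) (r : ℝ) (cap : ℝ≥0∞)
    (hm₁ : ∀ e u, (Pi.restrict (a₁ ⁻¹' {e} ∩ ub ⁻¹' {u})).map bp ≤ cap • volume.restrict (Metric.closedBall (u₀ u) r)) (u : 𝒰) :
    Pi (ub ⁻¹' {u} ∩ bp ⁻¹' (Metric.closedBall (u₀ u) r)ᶜ) = 0 := by
  have hbm : MeasurableSet (Metric.closedBall (u₀ u) r)ᶜ := Metric.isClosed_closedBall.measurableSet.compl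
  have h1 : ∀ e, Pi (bp ⁻¹' (Metric.closedBall (u₀ u) r)ᶜ ∩ (a₁ ⁻¹' {e} ∩ ub ⁻¹' {u})) = 0 := by
    intro e
    have h2 := hm₁ e u (Metric.closedBall (u₀ u) r)ᶜ
    rw [Measure.map_apply hbp hbm, Measure.restrict_apply (hbp hbm), Measure.smul_apply, Measure.restrict_apply hbm] at h2
    simpa using h2
  have hsub : ub ⁻¹' {u} ∩ bp ⁻¹' (Metric.closedBall (u₀ u) r)ᶜ ⊆ ⋃ e, bp ⁻¹' (Metric.closedBall (u₀ u) r)ᶜ ∩ (a₁ ⁻¹' {e} ∩ ub ⁻¹' {u}) := by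
    intro x hx
    exact Set.mem_iUnion.2 ⟨a₁ x, hx.2, rfl, hx.1⟩
  exact measure_mono_null hsub (measure_iUnion_null h1)

/-- one group -/
theorem k3e1_m4_group {n : ℕ} {d ε Cc R₀ : ℝ} (hmatch : ∀ R, R₀ ≤ R → K4eMatch n d ε R)
    {X E₁ E₂ 𝒰 : Type} [MeasurableSpace X] [Fintype E₁] [Fintype E₂] (Pi : Measure X) [IsFiniteMeasure Pi]
    (a₁ : X → E₁) (a₂ : X → E₂) (ub : X → 𝒰) (ha₁ : ∀ e, MeasurableSet (a₁ ⁻¹' {e})) (ha₂ : ∀ e, MeasurableSet (a₂ ⁻¹' {e})) (hub : ∀ u, MeasurableSet (ub ⁻¹' {u}))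
    (bp : X → Fin n → ℝ) (hbp : Measurable bp) (u₀ : 𝒰 → Fin n → ℝ) (r Δ M₀ Lm : ℝ)
    (f₁ : E₁ → 𝒰 → (Fin n → ℝ) → ℝ) (f₂ : E₂ → 𝒰 → (Fin n → ℝ) → ℝ) (hfm₁ : ∀ e u, Measurable (f₁ e u)) (hfm₂ : ∀ e u, Measurable (f₂ e u))
    (hr : 0 < r) (hΔ : 0 < Δ) (hM₀ : M₀ = R₀ * Δ) (hR₀ : 1 < R₀) (hε : 0 < ε) (hd : 0 ≤ d) (hCc : 1 ≤ Cc) (hLm : 1 ≤ Lm)
    (hf₁ : ∀ e u, f₁ e u ∈ k4eSh n (u₀ u) r) (hf₂ : ∀ e u, f₂ e u ∈ k4eSh n (u₀ u) r) (cap φ : ℝ≥0∞) (hφ0 : φ ≠ 0) (hφ1 : φ ≠ ∞)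
    (hm₁ : ∀ e u, (Pi.restrict (a₁ ⁻¹' {e} ∩ ub ⁻¹' {u})).map bp ≤ cap • volume.restrict (Metric.closedBall (u₀ u) r))
    (hm₂ : ∀ e u, (Pi.restrict (a₂ ⁻¹' {e} ∩ ub ⁻¹' {u})).map bp ≤ cap • volume.restrict (Metric.closedBall (u₀ u) r))
    (hval : ∀ᵐ x ∂Pi, |f₁ (a₁ x) (ub x) (bp x) - f₂ (a₂ x) (ub x) (bp x)| ≤ Δ)
    (hgm : ∀ (u : 𝒰) (e : E₁) (M : ℝ), M₀ ≤ M →
      Pi {x | ub x = u ∧ |f₁ (a₁ x) u (bp x) - f₁ e u (bp x)| ≤ Cc * M} ≤ φ * ENNReal.ofReal (Lm * (M / Δ) ^ d))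
    (hR₁ : Cc * ((⌈2 * Cc⌉₊ : ℝ) + 2) ≤ R₀ ^ ε) (hR₂ : 4 * cap * ENNReal.ofReal ((2 * r) ^ n) ≤ ENNReal.ofReal (R₀ ^ ε) * φ) (hR₃ : 2 * Lm ≤ R₀ ^ ε)
    (u : 𝒰) (k : ℕ) (es : E₁) (Sg : Set X) (hSg : MeasurableSet Sg) (h1 : ∀ x ∈ Sg, ub x = u)
    (h2 : ∀ x ∈ Sg, k4eClose (Metric.closedBall (u₀ u) r) (f₁ (a₁ x) u) (f₁ es u) (Cc * (2 ^ k * M₀)))
    (h3 : ∀ x ∈ Sg, ¬ k4eClose (Metric.closedBall (u₀ u) r) (f₁ (a₁ x) u) (f₂ (a₂ x) u) (2 ^ k * M₀))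
    (h4 : ∀ x ∈ Sg, k4eClose (Metric.closedBall (u₀ u) r) (f₁ (a₁ x) u) (f₂ (a₂ x) u) (2 * (2 ^ k * M₀))) :
    2 * (Pi.restrict Sg) {x | φ ≤ (Pi.restrict Sg) (a₁ ⁻¹' {a₁ x}) ∧ φ ≤ (Pi.restrict Sg) (a₂ ⁻¹' {a₂ x})} ≤ (Pi.restrict Sg) Set.univ := by
  obtain ⟨R, hRd⟩ : ∃ R : ℝ, R = 2 ^ k * R₀ := ⟨_, rfl⟩
  obtain ⟨M, hMd⟩ : ∃ M : ℝ, M = 2 ^ k * M₀ := ⟨_, rfl⟩
  rw [← hMd] at h2 h3 h4
  have h2k : (1 : ℝ) ≤ 2 ^ k := one_le_pow₀ (by norm_num)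
  have hR₀0 : 0 < R₀ := by linarith
  have hRR : R₀ ≤ R := by rw [hRd]; nlinarith
  have hR1 : 1 < R := lt_of_lt_of_le hR₀ hRR
  have hR0 : 0 < R := by linarith
  have hM₀0 : 0 < M₀ := by rw [hM₀]; positivity
  have hMM : M₀ ≤ M := by rw [hMd]; nlinarith
  have hM0 : 0 < M := lt_of_lt_of_le hM₀0 hMM
  have hMR : M = R * Δ := by rw [hMd, hRd, hM₀]; ring
  have hRε : R₀ ^ ε ≤ R ^ ε := Real.rpow_le_rpow hR₀0.le hRR hε.le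
  have hceil : 2 * Cc ≤ (⌈2 * Cc⌉₊ : ℝ) := Nat.le_ceil _
  have hc1 : Cc ≤ R ^ ε := by nlinarith
  have hc2 : 2 + Cc ≤ R ^ ε := by nlinarith
  have hc3 : 2 * Lm ≤ R ^ ε := hR₃.trans hRε
  have hc4 : 1 ≤ R ^ ε := by linarith
  have hne : ∀ A : Set X, (Pi.restrict Sg) A ≠ 0 → ∃ x ∈ Sg, x ∈ A := by
    intro A hA
    rw [Measure.restrict_apply' hSg] at hA
    obtain ⟨x, hx⟩ := nonempty_of_measure_ne_zero hA
    exact ⟨x, hx.2, hx.1⟩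
  refine k3e1_group (hmatch R hRR) (Pi.restrict Sg) a₁ a₂ ha₁ ha₂ bp hbp (u₀ u) r M Δ (fun e => f₁ e u) (fun e => f₂ e u) (f₁ es u)
    (fun e => hfm₁ e u) (fun e => hfm₂ e u) hr hΔ hMR hR1 hε (hf₁ es u) (fun e => hf₁ e u) (fun e => hf₂ e u) ?_ ?_ cap φ hφ0 hφ1 ?_ ?_ ?_ ?_ ?_ ?_
  · intro e he
    obtain ⟨x, hx, hxe⟩ := hne _ he
    have hxe' : a₁ x = e := hxe
    have := h2 x hx
    rw [hxe'] at this
    refine k3e1_m4_close_mono this ?_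
    rw [mul_comm]
    exact mul_le_mul_of_nonneg_left hc1 hM0.le
  · intro e he
    obtain ⟨x, hx, hxe⟩ := hne _ he
    have hxe' : a₂ x = e := hxe
    have g2 := h2 x hx
    have g4 := h4 x hx
    rw [hxe'] at g4
    intro y hy
    have t1 := g2 y hy
    have t2 := g4 y hy
    have e1 : f₂ e u y - f₁ es u y = -(f₁ (a₁ x) u y - f₂ e u y) + (f₁ (a₁ x) u y - f₁ es u y) := by ring
    show |f₂ e u y - f₁ es u y| ≤ M * R ^ ε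
    rw [e1]
    refine (abs_add_le _ _).trans ?_
    rw [abs_neg]
    calc |f₁ (a₁ x) u y - f₂ e u y| + |f₁ (a₁ x) u y - f₁ es u y| ≤ 2 * M + Cc * M := add_le_add t2 t1
      _ = M * (2 + Cc) := by ring
      _ ≤ M * R ^ ε := mul_le_mul_of_nonneg_left hc2 hM0.le
  · intro e
    rw [Measure.restrict_restrict (ha₁ e)]
    refine (Measure.map_mono (Measure.restrict_mono ?_ le_rfl) hbp).trans (hm₁ e u)
    exact fun x hx => ⟨hx.1, h1 x hx.2⟩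
  · intro e
    rw [Measure.restrict_restrict (ha₂ e)]
    refine (Measure.map_mono (Measure.restrict_mono ?_ le_rfl) hbp).trans (hm₂ e u)
    exact fun x hx => ⟨hx.1, h1 x hx.2⟩
  · refine hR₂.trans ?_
    gcongr
  · rw [Measure.restrict_apply_univ]
    have hsub : Sg ⊆ {x | ub x = u ∧ |f₁ (a₁ x) u (bp x) - f₁ es u (bp x)| ≤ Cc * M} ∪
        (ub ⁻¹' {u} ∩ bp ⁻¹' (Metric.closedBall (u₀ u) r)ᶜ) := by
      intro x hx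
      by_cases hb : bp x ∈ Metric.closedBall (u₀ u) r
      · exact Or.inl ⟨h1 x hx, h2 x hx _ hb⟩
      · exact Or.inr ⟨h1 x hx, hb⟩
    have hle : Pi Sg ≤ φ * ENNReal.ofReal (Lm * (M / Δ) ^ d) := by
      refine (measure_mono hsub).trans ((measure_union_le _ _).trans ?_)
      rw [k3e1_m4_ball Pi a₁ ub ha₁ hub bp hbp u₀ r cap hm₁ u, add_zero]
      exact hgm u es M hMM
    have hMΔ : M / Δ = R := by
      rw [hMR]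
      field_simp
    rw [hMΔ] at hle
    calc 2 * Pi Sg ≤ 2 * (φ * ENNReal.ofReal (Lm * R ^ d)) := by gcongr
      _ = φ * ENNReal.ofReal (2 * Lm * R ^ d) := by
          rw [mul_assoc 2 Lm, ENNReal.ofReal_mul (by norm_num : (0 : ℝ) ≤ 2)]
          simp only [ENNReal.ofReal_ofNat]
          ring
      _ ≤ φ * ENNReal.ofReal (R ^ (d + ε)) := by
          gcongr
          rw [Real.rpow_add hR0, mul_comm (R ^ d)]
          exact mul_le_mul_of_nonneg_right hc3 (Real.rpow_nonneg hR0.le _)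
  · filter_upwards [ae_restrict_of_ae hval, ae_restrict_mem hSg] with x hx hxm
    rw [h1 x hxm] at hx
    refine hx.trans ?_
    nlinarith
  · filter_upwards [ae_restrict_mem hSg] with x hxm
    intro hcl
    refine h3 x hxm (k3e1_m4_close_mono hcl ?_)
    have : R ^ (-ε) ≤ 1 := Real.rpow_le_one_of_one_le_of_nonpos hR1.le (by linarith)
    nlinarith

theorem k3e1_m4_first (P : ℕ → Prop) (N : ℕ) (h0 : ¬ P 0) (hN : P N) : ∃ k < N, ¬ P k ∧ P (k + 1) := by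
  induction N with
  | zero => exact absurd hN h0
  | succ N ih =>
    by_cases h : P N
    · obtain ⟨k, hk, h1⟩ := ih h
      exact ⟨k, by omega, h1⟩
    · exact ⟨N, by omega, h, hN⟩

theorem k3e1_m4_count {G E 𝒰 : Type} [Fintype E] {m : ℕ} (S : Finset (G × E)) (O : E → Finset 𝒰) (nO kmax ρ' : ℕ) (hO : ∀ e, (O e).card ≤ nO)
    (cen : E → 𝒰 → ℕ → Fin m → ℤ) (gu : G → 𝒰) (gk : G → ℕ) (gb : G → Fin m → ℤ)
    (hS : ∀ p ∈ S, gu p.1 ∈ O p.2 ∧ gk p.1 < kmax ∧ gb p.1 ∈ k4eNbr ρ' (cen p.2 (gu p.1) (gk p.1)))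
    (hinj : ∀ p ∈ S, ∀ p' ∈ S, p.2 = p'.2 → gu p.1 = gu p'.1 → gk p.1 = gk p'.1 → gb p.1 = gb p'.1 → p.1 = p'.1) :
    S.card ≤ Fintype.card E * nO * kmax * (2 * ρ' + 1) ^ m := by
  obtain ⟨T, hT⟩ : ∃ T : Finset (E × 𝒰 × ℕ × (Fin m → ℤ)), T = Finset.univ.biUnion fun e => (O e).biUnion fun u =>
      (Finset.range kmax).biUnion fun k => (k4eNbr ρ' (cen e u k)).image fun β => (e, u, k, β) := ⟨_, rfl⟩
  have hTcard : T.card ≤ Fintype.card E * nO * kmax * (2 * ρ' + 1) ^ m := by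
    rw [hT, mul_assoc, mul_assoc]
    refine Finset.card_biUnion_le_card_mul _ _ _ fun e _ => ?_
    refine (Finset.card_biUnion_le_card_mul _ _ (kmax * (2 * ρ' + 1) ^ m) fun u _ => ?_).trans (Nat.mul_le_mul_right _ (hO e))
    refine (Finset.card_biUnion_le_card_mul _ _ ((2 * ρ' + 1) ^ m) fun k _ => ?_).trans (by rw [Finset.card_range])
    exact Finset.card_image_le.trans (k4e_nbr_card _ _).le
  refine le_trans (Finset.card_le_card_of_injOn (fun p => (p.2, gu p.1, gk p.1, gb p.1)) ?_ ?_) hTcard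
  · intro p hp
    obtain ⟨h1, h2, h3⟩ := hS p hp
    rw [hT]
    simp only [Finset.coe_biUnion, Finset.coe_univ, Set.mem_univ, Set.iUnion_true, Set.mem_iUnion, Finset.mem_coe, Finset.mem_image,
      exists_prop, Finset.mem_range]
    exact ⟨p.2, gu p.1, h1, gk p.1, h2, gb p.1, h3, rfl⟩
  · intro p hp p' hp' he
    simp only [Prod.mk.injEq] at he
    obtain ⟨e1, e2, e3, e4⟩ := he
    exact Prod.ext (hinj p hp p' hp' e1 e2 e3 e4) e1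

/-- the intermediate discrepancies -/
theorem k3e1_m4_mid {n m : ℕ} {d ε Cc R₀ : ℝ} (hcode : K4eCode n m Cc) (hmatch : ∀ R, R₀ ≤ R → K4eMatch n d ε R)
    {X E₁ E₂ 𝒰 : Type} [MeasurableSpace X] [Fintype E₁] [Fintype E₂] [Fintype 𝒰] (Pi : Measure X) [IsFiniteMeasure Pi]
    (a₁ : X → E₁) (a₂ : X → E₂) (ub : X → 𝒰) (ha₁ : ∀ e, MeasurableSet (a₁ ⁻¹' {e})) (ha₂ : ∀ e, MeasurableSet (a₂ ⁻¹' {e})) (hub : ∀ u, MeasurableSet (ub ⁻¹' {u}))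
    (bp : X → Fin n → ℝ) (hbp : Measurable bp) (u₀ : 𝒰 → Fin n → ℝ) (r Δ M₀ Lm : ℝ) (nO kmax : ℕ)
    (f₁ : E₁ → 𝒰 → (Fin n → ℝ) → ℝ) (f₂ : E₂ → 𝒰 → (Fin n → ℝ) → ℝ) (hfm₁ : ∀ e u, Measurable (f₁ e u)) (hfm₂ : ∀ e u, Measurable (f₂ e u))
    (hr : 0 < r) (hΔ : 0 < Δ) (hM₀ : M₀ = R₀ * Δ) (hR₀ : 1 < R₀) (hε : 0 < ε) (hd : 0 ≤ d) (hCc : 1 ≤ Cc) (hLm : 1 ≤ Lm)
    (hf₁ : ∀ e u, f₁ e u ∈ k4eSh n (u₀ u) r) (hf₂ : ∀ e u, f₂ e u ∈ k4eSh n (u₀ u) r) (cap φ : ℝ≥0∞) (hφ0 : φ ≠ 0) (hφ1 : φ ≠ ∞)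
    (hm₁ : ∀ e u, (Pi.restrict (a₁ ⁻¹' {e} ∩ ub ⁻¹' {u})).map bp ≤ cap • volume.restrict (Metric.closedBall (u₀ u) r))
    (hm₂ : ∀ e u, (Pi.restrict (a₂ ⁻¹' {e} ∩ ub ⁻¹' {u})).map bp ≤ cap • volume.restrict (Metric.closedBall (u₀ u) r))
    (ho₁ : ∀ e, (Finset.univ.filter fun u => Pi (a₁ ⁻¹' {e} ∩ ub ⁻¹' {u}) ≠ 0).card ≤ nO)
    (ho₂ : ∀ e, (Finset.univ.filter fun u => Pi (a₂ ⁻¹' {e} ∩ ub ⁻¹' {u}) ≠ 0).card ≤ nO)
    (hval : ∀ᵐ x ∂Pi, |f₁ (a₁ x) (ub x) (bp x) - f₂ (a₂ x) (ub x) (bp x)| ≤ Δ)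
    (hgm : ∀ (u : 𝒰) (e : E₁) (M : ℝ), M₀ ≤ M →
      Pi {x | ub x = u ∧ |f₁ (a₁ x) u (bp x) - f₁ e u (bp x)| ≤ Cc * M} ≤ φ * ENNReal.ofReal (Lm * (M / Δ) ^ d))
    (hR₁ : Cc * ((⌈2 * Cc⌉₊ : ℝ) + 2) ≤ R₀ ^ ε) (hR₂ : 4 * cap * ENNReal.ofReal ((2 * r) ^ n) ≤ ENNReal.ofReal (R₀ ^ ε) * φ) (hR₃ : 2 * Lm ≤ R₀ ^ ε) :
    Pi {x | ¬ k4eClose (Metric.closedBall (u₀ (ub x)) r) (f₁ (a₁ x) (ub x)) (f₂ (a₂ x) (ub x)) M₀ ∧
        k4eClose (Metric.closedBall (u₀ (ub x)) r) (f₁ (a₁ x) (ub x)) (f₂ (a₂ x) (ub x)) (2 ^ kmax * M₀)}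
      ≤ 2 * (((Fintype.card E₁ + Fintype.card E₂) * nO * kmax * (2 * ⌈2 * Cc⌉₊ + 3) ^ m : ℕ) : ℝ≥0∞) * φ := by
  obtain ⟨ρ, hρ⟩ : ∃ ρ : ℕ, ρ = ⌈2 * Cc⌉₊ := ⟨_, rfl⟩
  have hρC : 2 * Cc ≤ (ρ : ℝ) := by rw [hρ]; exact Nat.le_ceil _
  have hM₀0 : 0 < M₀ := by rw [hM₀]; positivity
  have hη : ∀ k : ℕ, 0 < 2 ^ k * M₀ := fun k => by positivity
  -- the codes and the bins
  choose J hJ using fun u => hcode (u₀ u) r hr
  obtain ⟨b₁, hb₁⟩ : ∃ b₁ : E₁ → 𝒰 → ℕ → Fin m → ℤ, ∀ e u k, b₁ e u k = k4eBin (2 ^ k * M₀) (J u (f₁ e u)) := ⟨_, fun _ _ _ => rfl⟩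
  obtain ⟨b₂, hb₂⟩ : ∃ b₂ : E₂ → 𝒰 → ℕ → Fin m → ℤ, ∀ e u k, b₂ e u k = k4eBin (2 ^ k * M₀) (J u (f₂ e u)) := ⟨_, fun _ _ _ => rfl⟩
  -- the dyadic class of a triple
  have hk : ∀ τ : E₁ × 𝒰 × E₂, ∃ k : ℕ, (¬ k4eClose (Metric.closedBall (u₀ τ.2.1) r) (f₁ τ.1 τ.2.1) (f₂ τ.2.2 τ.2.1) M₀ ∧
      k4eClose (Metric.closedBall (u₀ τ.2.1) r) (f₁ τ.1 τ.2.1) (f₂ τ.2.2 τ.2.1) (2 ^ kmax * M₀)) →
      k < kmax ∧ ¬ k4eClose (Metric.closedBall (u₀ τ.2.1) r) (f₁ τ.1 τ.2.1) (f₂ τ.2.2 τ.2.1) (2 ^ k * M₀) ∧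
        k4eClose (Metric.closedBall (u₀ τ.2.1) r) (f₁ τ.1 τ.2.1) (f₂ τ.2.2 τ.2.1) (2 * (2 ^ k * M₀)) := by
    intro τ
    by_cases hmid : ¬ k4eClose (Metric.closedBall (u₀ τ.2.1) r) (f₁ τ.1 τ.2.1) (f₂ τ.2.2 τ.2.1) M₀ ∧
      k4eClose (Metric.closedBall (u₀ τ.2.1) r) (f₁ τ.1 τ.2.1) (f₂ τ.2.2 τ.2.1) (2 ^ kmax * M₀)
    · obtain ⟨k, hk1, hk2, hk3⟩ := k3e1_m4_first (fun k => k4eClose (Metric.closedBall (u₀ τ.2.1) r) (f₁ τ.1 τ.2.1) (f₂ τ.2.2 τ.2.1) (2 ^ k * M₀))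
        kmax (by simpa using hmid.1) hmid.2
      refine ⟨k, fun _ => ⟨hk1, hk2, ?_⟩⟩
      have e : 2 * (2 ^ k * M₀) = 2 ^ (k + 1) * M₀ := by rw [pow_succ]; ring
      rw [e]
      exact hk3
    · exact ⟨0, fun h => absurd h hmid⟩
  choose kk hkk using hk
  obtain ⟨Γ, hΓ⟩ : ∃ Γ : E₁ × 𝒰 × E₂ → 𝒰 × ℕ × (Fin m → ℤ) × (Fin m → ℤ),
      ∀ τ, Γ τ = (τ.2.1, kk τ, b₁ τ.1 τ.2.1 (kk τ), b₂ τ.2.2 τ.2.1 (kk τ)) := ⟨_, fun _ => rfl⟩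
  obtain ⟨lab, hlab⟩ : ∃ lab : X → E₁ × 𝒰 × E₂, ∀ x, lab x = (a₁ x, ub x, a₂ x) := ⟨_, fun _ => rfl⟩
  have hlabf : lab = fun x => (a₁ x, ub x, a₂ x) := funext hlab
  have hmeasL : ∀ T : Set (E₁ × 𝒰 × E₂), MeasurableSet (lab ⁻¹' T) := by
    intro T
    refine k3e1_m4_lab_meas lab (fun τ => ?_) T
    rw [hlabf]
    exact k3e1_m4_triple_meas a₁ a₂ ub ha₁ ha₂ hub τ
  obtain ⟨grp, hgrpd⟩ : ∃ grp : X → {g // g ∈ Finset.univ.image Γ}, ∀ x, (grp x).1 = Γ (lab x) :=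
    ⟨fun x => ⟨Γ (lab x), Finset.mem_image_of_mem _ (Finset.mem_univ _)⟩, fun _ => rfl⟩
  have hgm' : ∀ g, MeasurableSet (grp ⁻¹' {g}) := by
    intro g
    have e : grp ⁻¹' {g} = lab ⁻¹' {τ | Γ τ = g.1} := by
      ext x
      simp only [Set.mem_preimage, Set.mem_singleton_iff, Set.mem_ofPred_eq]
      rw [← hgrpd x]
      exact Subtype.ext_iff
    rw [e]
    exact hmeasL _
  obtain ⟨Bm, hBmd⟩ : ∃ Bm : Set X, Bm = {x | ¬ k4eClose (Metric.closedBall (u₀ (ub x)) r) (f₁ (a₁ x) (ub x)) (f₂ (a₂ x) (ub x)) M₀ ∧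
        k4eClose (Metric.closedBall (u₀ (ub x)) r) (f₁ (a₁ x) (ub x)) (f₂ (a₂ x) (ub x)) (2 ^ kmax * M₀)} := ⟨_, rfl⟩
  have hBm : MeasurableSet Bm := by
    have e : Bm = lab ⁻¹' {τ | ¬ k4eClose (Metric.closedBall (u₀ τ.2.1) r) (f₁ τ.1 τ.2.1) (f₂ τ.2.2 τ.2.1) M₀ ∧
      k4eClose (Metric.closedBall (u₀ τ.2.1) r) (f₁ τ.1 τ.2.1) (f₂ τ.2.2 τ.2.1) (2 ^ kmax * M₀)} := by
      rw [hBmd, hlabf]
      rfl
    rw [e]
    exact hmeasL _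
  rw [← hBmd, ← hρ]
  -- what a point of a group knows
  have hwit : ∀ x ∈ Bm, ∀ g, grp x = g → ub x = g.1.1 ∧ g.1.2.1 < kmax ∧ g.1.2.2.1 = b₁ (a₁ x) g.1.1 g.1.2.1 ∧ g.1.2.2.2 = b₂ (a₂ x) g.1.1 g.1.2.1 ∧
      ¬ k4eClose (Metric.closedBall (u₀ g.1.1) r) (f₁ (a₁ x) g.1.1) (f₂ (a₂ x) g.1.1) (2 ^ g.1.2.1 * M₀) ∧
      k4eClose (Metric.closedBall (u₀ g.1.1) r) (f₁ (a₁ x) g.1.1) (f₂ (a₂ x) g.1.1) (2 * (2 ^ g.1.2.1 * M₀)) := by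
    intro x hx g hg
    have e1 : g.1 = Γ (lab x) := by rw [← hg, hgrpd]
    rw [hΓ, hlab] at e1
    rw [hBmd] at hx
    have h3 := hkk (a₁ x, ub x, a₂ x) hx
    rw [e1]
    exact ⟨rfl, h3.1, rfl, rfl, h3.2.1, h3.2.2⟩
  have hgu : ∀ y g, grp y = g → ub y = g.1.1 := by
    intro y g hg
    have e1 : g.1 = Γ (lab y) := by rw [← hg, hgrpd]
    rw [hΓ, hlab] at e1
    rw [e1]
  -- neighbouring bins
  have hnb : ∀ (e₁ : E₁) (e₂ : E₂) (u : 𝒰) (k : ℕ), k4eClose (Metric.closedBall (u₀ u) r) (f₁ e₁ u) (f₂ e₂ u) (2 * (2 ^ k * M₀)) →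
      b₂ e₂ u k ∈ k4eNbr (ρ + 1) (b₁ e₁ u k) ∧ b₁ e₁ u k ∈ k4eNbr (ρ + 1) (b₂ e₂ u k) := by
    intro e₁ e₂ u k hc
    have h1 := (hJ u (f₁ e₁ u) (hf₁ e₁ u) (f₂ e₂ u) (hf₂ e₂ u) (2 * (2 ^ k * M₀))).1 hc
    have h2 : ∀ i, |J u (f₁ e₁ u) i - J u (f₂ e₂ u) i| ≤ ρ * (2 ^ k * M₀) := by
      intro i
      refine (h1 i).trans ?_
      have := hη k
      nlinarith
    rw [hb₁, hb₂]
    exact ⟨k4e_bin_close _ (hη k) ρ _ _ h2, k4e_bin_close _ (hη k) ρ _ _ fun i => by rw [abs_sub_comm]; exact h2 i⟩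
  obtain ⟨Pi', hPi'⟩ : ∃ Pi' : Measure X, Pi' = Pi.restrict Bm := ⟨_, rfl⟩
  have : IsFiniteMeasure Pi' := by rw [hPi']; infer_instance
  have hnz : ∀ A : Set X, Pi' A ≠ 0 → ∃ x ∈ Bm, x ∈ A := by
    intro A hA
    rw [hPi', Measure.restrict_apply' hBm] at hA
    obtain ⟨x, hx⟩ := nonempty_of_measure_ne_zero hA
    exact ⟨x, hx.2, hx.1⟩
  have hle : ∀ A : Set X, Pi' A ≤ Pi A := by
    intro A
    rw [hPi']
    exact Measure.restrict_le_self A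
  have e3 : 2 * ρ + 3 = 2 * (ρ + 1) + 1 := by ring
  -- the entries of the first colour
  have hc1 : ((Finset.univ : Finset ({g // g ∈ Finset.univ.image Γ} × E₁)).filter fun p => Pi' (grp ⁻¹' {p.1} ∩ a₁ ⁻¹' {p.2}) ≠ 0).card
      ≤ Fintype.card E₁ * nO * kmax * (2 * ρ + 3) ^ m := by
    rw [e3]
    refine k3e1_m4_count _ (fun e => Finset.univ.filter fun u => Pi (a₁ ⁻¹' {e} ∩ ub ⁻¹' {u}) ≠ 0) nO kmax (ρ + 1) ho₁ b₁ (fun g => g.1.1)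
      (fun g => g.1.2.1) (fun g => g.1.2.2.2) ?_ ?_
    · intro p hp
      have hp' := (Finset.mem_filter.1 hp).2
      obtain ⟨x, hxB, hxg, hxa⟩ := hnz _ hp'
      have hxa' : a₁ x = p.2 := hxa
      obtain ⟨-, w2, -, w4, -, w6⟩ := hwit x hxB p.1 hxg
      refine ⟨Finset.mem_filter.2 ⟨Finset.mem_univ _, fun h0 => hp' ?_⟩, w2, ?_⟩
      · refine le_antisymm ((hle _).trans ((measure_mono ?_).trans h0.le)) zero_le
        intro y hy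
        exact ⟨hy.2, hgu y p.1 hy.1⟩
      · show p.1.1.2.2.2 ∈ k4eNbr (ρ + 1) (b₁ p.2 p.1.1.1 p.1.1.2.1)
        rw [w4, ← hxa']
        exact (hnb _ _ _ _ w6).1
    · intro p hp p' hp' he hu hk hb
      obtain ⟨x, hxB, hxg, hxa⟩ := hnz _ (Finset.mem_filter.1 hp).2
      obtain ⟨x', hxB', hxg', hxa'⟩ := hnz _ (Finset.mem_filter.1 hp').2
      obtain ⟨-, -, w3, -, -, -⟩ := hwit x hxB p.1 hxg
      obtain ⟨-, -, w3', -, -, -⟩ := hwit x' hxB' p'.1 hxg'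
      have hu' : p.1.1.1 = p'.1.1.1 := hu
      have hk' : p.1.1.2.1 = p'.1.1.2.1 := hk
      have hb' : p.1.1.2.2.2 = p'.1.1.2.2.2 := hb
      have ha : a₁ x = a₁ x' := (show a₁ x = p.2 from hxa).trans (he.trans (show a₁ x' = p'.2 from hxa').symm)
      refine Subtype.ext (Prod.ext hu' (Prod.ext hk' (Prod.ext ?_ hb')))
      rw [w3, w3', ha, hu', hk']
  -- the entries of the second colour
  have hc2 : ((Finset.univ : Finset ({g // g ∈ Finset.univ.image Γ} × E₂)).filter fun p => Pi' (grp ⁻¹' {p.1} ∩ a₂ ⁻¹' {p.2}) ≠ 0).card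
      ≤ Fintype.card E₂ * nO * kmax * (2 * ρ + 3) ^ m := by
    rw [e3]
    refine k3e1_m4_count _ (fun e => Finset.univ.filter fun u => Pi (a₂ ⁻¹' {e} ∩ ub ⁻¹' {u}) ≠ 0) nO kmax (ρ + 1) ho₂ b₂ (fun g => g.1.1)
      (fun g => g.1.2.1) (fun g => g.1.2.2.1) ?_ ?_
    · intro p hp
      have hp' := (Finset.mem_filter.1 hp).2
      obtain ⟨x, hxB, hxg, hxa⟩ := hnz _ hp'
      have hxa' : a₂ x = p.2 := hxa
      obtain ⟨-, w2, w3, -, -, w6⟩ := hwit x hxB p.1 hxg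
      refine ⟨Finset.mem_filter.2 ⟨Finset.mem_univ _, fun h0 => hp' ?_⟩, w2, ?_⟩
      · refine le_antisymm ((hle _).trans ((measure_mono ?_).trans h0.le)) zero_le
        intro y hy
        exact ⟨hy.2, hgu y p.1 hy.1⟩
      · show p.1.1.2.2.1 ∈ k4eNbr (ρ + 1) (b₂ p.2 p.1.1.1 p.1.1.2.1)
        rw [w3, ← hxa']
        exact (hnb _ _ _ _ w6).2
    · intro p hp p' hp' he hu hk hb
      obtain ⟨x, hxB, hxg, hxa⟩ := hnz _ (Finset.mem_filter.1 hp).2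
      obtain ⟨x', hxB', hxg', hxa'⟩ := hnz _ (Finset.mem_filter.1 hp').2
      obtain ⟨-, -, -, w4, -, -⟩ := hwit x hxB p.1 hxg
      obtain ⟨-, -, -, w4', -, -⟩ := hwit x' hxB' p'.1 hxg'
      have hu' : p.1.1.1 = p'.1.1.1 := hu
      have hk' : p.1.1.2.1 = p'.1.1.2.1 := hk
      have hb' : p.1.1.2.2.1 = p'.1.1.2.2.1 := hb
      have ha : a₂ x = a₂ x' := (show a₂ x = p.2 from hxa).trans (he.trans (show a₂ x' = p'.2 from hxa').symm)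
      refine Subtype.ext (Prod.ext hu' (Prod.ext hk' (Prod.ext hb' ?_)))
      rw [w4, w4', ha, hu', hk']
  -- one group
  have hgrp : ∀ g, 2 * Pi' {x | grp x = g ∧ φ ≤ Pi' (grp ⁻¹' {g} ∩ a₁ ⁻¹' {a₁ x}) ∧ φ ≤ Pi' (grp ⁻¹' {g} ∩ a₂ ⁻¹' {a₂ x})} ≤ Pi' (grp ⁻¹' {g}) := by
    intro g
    obtain ⟨τs, -, hτs⟩ := Finset.mem_image.1 g.2
    rw [hΓ] at hτs
    have hes : b₁ τs.1 g.1.1 g.1.2.1 = g.1.2.2.1 := by rw [← hτs]
    have hSg : MeasurableSet (Bm ∩ grp ⁻¹' {g}) := hBm.inter (hgm' g)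
    have g1 : ∀ x ∈ Bm ∩ grp ⁻¹' {g}, ub x = g.1.1 := fun x hx => (hwit x hx.1 g hx.2).1
    have g2 : ∀ x ∈ Bm ∩ grp ⁻¹' {g}, k4eClose (Metric.closedBall (u₀ g.1.1) r) (f₁ (a₁ x) g.1.1) (f₁ τs.1 g.1.1) (Cc * (2 ^ g.1.2.1 * M₀)) := by
      intro x hx
      obtain ⟨-, -, w3, -, -, -⟩ := hwit x hx.1 g hx.2
      have hb : k4eBin (2 ^ g.1.2.1 * M₀) (J g.1.1 (f₁ (a₁ x) g.1.1)) = k4eBin (2 ^ g.1.2.1 * M₀) (J g.1.1 (f₁ τs.1 g.1.1)) := by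
        rw [← hb₁, ← hb₁, ← w3, hes]
      exact (hJ g.1.1 _ (hf₁ _ _) _ (hf₁ _ _) _).2 (k4e_bin_same _ (hη _) _ _ hb)
    have g3 : ∀ x ∈ Bm ∩ grp ⁻¹' {g}, ¬ k4eClose (Metric.closedBall (u₀ g.1.1) r) (f₁ (a₁ x) g.1.1) (f₂ (a₂ x) g.1.1) (2 ^ g.1.2.1 * M₀) :=
      fun x hx => (hwit x hx.1 g hx.2).2.2.2.2.1
    have g4 : ∀ x ∈ Bm ∩ grp ⁻¹' {g}, k4eClose (Metric.closedBall (u₀ g.1.1) r) (f₁ (a₁ x) g.1.1) (f₂ (a₂ x) g.1.1) (2 * (2 ^ g.1.2.1 * M₀)) :=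
      fun x hx => (hwit x hx.1 g hx.2).2.2.2.2.2
    have key := k3e1_m4_group hmatch Pi a₁ a₂ ub ha₁ ha₂ hub bp hbp u₀ r Δ M₀ Lm f₁ f₂ hfm₁ hfm₂ hr hΔ hM₀ hR₀ hε hd hCc hLm hf₁ hf₂ cap φ hφ0 hφ1
      hm₁ hm₂ hval hgm hR₁ hR₂ hR₃ g.1.1 g.1.2.1 τs.1 (Bm ∩ grp ⁻¹' {g}) hSg g1 g2 g3 g4
    have hres : ∀ A : Set X, (Pi.restrict (Bm ∩ grp ⁻¹' {g})) A = Pi' (grp ⁻¹' {g} ∩ A) := by
      intro A
      rw [hPi', Measure.restrict_apply' hSg, Measure.restrict_apply' hBm]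
      congr 1
      ext x
      simp only [Set.mem_inter_iff]
      tauto
    simp only [hres, Set.inter_univ] at key
    exact key
  have hfin := k3e1_sum_groups Pi' grp a₁ a₂ hgm' ha₁ ha₂ φ _ _ hc1 hc2 hgrp
  rw [hPi', Measure.restrict_apply_univ] at hfin
  refine hfin.trans (le_of_eq ?_)
  congr 2
  push_cast
  ring

/-- **LEAF L-252-S3e1-M4** (l.1240-1316, ~500 l.; may be cut further IN PLACE).  **LOCAL SHEET MATCH, abstract form.**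
`Δ` = agreement of the values at the source point, `M₀ = R₀ Δ` = the claimed bound of the norm, `φ` = floor of the entries, `cap` = index-base density, `nO` = options `(D,U)` per index, `kmax` = number of dyadic classes, `Lm` = loss in the group mass.
PROOF.  `ρ := ⌈2 Cc⌉₊`, `M_k := 2^k M₀`, `R_k := M_k/Δ = 2^k R₀ ≥ R₀`.  Choose codes `J u` (`hcode (u₀ u) r`).  Let `B := {x | not M₀-close}`.  All objects below are functions of the finite labels `(a₁ x, a₂ x, ub x)`, hence measurable.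
(i) `x ∈ B` not `2^kmax M₀`-close: for each triple `(e₁,u,e₂)` whose sheets are not `2^kmax M₀`-close apply `k3e1_huge` to `S = {a₁ = e₁, ub = u, a₂ = e₂}` with `η = Δ` (`hθ'`, `k4eClose` is monotone in the bound; `hm` from `hm₁`, `Measure.restrict_mono`);
   only the pairs `(e₁,u)` with `Pi {a₁ = e₁, ub = u} ≠ 0` count: `≤ card E₁ · nO`, times `card E₂`.
(ii) otherwise let `k < kmax` be the least `k` with `2^{k+1} M₀`-closeness: the pair is not `M_k`-close but `2 M_k`-close.  `grp x := (ub x, k, β, β')`, `β = k4eBin M_k (J u (f₁ (a₁ x) u))`, `β' =` the same for `f₂`; `β' ∈ k4eNbr (ρ+1) β` (`hcode`, `k4e_bin_close`).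
   `G` := the finite set of the values of `grp`.  Entries: for a colour-1 index `e`: `u` (`nO` options), `k` (`kmax`), `β` determined, `β'` (`(2ρ+3)^m`, `k4e_nbr_card`); colour 2 alike (`β ∈ k4eNbr (ρ+1) β'`).
   One group, `Pi_g := Pi.restrict {grp = g}`: reference `f₀ := f₁ e* u` for some `e*` with bin `β` (no such `e*`: the group is empty); colour 1: same bin, `k4e_bin_same`, `hcode`: `Cc M_k`-close; colour 2: bins at distance `≤ ρ+1`: codes within `(ρ+2) M_k`: `Cc (ρ+2) M_k`-close; `hR₁`.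
   `hmass` of `k3e1_group` from `hgm` (a.e. `bp x ∈ closedBall`, so `|f₁ (a₁ x) u (bp x) - f₀ (bp x)| ≤ Cc M_k`) and `hR₃`; `hcap` from `hR₂`; `R^ε ≥ R₀^ε` (`Real.rpow_le_rpow`).  `k3e1_group` (hub `hmatch R_k`), then `k3e1_sum_groups`. -/
theorem k3e1_match {n m : ℕ} {d ε Cc Cr R₀ : ℝ} (hcode : K4eCode n m Cc) (hrem : K4eRemez n Cr) (hmatch : ∀ R, R₀ ≤ R → K4eMatch n d ε R)
    {X E₁ E₂ 𝒰 : Type} [MeasurableSpace X] [Fintype E₁] [Fintype E₂] [Fintype 𝒰] (Pi : Measure X) [IsFiniteMeasure Pi]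
    (a₁ : X → E₁) (a₂ : X → E₂) (ub : X → 𝒰) (ha₁ : ∀ e, MeasurableSet (a₁ ⁻¹' {e})) (ha₂ : ∀ e, MeasurableSet (a₂ ⁻¹' {e})) (hub : ∀ u, MeasurableSet (ub ⁻¹' {u}))
    (bp : X → Fin n → ℝ) (hbp : Measurable bp) (u₀ : 𝒰 → Fin n → ℝ) (r Δ M₀ θ Lm : ℝ) (nO kmax : ℕ)
    (f₁ : E₁ → 𝒰 → (Fin n → ℝ) → ℝ) (f₂ : E₂ → 𝒰 → (Fin n → ℝ) → ℝ) (hfm₁ : ∀ e u, Measurable (f₁ e u)) (hfm₂ : ∀ e u, Measurable (f₂ e u))
    (hr : 0 < r) (hΔ : 0 < Δ) (hM₀ : M₀ = R₀ * Δ) (hR₀ : 1 < R₀) (hε : 0 < ε) (hd : 0 ≤ d) (hCc : 1 ≤ Cc) (hθ : 0 < θ) (hθ1 : θ ≤ 1) (hLm : 1 ≤ Lm)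
    (hf₁ : ∀ e u, f₁ e u ∈ k4eSh n (u₀ u) r) (hf₂ : ∀ e u, f₂ e u ∈ k4eSh n (u₀ u) r) (cap φ : ℝ≥0∞) (hφ0 : φ ≠ 0) (hφ1 : φ ≠ ∞)
    (hm₁ : ∀ e u, (Pi.restrict (a₁ ⁻¹' {e} ∩ ub ⁻¹' {u})).map bp ≤ cap • volume.restrict (Metric.closedBall (u₀ u) r))
    (hm₂ : ∀ e u, (Pi.restrict (a₂ ⁻¹' {e} ∩ ub ⁻¹' {u})).map bp ≤ cap • volume.restrict (Metric.closedBall (u₀ u) r))
    (ho₁ : ∀ e, (Finset.univ.filter fun u => Pi (a₁ ⁻¹' {e} ∩ ub ⁻¹' {u}) ≠ 0).card ≤ nO)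
    (ho₂ : ∀ e, (Finset.univ.filter fun u => Pi (a₂ ⁻¹' {e} ∩ ub ⁻¹' {u}) ≠ 0).card ≤ nO)
    (hval : ∀ᵐ x ∂Pi, |f₁ (a₁ x) (ub x) (bp x) - f₂ (a₂ x) (ub x) (bp x)| ≤ Δ)
    (hgm : ∀ (u : 𝒰) (e : E₁) (M : ℝ), M₀ ≤ M →
      Pi {x | ub x = u ∧ |f₁ (a₁ x) u (bp x) - f₁ e u (bp x)| ≤ Cc * M} ≤ φ * ENNReal.ofReal (Lm * (M / Δ) ^ d))
    (hR₁ : Cc * ((⌈2 * Cc⌉₊ : ℝ) + 2) ≤ R₀ ^ ε) (hR₂ : 4 * cap * ENNReal.ofReal ((2 * r) ^ n) ≤ ENNReal.ofReal (R₀ ^ ε) * φ) (hR₃ : 2 * Lm ≤ R₀ ^ ε)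
    (hθ' : Cr * θ ^ (-Cr) * Δ ≤ 2 ^ kmax * M₀) :
    Pi {x | ¬ k4eClose (Metric.closedBall (u₀ (ub x)) r) (f₁ (a₁ x) (ub x)) (f₂ (a₂ x) (ub x)) M₀}
      ≤ 2 * (((Fintype.card E₁ + Fintype.card E₂) * nO * kmax * (2 * ⌈2 * Cc⌉₊ + 3) ^ m : ℕ) : ℝ≥0∞) * φ
        + ((Fintype.card E₁ * nO * Fintype.card E₂ : ℕ) : ℝ≥0∞) * cap * ENNReal.ofReal (θ * (2 * r) ^ n) := by
  have hM₀0 : 0 < M₀ := by rw [hM₀]; positivity
  have hsub : {x | ¬ k4eClose (Metric.closedBall (u₀ (ub x)) r) (f₁ (a₁ x) (ub x)) (f₂ (a₂ x) (ub x)) M₀} ⊆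
      {x | ¬ k4eClose (Metric.closedBall (u₀ (ub x)) r) (f₁ (a₁ x) (ub x)) (f₂ (a₂ x) (ub x)) M₀ ∧
        k4eClose (Metric.closedBall (u₀ (ub x)) r) (f₁ (a₁ x) (ub x)) (f₂ (a₂ x) (ub x)) (2 ^ kmax * M₀)} ∪
      {x | ¬ k4eClose (Metric.closedBall (u₀ (ub x)) r) (f₁ (a₁ x) (ub x)) (f₂ (a₂ x) (ub x)) (2 ^ kmax * M₀)} := by
    intro x hx
    by_cases h : k4eClose (Metric.closedBall (u₀ (ub x)) r) (f₁ (a₁ x) (ub x)) (f₂ (a₂ x) (ub x)) (2 ^ kmax * M₀)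
    · exact Or.inl ⟨hx, h⟩
    · exact Or.inr h
  refine (measure_mono hsub).trans ((measure_union_le _ _).trans (add_le_add ?_ ?_))
  · exact k3e1_m4_mid hcode hmatch Pi a₁ a₂ ub ha₁ ha₂ hub bp hbp u₀ r Δ M₀ Lm nO kmax f₁ f₂ hfm₁ hfm₂ hr hΔ hM₀ hR₀ hε hd hCc hLm hf₁ hf₂ cap φ hφ0 hφ1
      hm₁ hm₂ ho₁ ho₂ hval hgm hR₁ hR₂ hR₃
  · exact k3e1_m4_huge hrem Pi a₁ a₂ ub ha₁ ha₂ hub bp hbp u₀ r Δ (2 ^ kmax * M₀) θ nO f₁ f₂ hfm₁ hfm₂ hr hθ hθ1 hf₁ hf₂ cap hm₁ ho₁ hval hθ'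

end

end Claimed.Agent.R252

end PkS3e1MatchContract

section PkS3e1MatchStageContract

/-!
# ROW 252 (S0492), unit S3e1 (sub-architect helper215, chief helper70): CONTRACT, file 11: STAGE B = THE LOCAL SHEET MATCH for the construction of `S3e1/Build.lean`
`03-comparison.tex` l.1217-1316.   `k3e1_match` (`S3e1/MatchContract.lean`, CLOSED) is applied in every world and block.

PAPER-FREE.  Prefix `k3e1_`.  Every `sorry` is a leaf `L-252-S3e1-B*`: prove IN PLACE, statement verbatim, helper lemmas directly above (same prefix).  Earlier statements of the S3e1 files may be cited even if still `sorry`.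
-/

set_option autoImplicit false

namespace Claimed.Agent.R252

open MeasureTheory
open scoped ENNReal BigOperators Classical

noncomputable section

/-- labels of a finite measurable partition -/
theorem k3e1_match_fam_lab {X I : Type} [MeasurableSpace X] [Fintype I] [Nonempty I] (Dt : I → Set X) (hD : ∀ a, MeasurableSet (Dt a))
    (hdisj : ∀ a b : I, a ≠ b → Disjoint (Dt a) (Dt b)) :
    ∃ lab : X → I, (∀ a, ∀ x ∈ Dt a, lab x = a) ∧ ∀ a, MeasurableSet (lab ⁻¹' {a}) := by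
  obtain ⟨a₀⟩ := (inferInstance : Nonempty I)
  obtain ⟨lab, hlab⟩ : ∃ lab : X → I, lab = fun x => if h : ∃ a, x ∈ Dt a then Classical.choose h else a₀ := ⟨_, rfl⟩
  have h1 : ∀ a, ∀ x ∈ Dt a, lab x = a := by
    intro a x hx
    have hex : ∃ a, x ∈ Dt a := ⟨a, hx⟩
    have h2 : lab x = Classical.choose hex := by
      rw [hlab]
      exact dif_pos hex
    by_contra hne
    exact Set.disjoint_left.1 (hdisj _ _ hne) (h2 ▸ Classical.choose_spec hex) hx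
  have h0 : ∀ x, (¬ ∃ a, x ∈ Dt a) → lab x = a₀ := by
    intro x hx
    rw [hlab]
    exact dif_neg hx
  have hT : MeasurableSet (⋃ a, Dt a) := MeasurableSet.iUnion hD
  refine ⟨lab, h1, fun a => ?_⟩
  by_cases ha : a = a₀
  · have e : lab ⁻¹' {a} = Dt a ∪ (⋃ a, Dt a)ᶜ := by
      ext x
      simp only [Set.mem_preimage, Set.mem_singleton_iff, Set.mem_union, Set.mem_compl_iff, Set.mem_iUnion]
      constructor
      · intro hx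
        by_cases hex : ∃ a, x ∈ Dt a
        · obtain ⟨b, hb⟩ := hex
          left
          rw [← hx, h1 b x hb]
          exact hb
        · exact Or.inr hex
      · rintro (hx | hx)
        · exact h1 a x hx
        · rw [h0 x hx, ha]
    rw [e]
    exact (hD a).union hT.compl
  · have e : lab ⁻¹' {a} = Dt a := by
      ext x
      simp only [Set.mem_preimage, Set.mem_singleton_iff]
      constructor
      · intro hx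
        by_cases hex : ∃ a, x ∈ Dt a
        · obtain ⟨b, hb⟩ := hex
          rw [← hx, h1 b x hb]
          exact hb
        · exact absurd ((h0 x hex).symm.trans hx).symm ha
      · exact h1 a x
    rw [e]
    exact hD a

theorem k3e1_match_fam_pre {X I J : Type} [MeasurableSpace X] [Fintype I] (lab : X → I) (h : ∀ a, MeasurableSet (lab ⁻¹' {a})) (π : I → J) (s : Set J) :
    MeasurableSet ((fun x => π (lab x)) ⁻¹' s) := by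
  have e : (fun x => π (lab x)) ⁻¹' s = ⋃ a ∈ {a : I | π a ∈ s}, lab ⁻¹' {a} := by
    ext x
    simp
  rw [e]
  exact MeasurableSet.biUnion (Set.to_countable _) fun a _ => h a

/-- **LEAF L-252-S3e1-B1** (~300 l.).  **`k3e1_match` for a partition indexed by (index of colour 1, index of colour 2, ball)**, base point map depending on the ball index.
PROOF.  If `E₁`, `E₂` or `𝒰` is empty the set on the left is empty.  Otherwise fix default elements.  `T := ⋃ D`, `Pi := μ.restrict T`.  For `x ∈ T` the triple `(e₁,e₂,u)` with `x ∈ D e₁ e₂ u` is unique (`hdisj`); `a₁ x, a₂ x, ub x` := its components (defaults off `T`; `Classical.choose`);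
`a₁ ⁻¹' {e} ∩ T = ⋃_{e₂,u} D e e₂ u` etc., so all fibres are measurable.  `bp' x := bp (ub x) x` is measurable (finite partition into the measurable fibres of `ub`: `measurable_of_..`/`Measurable.piecewise`, or: preimage of `s` is `⋃ u, ub⁻¹{u} ∩ (bp u)⁻¹ s`).
`Pi.restrict (a₁⁻¹{e} ∩ ub⁻¹{u}) = μ.restrict (⋃ e₂, D e e₂ u)` (`Measure.restrict_restrict`), and `bp' = bp u` there (`Measure.map_congr` a.e.).   `Pi (a₁⁻¹{e} ∩ ub⁻¹{u}) ≠ 0 → ∃ e₂, (D e e₂ u).Nonempty`.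
a.e.-statements w.r.t. `Pi`: `ae_restrict_iff'`.   Apply `k3e1_match`; the set of the conclusion contains the left-hand set intersected with `T`. -/
theorem k3e1_match_fam {n m : ℕ} {d ε Cc Cr R₀ : ℝ} (hcode : K4eCode n m Cc) (hrem : K4eRemez n Cr) (hmatch : ∀ R, R₀ ≤ R → K4eMatch n d ε R)
    {X E₁ E₂ 𝒰 : Type} [MeasurableSpace X] [Fintype E₁] [Fintype E₂] [Fintype 𝒰] (μ : Measure X) [IsFiniteMeasure μ]
    (D : E₁ → E₂ → 𝒰 → Set X) (hD : ∀ e₁ e₂ u, MeasurableSet (D e₁ e₂ u)) (hdisj : ∀ a b : E₁ × E₂ × 𝒰, a ≠ b → Disjoint (D a.1 a.2.1 a.2.2) (D b.1 b.2.1 b.2.2))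
    (bp : 𝒰 → X → Fin n → ℝ) (hbp : ∀ u, Measurable (bp u)) (u₀ : 𝒰 → Fin n → ℝ) (r Δ M₀ θ Lm : ℝ) (nO kmax : ℕ)
    (f₁ : E₁ → 𝒰 → (Fin n → ℝ) → ℝ) (f₂ : E₂ → 𝒰 → (Fin n → ℝ) → ℝ) (hfm₁ : ∀ e u, Measurable (f₁ e u)) (hfm₂ : ∀ e u, Measurable (f₂ e u))
    (hr : 0 < r) (hΔ : 0 < Δ) (hM₀ : M₀ = R₀ * Δ) (hR₀ : 1 < R₀) (hε : 0 < ε) (hd : 0 ≤ d) (hCc : 1 ≤ Cc) (hθ : 0 < θ) (hθ1 : θ ≤ 1) (hLm : 1 ≤ Lm)
    (hf₁ : ∀ e u, f₁ e u ∈ k4eSh n (u₀ u) r) (hf₂ : ∀ e u, f₂ e u ∈ k4eSh n (u₀ u) r) (cap φ : ℝ≥0∞) (hφ0 : φ ≠ 0) (hφ1 : φ ≠ ∞)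
    (hm₁ : ∀ e u, (μ.restrict (⋃ e₂, D e e₂ u)).map (bp u) ≤ cap • volume.restrict (Metric.closedBall (u₀ u) r))
    (hm₂ : ∀ e u, (μ.restrict (⋃ e₁, D e₁ e u)).map (bp u) ≤ cap • volume.restrict (Metric.closedBall (u₀ u) r))
    (ho₁ : ∀ e, (Finset.univ.filter fun u => ∃ e₂, (D e e₂ u).Nonempty).card ≤ nO)
    (ho₂ : ∀ e, (Finset.univ.filter fun u => ∃ e₁, (D e₁ e u).Nonempty).card ≤ nO)
    (hval : ∀ e₁ e₂ u, ∀ x ∈ D e₁ e₂ u, |f₁ e₁ u (bp u x) - f₂ e₂ u (bp u x)| ≤ Δ)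
    (hgm : ∀ (u : 𝒰) (e : E₁) (M : ℝ), M₀ ≤ M →
      μ {x | ∃ e₁ e₂, x ∈ D e₁ e₂ u ∧ |f₁ e₁ u (bp u x) - f₁ e u (bp u x)| ≤ Cc * M} ≤ φ * ENNReal.ofReal (Lm * (M / Δ) ^ d))
    (hR₁ : Cc * ((⌈2 * Cc⌉₊ : ℝ) + 2) ≤ R₀ ^ ε) (hR₂ : 4 * cap * ENNReal.ofReal ((2 * r) ^ n) ≤ ENNReal.ofReal (R₀ ^ ε) * φ) (hR₃ : 2 * Lm ≤ R₀ ^ ε)
    (hθ' : Cr * θ ^ (-Cr) * Δ ≤ 2 ^ kmax * M₀) :
    μ {x | ∃ e₁ e₂ u, x ∈ D e₁ e₂ u ∧ ¬ k4eClose (Metric.closedBall (u₀ u) r) (f₁ e₁ u) (f₂ e₂ u) M₀}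
      ≤ 2 * (((Fintype.card E₁ + Fintype.card E₂) * nO * kmax * (2 * ⌈2 * Cc⌉₊ + 3) ^ m : ℕ) : ℝ≥0∞) * φ
        + ((Fintype.card E₁ * nO * Fintype.card E₂ : ℕ) : ℝ≥0∞) * cap * ENNReal.ofReal (θ * (2 * r) ^ n) := by
  by_cases hne : Nonempty (E₁ × E₂ × 𝒰)
  swap
  · have e : {x | ∃ e₁ e₂ u, x ∈ D e₁ e₂ u ∧ ¬ k4eClose (Metric.closedBall (u₀ u) r) (f₁ e₁ u) (f₂ e₂ u) M₀} = ∅ := by
      ext x
      simp only [Set.mem_ofPred_eq, Set.mem_empty_iff_false, iff_false]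
      rintro ⟨e₁, e₂, u, -⟩
      exact hne ⟨(e₁, e₂, u)⟩
    rw [e, measure_empty]
    exact zero_le
  obtain ⟨lab, hlab, hlabm⟩ := k3e1_match_fam_lab (fun a : E₁ × E₂ × 𝒰 => D a.1 a.2.1 a.2.2) (fun a => hD _ _ _) hdisj
  obtain ⟨T, hTdef⟩ : ∃ T : Set X, T = ⋃ a : E₁ × E₂ × 𝒰, D a.1 a.2.1 a.2.2 := ⟨_, rfl⟩
  have hT : MeasurableSet T := by
    rw [hTdef]
    exact MeasurableSet.iUnion fun a => hD _ _ _
  have hmemT : ∀ e₁ e₂ u, ∀ x ∈ D e₁ e₂ u, x ∈ T := by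
    intro e₁ e₂ u x hx
    rw [hTdef]
    exact Set.mem_iUnion.2 ⟨(e₁, e₂, u), hx⟩
  have hTlab : ∀ x ∈ T, x ∈ D (lab x).1 (lab x).2.1 (lab x).2.2 := by
    intro x hx
    rw [hTdef] at hx
    obtain ⟨a, ha⟩ := Set.mem_iUnion.1 hx
    rw [hlab a x ha]
    exact ha
  have hlab' : ∀ e₁ e₂ u, ∀ x ∈ D e₁ e₂ u, lab x = (e₁, e₂, u) := fun e₁ e₂ u x hx => hlab (e₁, e₂, u) x hx
  have ha₁ : ∀ e, MeasurableSet ((fun x => (lab x).1) ⁻¹' {e}) := fun e => k3e1_match_fam_pre lab hlabm (fun a => a.1) {e}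
  have ha₂ : ∀ e, MeasurableSet ((fun x => (lab x).2.1) ⁻¹' {e}) := fun e => k3e1_match_fam_pre lab hlabm (fun a => a.2.1) {e}
  have hub : ∀ u, MeasurableSet ((fun x => (lab x).2.2) ⁻¹' {u}) := fun u => k3e1_match_fam_pre lab hlabm (fun a => a.2.2) {u}
  have hbp' : Measurable fun x => bp (lab x).2.2 x := by
    intro s hs
    have e : (fun x => bp (lab x).2.2 x) ⁻¹' s = ⋃ u, (fun x => (lab x).2.2) ⁻¹' {u} ∩ bp u ⁻¹' s := by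
      ext x
      simp
    rw [e]
    exact MeasurableSet.iUnion fun u => (hub u).inter (hbp u hs)
  have hS₁ : ∀ e u, ((fun x => (lab x).1) ⁻¹' {e} ∩ (fun x => (lab x).2.2) ⁻¹' {u}) ∩ T = ⋃ e₂, D e e₂ u := by
    intro e u
    ext x
    simp only [Set.mem_inter_iff, Set.mem_preimage, Set.mem_singleton_iff, Set.mem_iUnion]
    constructor
    · rintro ⟨⟨h1, h2⟩, h3⟩
      have := hTlab x h3
      rw [h1, h2] at this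
      exact ⟨_, this⟩
    · rintro ⟨e₂, hx⟩
      rw [hlab' e e₂ u x hx]
      exact ⟨⟨rfl, rfl⟩, hmemT _ _ _ x hx⟩
  have hS₂ : ∀ e u, ((fun x => (lab x).2.1) ⁻¹' {e} ∩ (fun x => (lab x).2.2) ⁻¹' {u}) ∩ T = ⋃ e₁, D e₁ e u := by
    intro e u
    ext x
    simp only [Set.mem_inter_iff, Set.mem_preimage, Set.mem_singleton_iff, Set.mem_iUnion]
    constructor
    · rintro ⟨⟨h1, h2⟩, h3⟩
      have := hTlab x h3
      rw [h1, h2] at this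
      exact ⟨_, this⟩
    · rintro ⟨e₁, hx⟩
      rw [hlab' e₁ e u x hx]
      exact ⟨⟨rfl, rfl⟩, hmemT _ _ _ x hx⟩
  have hmap : ∀ (A : Set X) (u : 𝒰), MeasurableSet A → (∀ x ∈ A, (lab x).2.2 = u) →
      (μ.restrict A).map (fun x => bp (lab x).2.2 x) = (μ.restrict A).map (bp u) := by
    intro A u hA hAu
    refine Measure.map_congr ?_
    rw [Filter.EventuallyEq, ae_restrict_iff' hA]
    exact Filter.Eventually.of_forall fun x hx => by rw [hAu x hx]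
  have key := k3e1_match hcode hrem hmatch (μ.restrict T) (fun x => (lab x).1) (fun x => (lab x).2.1) (fun x => (lab x).2.2) ha₁ ha₂ hub
    (fun x => bp (lab x).2.2 x) hbp' u₀ r Δ M₀ θ Lm nO kmax f₁ f₂ hfm₁ hfm₂ hr hΔ hM₀ hR₀ hε hd hCc hθ hθ1 hLm hf₁ hf₂ cap φ hφ0 hφ1
    (by
      intro e u
      rw [Measure.restrict_restrict ((ha₁ e).inter (hub u)), hS₁ e u,
        hmap _ u (MeasurableSet.iUnion fun e₂ => hD _ _ _) (by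
          intro x hx
          obtain ⟨e₂, hx⟩ := Set.mem_iUnion.1 hx
          rw [hlab' e e₂ u x hx])]
      exact hm₁ e u)
    (by
      intro e u
      rw [Measure.restrict_restrict ((ha₂ e).inter (hub u)), hS₂ e u,
        hmap _ u (MeasurableSet.iUnion fun e₁ => hD _ _ _) (by
          intro x hx
          obtain ⟨e₁, hx⟩ := Set.mem_iUnion.1 hx
          rw [hlab' e₁ e u x hx])]
      exact hm₂ e u)
    (by
      intro e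
      refine le_trans (Finset.card_le_card ?_) (ho₁ e)
      intro u hu
      rw [Finset.mem_filter] at hu ⊢
      refine ⟨hu.1, ?_⟩
      have h1 := hu.2
      rw [Measure.restrict_apply' hT, hS₁ e u] at h1
      obtain ⟨x, hx⟩ := nonempty_of_measure_ne_zero h1
      obtain ⟨e₂, hx⟩ := Set.mem_iUnion.1 hx
      exact ⟨e₂, x, hx⟩)
    (by
      intro e
      refine le_trans (Finset.card_le_card ?_) (ho₂ e)
      intro u hu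
      rw [Finset.mem_filter] at hu ⊢
      refine ⟨hu.1, ?_⟩
      have h1 := hu.2
      rw [Measure.restrict_apply' hT, hS₂ e u] at h1
      obtain ⟨x, hx⟩ := nonempty_of_measure_ne_zero h1
      obtain ⟨e₁, hx⟩ := Set.mem_iUnion.1 hx
      exact ⟨e₁, x, hx⟩)
    (by
      rw [ae_restrict_iff' hT]
      exact Filter.Eventually.of_forall fun x hx => hval _ _ _ x (hTlab x hx))
    (by
      intro u e M hM
      rw [Measure.restrict_apply' hT]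
      refine (measure_mono ?_).trans (hgm u e M hM)
      rintro x ⟨⟨h1, h2⟩, h3⟩
      have h4 := hTlab x h3
      have h1' : (lab x).2.2 = u := h1
      rw [h1'] at h4 h2
      exact ⟨_, _, h4, h2⟩)
    hR₁ hR₂ hR₃ hθ'
  refine le_trans ?_ key
  rw [Measure.restrict_apply' hT]
  refine measure_mono ?_
  rintro x ⟨e₁, e₂, u, hx, hc⟩
  refine ⟨?_, hmemT _ _ _ x hx⟩
  show ¬ k4eClose (Metric.closedBall (u₀ (lab x).2.2) r) (f₁ (lab x).1 (lab x).2.2) (f₂ (lab x).2.1 (lab x).2.2) M₀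
  rw [hlab' e₁ e₂ u x hx]
  exact hc

variable {v : KbVer} {P : KbPb v} {Y : KbSys P} {x : K3bNum} {S R : ℝ} {G : Finset ℝ} {nr : ℝ → ℝ} {n₁ : ℕ} {nrm : Y.C → KbB v} {p : K3e1Par}

/-! ## measurability of the source point, of the signs, of the match event      (LEAF L-252-S3e1-B2) -/

/-- (`k3e1_z_meas` composed with `z ↦ (z.2.1, kbY (co z.1) z.2.1)`, cf. `k2s_bs_meas`) -/
theorem k3e1_st_zs_meas (h : K3e1St P Y x S R G nr n₁ nrm p) (c : Y.C) : Measurable (k3e1Zs Y n₁ nrm p c) := by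
  have hP := h.hin.pwf
  have hy : Continuous fun q : KbTj v × ℝ => kbY q.1 q.2 := by
    unfold kbY
    fun_prop
  have hm : Measurable fun z : P.Lam × ℝ × ℝ => (P.co (Y.wd c) z.1, z.2.1) := ((hP.co_meas _).comp measurable_fst).prodMk measurable_snd.fst
  have h2 : Measurable fun z : P.Lam × ℝ × ℝ => (z.2.1, kbY (P.co (Y.wd c) z.1) z.2.1) := measurable_snd.fst.prodMk (hy.measurable.comp hm)
  exact (k3e1_z_meas (k3e1Fr n₁ p (k3e1Of Y n₁ nrm p c)) n₁ (k3e1Bk Y n₁ c)).comp h2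

/-- (cf. `k2s_hw_meas`) -/
theorem k3e1_st_om_meas (h : K3e1St P Y x S R G nr n₁ nrm p) (c : Y.C) : Measurable (k3e1Om0 Y c) := by
  have hP := h.hin.pwf
  have hc : Continuous fun q : KbTj v × ℝ => kbW q.1 q.2 := by
    unfold kbW
    refine continuous_finsetSum _ fun i _ => ?_
    have : Continuous fun q : KbTj v × ℝ => q.1.2.2 i := (continuous_apply i).comp (by fun_prop)
    exact this.mul (by fun_prop)
  have hm : Measurable fun z : P.Lam × ℝ × ℝ => (P.co (Y.wd c) z.1, z.2.1) := ((hP.co_meas _).comp measurable_fst).prodMk measurable_snd.fst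
  unfold k3e1Om0
  exact (hc.measurable.comp hm).const_mul _

/-- the derivative of an equation at the source point is a measurable function of the pair (`K3bEq.dwR` is a finite sum of products) -/
theorem k3e1_st_dw_meas (h : K3e1St P Y x S R G nr n₁ nrm p) (c : Y.C) (Pq : K3bEq (v.j + 1)) : Measurable fun z => Pq.dwR (k3e1Zs Y n₁ nrm p c z) (k3e1Om0 Y c z) := by
  have hz := k3e1_st_zs_meas h c
  have ho := k3e1_st_om_meas h c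
  unfold K3bEq.dwR
  exact (measurable_const.add (Finset.measurable_sum _ fun i _ => measurable_const.mul ((measurable_pi_apply i).comp hz))).add (measurable_const.mul ho)

/-- a preimage under a measurable map with countable range is measurable (`g ⁻¹' T = ⋃ t ∈ T ∩ range g, g ⁻¹' {t}`, `MeasurableSet.biUnion`) -/
theorem k3e1_meas_of_countable {α β : Type} [MeasurableSpace α] [MeasurableSpace β] [MeasurableSingletonClass β] (g : α → β) (hg : Measurable g) (hc : (Set.range g).Countable) (T : Set β) :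
    MeasurableSet (g ⁻¹' T) := by
  have e : g ⁻¹' T = ⋃ t ∈ T ∩ Set.range g, g ⁻¹' {t} := by
    ext a
    simp only [Set.mem_preimage, Set.mem_iUnion, Set.mem_singleton_iff, exists_prop]
    constructor
    · intro ha
      exact ⟨g a, ⟨ha, a, rfl⟩, rfl⟩
    · rintro ⟨t, ⟨ht, -⟩, rfl⟩
      exact ht
  rw [e]
  exact MeasurableSet.biUnion (hc.mono Set.inter_subset_right) fun t _ => hg (measurableSet_singleton t)

/-- **the match event is measurable**: it depends on `z` only through `g z = (k3bNet ρ (Zs z), k3bSg (..), k3bSg (..))`, which is measurable with countable range (`k3bNet ρ` takes values in `{fun i => ρ * k i | k : Fin n → ℤ}`; `k3bSg` in `{1,-1}`). -/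
theorem k3e1_st_Mt_meas (h : K3e1St P Y x S R G nr n₁ nrm p) (c c' : Y.C) : MeasurableSet (k3e1Mt Y n₁ nrm p c c') := by
  have hsg : Measurable k3bSg := by
    unfold k3bSg
    exact Measurable.ite measurableSet_Ici measurable_const measurable_const
  have hg : Measurable fun z : P.Lam × ℝ × ℝ => (k3bNet p.ρ (k3e1Zs Y n₁ nrm p c z),
      k3bSg ((k3e1Eq Y n₁ p c (k3e1Of Y n₁ nrm p c)).dwR (k3e1Zs Y n₁ nrm p c z) (k3e1Om0 Y c z)),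
      k3bSg ((k3e1Eq Y n₁ p c' (k3e1Of Y n₁ nrm p c)).dwR (k3e1Zs Y n₁ nrm p c z) (k3e1Om0 Y c z))) :=
    ((k3e1_net_meas p.ρ).comp (k3e1_st_zs_meas h c)).prodMk ((hsg.comp (k3e1_st_dw_meas h c _)).prodMk (hsg.comp (k3e1_st_dw_meas h c _)))
  have hsgm : ∀ y : ℝ, k3bSg y ∈ ({1, -1} : Set ℝ) := by
    intro y
    unfold k3bSg
    split_ifs
    · exact Or.inl rfl
    · exact Or.inr rfl
  have hfin : ({1, -1} : Set ℝ).Countable := (Set.toFinite _).countable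
  have hc : (Set.range fun z : P.Lam × ℝ × ℝ => (k3bNet p.ρ (k3e1Zs Y n₁ nrm p c z),
      k3bSg ((k3e1Eq Y n₁ p c (k3e1Of Y n₁ nrm p c)).dwR (k3e1Zs Y n₁ nrm p c z) (k3e1Om0 Y c z)),
      k3bSg ((k3e1Eq Y n₁ p c' (k3e1Of Y n₁ nrm p c)).dwR (k3e1Zs Y n₁ nrm p c z) (k3e1Om0 Y c z)))).Countable := by
    refine Set.Countable.mono ?_ ((Set.countable_range fun k : Fin (v.j + 1) → ℤ => fun i => p.ρ * ((k i : ℤ) : ℝ)).prod (hfin.prod hfin))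
    rintro _ ⟨z, rfl⟩
    refine ⟨⟨fun i => if 0 ≤ k3e1Zs Y n₁ nrm p c z i then ⌊k3e1Zs Y n₁ nrm p c z i / p.ρ⌋ else ⌈k3e1Zs Y n₁ nrm p c z i / p.ρ⌉, ?_⟩, hsgm _, hsgm _⟩
    funext i
    unfold k3bNet
    simp only
    split_ifs <;> rfl
  exact k3e1_meas_of_countable _ hg hc {q | ∀ y : Fin (v.j + 1) → ℝ, ‖y - q.1‖ ≤ p.r →
    |(⟨k3e1Eq Y n₁ p c (k3e1Of Y n₁ nrm p c), q.2.1⟩ : K3bSh (v.j + 1)).f y - (⟨k3e1Eq Y n₁ p c' (k3e1Of Y n₁ nrm p c), q.2.2⟩ : K3bSh (v.j + 1)).f y| ≤ p.M₀}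

/-! ## stability      (LEAF L-252-S3e1-B3) -/

/-- **LEAF B3.**  Both discriminants of a good pair are stable about the net point.   (`k3e1_stb` with `A = A₀`, `x = Zs`, `u = k3bNet ρ Zs`: `‖Zs‖ ≤ 1` (`k3e1_st_box`, `k3e1_prc_mem`, `k3e1_I_sub`, `k3e1_kbI_sub_Ic`), `‖u - Zs‖ ≤ ρ ≤ r` (`k3e1_net_near`),
`1/A₀ ≤ 1/(2 (K E)²) ≤ dsc` (`k3e1_st_pt`).) -/
theorem k3e1_st_stb (h : K3e1St P Y x S R G nr n₁ nrm p) (Θ A₀ : ℝ) (hthr : p.thr = 1 / (x.δ * Θ)) (hΘ : 16 * (68 * x.E ^ 2 * x.K) ^ 3 ≤ Θ)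
    (hbd : ∀ c c', (k3e1G0 Y n₁ nrm p x S R G nr c c').Nonempty → (k3e1Eq Y n₁ p c (k3e1Of Y n₁ nrm p c)).dsc.Bd A₀ ∧ (k3e1Eq Y n₁ p c' (k3e1Of Y n₁ nrm p c)).dsc.Bd A₀)
    (hA₀ : 2 * (x.K * x.E) ^ 2 ≤ A₀) (hρ : 0 < p.ρ) (hρr : p.ρ ≤ p.r) (hr : 64 * A₀ ^ 2 * p.r ≤ 1) (c c' : Y.C) (z : P.Lam × ℝ × ℝ) (hz : z ∈ k3e1G0 Y n₁ nrm p x S R G nr c c') :
    (k3e1Eq Y n₁ p c (k3e1Of Y n₁ nrm p c)).dsc.Stb (k3bNet p.ρ (k3e1Zs Y n₁ nrm p c z)) (4 * p.r) ∧ (k3e1Eq Y n₁ p c' (k3e1Of Y n₁ nrm p c)).dsc.Stb (k3bNet p.ρ (k3e1Zs Y n₁ nrm p c z)) (4 * p.r) ∧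
      ‖k3e1Zs Y n₁ nrm p c z‖ ≤ 1 ∧ ‖k3bNet p.ρ (k3e1Zs Y n₁ nrm p c z) - k3e1Zs Y n₁ nrm p c z‖ ≤ p.r := by
  obtain ⟨hadm, hzP, hz3⟩ := hz
  have hz1 : z ∈ k3e1X1 Y x S R G nr c c' := hz3.1.1
  obtain ⟨b1, b2⟩ := hbd c c' ⟨z, hadm, hzP, hz3⟩
  obtain ⟨hE1, -, -, -, -⟩ := k3e1_st_num h
  have hK := h.hK
  obtain ⟨m1, m2, -, -, -, -⟩ := k3e1_prc_mem Y h.hin.ywf hzP
  have hbox : ‖k3e1Zs Y n₁ nrm p c z‖ ≤ 1 := k3e1_st_box h c z.1 m1 z.2.1 (k3e1_kbI_sub_Ic Y n₁ c (k3e1_I_sub Y h.hn c m2))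
  have hnear : ‖k3bNet p.ρ (k3e1Zs Y n₁ nrm p c z) - k3e1Zs Y n₁ nrm p c z‖ ≤ p.r := (k3e1_net_near p.ρ hρ _).trans hρr
  obtain ⟨p1, p2⟩ := k3e1_st_pt h Θ hthr hΘ c c' hadm z hzP hz1
  have hKE : 0 < 2 * (x.K * x.E) ^ 2 := by positivity
  have hA0 : 0 < A₀ := lt_of_lt_of_le hKE hA₀
  have hlo : 1 / A₀ ≤ 1 / (2 * (x.K * x.E) ^ 2) := one_div_le_one_div_of_le hKE hA₀
  have hr0 : 0 < p.r := lt_of_lt_of_le hρ hρr
  exact ⟨(k3e1_stb _ A₀ p.r _ _ hA0 hr0 b1 hbox (hlo.trans p1.1) hnear hr).1, (k3e1_stb _ A₀ p.r _ _ hA0 hr0 b2 hbox (hlo.trans p2.1) hnear hr).1, hbox, hnear⟩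

/-! ## one world and block      (LEAF L-252-S3e1-B4, cut by helper233 into B4a .. B4h; `k3e1_st_match_blk` = glue, PROVED from them) -/

/-- the sign of a Boolean -/
def k3e1Sb (b : Bool) : ℝ := if b then 1 else -1

/-- colours: an old label of the block and a sign -/
abbrev K3e1Co (Y : KbSys P) (n₁ : ℕ) (γ : P.W) (i : ℕ) := {c : Y.C // c ∈ k3e1Lb Y n₁ γ i} × Bool

/-- balls: a used frame and a net point -/
abbrev K3e1Ba (Y : KbSys P) (n₁ : ℕ) (nrm : Y.C → KbB v) (p : K3e1Par) (Sn : Finset (Fin (v.j + 1) → ℝ)) :=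
  {φ : K3e1Ix P // φ ∈ k3e1Im Y n₁ nrm p} × {u : Fin (v.j + 1) → ℝ // u ∈ Sn}

/-- the cell of the partition: source label + sign, witness label + sign, frame + net point -/
def k3e1Dc (Y : KbSys P) (n₁ : ℕ) (nrm : Y.C → KbB v) (p : K3e1Par) (x : K3bNum) (S R : ℝ) (G : Finset ℝ) (nr : ℝ → ℝ) (γ : P.W) (i : ℕ) (Sn : Finset (Fin (v.j + 1) → ℝ))
    (a b : K3e1Co Y n₁ γ i) (w : K3e1Ba Y n₁ nrm p Sn) : Set (P.Lam × ℝ × ℝ) :=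
  {z | z ∈ k3e1G0 Y n₁ nrm p x S R G nr a.1.1 b.1.1 ∧ k3e1Of Y n₁ nrm p a.1.1 = w.1.1 ∧ k3bNet p.ρ (k3e1Zs Y n₁ nrm p a.1.1 z) = w.2.1 ∧
    k3bSg ((k3e1Eq Y n₁ p a.1.1 (k3e1Of Y n₁ nrm p a.1.1)).dwR (k3e1Zs Y n₁ nrm p a.1.1 z) (k3e1Om0 Y a.1.1 z)) = k3e1Sb a.2 ∧
    k3bSg ((k3e1Eq Y n₁ p b.1.1 (k3e1Of Y n₁ nrm p a.1.1)).dwR (k3e1Zs Y n₁ nrm p a.1.1 z) (k3e1Om0 Y a.1.1 z)) = k3e1Sb b.2}

/-- the base point map of a ball -/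
def k3e1Bp (Y : KbSys P) (n₁ : ℕ) (nrm : Y.C → KbB v) (p : K3e1Par) (γ : P.W) (i : ℕ) (Sn : Finset (Fin (v.j + 1) → ℝ)) (w : K3e1Ba Y n₁ nrm p Sn) (z : P.Lam × ℝ × ℝ) :
    Fin (v.j + 1) → ℝ := (k3e1Fr n₁ p w.1.1).zl n₁ i (P.co γ z.1) z.2.1

/-- the sheet of a colour over a ball (`0` if the discriminant is not stable there) -/
def k3e1Fn (Y : KbSys P) (n₁ : ℕ) (nrm : Y.C → KbB v) (p : K3e1Par) (γ : P.W) (i : ℕ) (Sn : Finset (Fin (v.j + 1) → ℝ)) (a : K3e1Co Y n₁ γ i) (w : K3e1Ba Y n₁ nrm p Sn) :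
    (Fin (v.j + 1) → ℝ) → ℝ :=
  if (k3e1Eq Y n₁ p a.1.1 w.1.1).dsc.Stb w.2.1 (4 * p.r) then (⟨k3e1Eq Y n₁ p a.1.1 w.1.1, k3e1Sb a.2⟩ : K3bSh (v.j + 1)).f else 0

theorem k3e1_mb_eqns_cite : True := by
  have := @k3e1Sb.eq_1; have := @k3e1Dc.eq_1; have := @k3e1Bp.eq_1; have := @k3e1Fn.eq_1
  trivial

/-- the pair law is finite (`ν_γ` probability, `tm` finite, finite factor) -/
theorem k3e1_law_fin (hP : P.WF) (n₁ : ℕ) (γ : P.W) : IsFiniteMeasure (k3e1Law P n₁ γ) := by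
  have := hP.prob γ
  have h1 : IsFiniteMeasure (KbPb.tm) := by
    unfold KbPb.tm
    infer_instance
  unfold k3e1Law
  exact Measure.smul_finite _ (ENNReal.mul_ne_top (ENNReal.pow_ne_top (by norm_num)) (ENNReal.pow_ne_top (by norm_num)))

theorem k3e1_mb_card (Y : KbSys P) (n₁ : ℕ) (γ : P.W) (i : ℕ) : Fintype.card (K3e1Co Y n₁ γ i) = 2 * (k3e1Lb Y n₁ γ i).card := by
  rw [Fintype.card_prod, Fintype.card_coe, Fintype.card_bool, mul_comm]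

theorem k3e1_mb_sb_inj {s t : Bool} (h : k3e1Sb s = k3e1Sb t) : s = t := by
  cases s <;> cases t <;> simp [k3e1Sb] at h ⊢ <;> norm_num at h

/-- **LEAF B4a** (~80 l.).  The cells are measurable (`k3e1_st_G0_meas`; the condition on `Of` does not depend on `z`; `k3e1_net_meas`, `k3e1_st_zs_meas`, `measurableSet_eq_fun` / preimage of a singleton; `k3bSg ∘ g` for measurable `g`: `Measurable.ite (measurableSet_le ..)`, `k3e1_st_dw_meas`). -/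
theorem k3e1_mb_D_meas (h : K3e1St P Y x S R G nr n₁ nrm p) (γ : P.W) (i : ℕ) (Sn : Finset (Fin (v.j + 1) → ℝ)) (a b : K3e1Co Y n₁ γ i) (w : K3e1Ba Y n₁ nrm p Sn) :
    MeasurableSet (k3e1Dc Y n₁ nrm p x S R G nr γ i Sn a b w) := by
  have hsg : Measurable k3bSg := by
    unfold k3bSg
    exact Measurable.ite measurableSet_Ici measurable_const measurable_const
  have e : k3e1Dc Y n₁ nrm p x S R G nr γ i Sn a b w = k3e1G0 Y n₁ nrm p x S R G nr a.1.1 b.1.1 ∩ ({_z | k3e1Of Y n₁ nrm p a.1.1 = w.1.1} ∩ ((fun z => k3bNet p.ρ (k3e1Zs Y n₁ nrm p a.1.1 z)) ⁻¹' {w.2.1} ∩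
      ((fun z => k3bSg ((k3e1Eq Y n₁ p a.1.1 (k3e1Of Y n₁ nrm p a.1.1)).dwR (k3e1Zs Y n₁ nrm p a.1.1 z) (k3e1Om0 Y a.1.1 z))) ⁻¹' {k3e1Sb a.2} ∩
        (fun z => k3bSg ((k3e1Eq Y n₁ p b.1.1 (k3e1Of Y n₁ nrm p a.1.1)).dwR (k3e1Zs Y n₁ nrm p a.1.1 z) (k3e1Om0 Y a.1.1 z))) ⁻¹' {k3e1Sb b.2}))) := by
    ext z
    simp only [k3e1Dc, Set.mem_ofPred_eq, Set.mem_inter_iff, Set.mem_preimage, Set.mem_singleton_iff]
  rw [e]
  exact (k3e1_st_G0_meas h _ _).inter ((MeasurableSet.const _).inter ((((k3e1_net_meas p.ρ).comp (k3e1_st_zs_meas h _)) (measurableSet_singleton _)).inter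
    (((hsg.comp (k3e1_st_dw_meas h _ _)) (measurableSet_singleton _)).inter ((hsg.comp (k3e1_st_dw_meas h _ _)) (measurableSet_singleton _)))))

/-- **LEAF B4a** (~80 l.).  The cells are pairwise disjoint: a common point `z` lies in `PrC c c'` and `PrC e e'` with all four labels in the world `γ`, so `(c,c') = (e,e')` (`k3e1_prc_disj`); then the frame, the net point and the two signs are functions of `z`
(`k3e1Sb` is injective; `Subtype.ext`, `Prod.ext`). -/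
theorem k3e1_mb_D_disj (h : K3e1St P Y x S R G nr n₁ nrm p) (γ : P.W) (i : ℕ) (Sn : Finset (Fin (v.j + 1) → ℝ))
    (s t : K3e1Co Y n₁ γ i × K3e1Co Y n₁ γ i × K3e1Ba Y n₁ nrm p Sn) (hst : s ≠ t) :
    Disjoint (k3e1Dc Y n₁ nrm p x S R G nr γ i Sn s.1 s.2.1 s.2.2) (k3e1Dc Y n₁ nrm p x S R G nr γ i Sn t.1 t.2.1 t.2.2) := by
  rw [Set.disjoint_left]
  rintro z ⟨⟨-, a1, -⟩, a2, a3, a4, a5⟩ ⟨⟨-, b1, -⟩, b2, b3, b4, b5⟩
  have w1 := (Finset.mem_filter.1 s.1.1.2).2.1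
  have w2 := (Finset.mem_filter.1 s.2.1.1.2).2.1
  have w3 := (Finset.mem_filter.1 t.1.1.2).2.1
  have w4 := (Finset.mem_filter.1 t.2.1.1.2).2.1
  have hcc : (s.1.1.1, s.2.1.1.1) = (t.1.1.1, t.2.1.1.1) := by
    by_contra hcon
    exact Set.disjoint_left.1 (k3e1_prc_disj Y h.hin.ywf (w1.trans w3.symm) (w2.trans w4.symm) hcon) a1 b1
  obtain ⟨e1, e2⟩ := Prod.mk.inj hcc
  rw [← e1] at b2 b3 b4 b5
  rw [← e2] at b5
  apply hst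
  refine Prod.ext (Prod.ext (Subtype.ext e1) (k3e1_mb_sb_inj (a4.symm.trans b4))) (Prod.ext (Prod.ext (Subtype.ext e2) (k3e1_mb_sb_inj (a5.symm.trans b5))) (Prod.ext (Subtype.ext (a2.symm.trans b2)) (Subtype.ext (a3.symm.trans b3))))

/-- **LEAF B4b** (~60 l. with the next two).  (`k3e1_z_meas` composed with `z ↦ (z.2.1, kbY (co γ z.1) z.2.1)`; as `k3e1_st_zs_meas`.) -/
theorem k3e1_mb_bp_meas (h : K3e1St P Y x S R G nr n₁ nrm p) (γ : P.W) (i : ℕ) (Sn : Finset (Fin (v.j + 1) → ℝ)) (w : K3e1Ba Y n₁ nrm p Sn) :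
    Measurable (k3e1Bp Y n₁ nrm p γ i Sn w) := by
  have hP := h.hin.pwf
  have hy : Continuous fun q : KbTj v × ℝ => kbY q.1 q.2 := by
    unfold kbY
    fun_prop
  have hm : Measurable fun z : P.Lam × ℝ × ℝ => (P.co γ z.1, z.2.1) := ((hP.co_meas _).comp measurable_fst).prodMk measurable_snd.fst
  have h2 : Measurable fun z : P.Lam × ℝ × ℝ => (z.2.1, kbY (P.co γ z.1) z.2.1) := measurable_snd.fst.prodMk (hy.measurable.comp hm)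
  exact (k3e1_z_meas (k3e1Fr n₁ p w.1.1) n₁ i).comp h2

/-- (`split_ifs`; `k3e1_sh_meas`, `measurable_const`) -/
theorem k3e1_mb_fn_meas (Y : KbSys P) (n₁ : ℕ) (nrm : Y.C → KbB v) (p : K3e1Par) (γ : P.W) (i : ℕ) (Sn : Finset (Fin (v.j + 1) → ℝ)) (a : K3e1Co Y n₁ γ i) (w : K3e1Ba Y n₁ nrm p Sn) :
    Measurable (k3e1Fn Y n₁ nrm p γ i Sn a w) := by
  unfold k3e1Fn
  split_ifs
  · exact k3e1_sh_meas _
  · exact measurable_const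

/-- (`split_ifs`; `k3e1_sh_mem` with `s = ±1`; `0` is the polynomial `0`: `Or.inl ⟨0, by simp, by simp⟩`) -/
theorem k3e1_mb_fn_sh (Y : KbSys P) (n₁ : ℕ) (nrm : Y.C → KbB v) (p : K3e1Par) (hr : 0 < p.r) (γ : P.W) (i : ℕ) (Sn : Finset (Fin (v.j + 1) → ℝ)) (a : K3e1Co Y n₁ γ i)
    (w : K3e1Ba Y n₁ nrm p Sn) : k3e1Fn Y n₁ nrm p γ i Sn a w ∈ k4eSh (v.j + 1) w.2.1 p.r := by
  unfold k3e1Fn
  split_ifs with hs
  · refine k3e1_sh_mem _ ?_ _ _ hr hs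
    show k3e1Sb a.2 = 1 ∨ k3e1Sb a.2 = -1
    unfold k3e1Sb
    split_ifs
    · exact Or.inl rfl
    · exact Or.inr rfl
  · exact Or.inl ⟨0, by simp, fun u => by simp⟩

/-- **LEAF B4c** (~120 l.).  **The dictionary on a cell.**   `c = a.1.1`, `c' = b.1.1`.   `a.1.2` : `Y.wd c = γ`, `k3e1Bk Y n₁ c = i` (`Finset.mem_filter`); `Of c = w.1.1`: so `Bp w z = Zs c z` (unfold `k3e1Zs`, `k3e1Z0`; rewrite).
`k3e1_st_stb` at `z ∈ G0 c c'` : both discriminants are stable about `k3bNet ρ (Zs c z) = w.2.1`, so both `if`s are true and the sheets are `k3e1Sh c c z`, `k3e1Sh c c' z` (the signs by the last two clauses of the cell). -/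
theorem k3e1_mb_on (h : K3e1St P Y x S R G nr n₁ nrm p) (Θ A₀ : ℝ) (hthr : p.thr = 1 / (x.δ * Θ)) (hΘ : 16 * (68 * x.E ^ 2 * x.K) ^ 3 ≤ Θ)
    (hbd : ∀ c c', (k3e1G0 Y n₁ nrm p x S R G nr c c').Nonempty → (k3e1Eq Y n₁ p c (k3e1Of Y n₁ nrm p c)).dsc.Bd A₀ ∧ (k3e1Eq Y n₁ p c' (k3e1Of Y n₁ nrm p c)).dsc.Bd A₀)
    (hA₀ : 2 * (x.K * x.E) ^ 2 ≤ A₀) (hρ : 0 < p.ρ) (hρr : p.ρ ≤ p.r) (hr : 64 * A₀ ^ 2 * p.r ≤ 1)
    (γ : P.W) (i : ℕ) (Sn : Finset (Fin (v.j + 1) → ℝ)) (a b : K3e1Co Y n₁ γ i) (w : K3e1Ba Y n₁ nrm p Sn) (z : P.Lam × ℝ × ℝ) (hz : z ∈ k3e1Dc Y n₁ nrm p x S R G nr γ i Sn a b w) :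
    Y.wd a.1.1 = γ ∧ k3e1Bp Y n₁ nrm p γ i Sn w z = k3e1Zs Y n₁ nrm p a.1.1 z ∧ k3e1Fn Y n₁ nrm p γ i Sn a w = (k3e1Sh Y n₁ nrm p a.1.1 a.1.1 z).f ∧
      k3e1Fn Y n₁ nrm p γ i Sn b w = (k3e1Sh Y n₁ nrm p a.1.1 b.1.1 z).f ∧ ‖w.2.1 - k3e1Zs Y n₁ nrm p a.1.1 z‖ ≤ p.r := by
  obtain ⟨hG, hOf, hnet, hs1, hs2⟩ := hz
  have ha := (Finset.mem_filter.1 a.1.2).2
  obtain ⟨st1, st2, -, hn⟩ := k3e1_st_stb h Θ A₀ hthr hΘ hbd hA₀ hρ hρr hr a.1.1 b.1.1 z hG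
  rw [hnet] at st1 st2 hn
  rw [hOf] at st1 st2
  have e1 : k3e1Sh Y n₁ nrm p a.1.1 a.1.1 z = ⟨k3e1Eq Y n₁ p a.1.1 w.1.1, k3e1Sb a.2⟩ := by
    unfold k3e1Sh
    rw [hs1, hOf]
  have e2 : k3e1Sh Y n₁ nrm p a.1.1 b.1.1 z = ⟨k3e1Eq Y n₁ p b.1.1 w.1.1, k3e1Sb b.2⟩ := by
    unfold k3e1Sh
    rw [hs2, hOf]
  refine ⟨ha.1, ?_, ?_, ?_, hn⟩
  · show (k3e1Fr n₁ p w.1.1).zl n₁ i (P.co γ z.1) z.2.1 = (k3e1Fr n₁ p (k3e1Of Y n₁ nrm p a.1.1)).zl n₁ (k3e1Bk Y n₁ a.1.1) (P.co (Y.wd a.1.1) z.1) z.2.1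
    rw [hOf, ha.1, ha.2]
  · unfold k3e1Fn
    rw [if_pos st1, e1]
  · unfold k3e1Fn
    rw [if_pos st2, e2]

/-- **LEAF B4d** (~150 l.).  **Density of a source entry over a ball.**   `Measure.le_iff`; `Measure.map_apply (k3e1_mb_bp_meas ..) hO`, `Measure.restrict_apply`, `Measure.smul_apply`;  on the cells `Bp w z = Zs c z ∈ closedBall w.2.1 r` (`k3e1_mb_on`; `mem_closedBall`, `dist_eq_norm`, `norm_sub_rev`),
`G0 ⊆ Adm ∧ PrC ∧ X1` (unfold `k3e1X3`, `k3e1X2`);  rewrite `γ = Y.wd c`;  `k3e1_st_dens1` for `O ∩ closedBall w.2.1 r`;  `8 (1 + K²) ≤ 8 (1 + 68 E³ K²)` (`1 ≤ E`, `1 ≤ K`), the other factors are `≥ 0` (`h.hin.nL_pos`, `k3e1_st_num`, `k3e1_st_gs`, `h.Λ_def`). -/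
theorem k3e1_mb_m1 (h : K3e1St P Y x S R G nr n₁ nrm p) (Θ A₀ cap : ℝ) (hthr : p.thr = 1 / (x.δ * Θ)) (hΘ : 16 * (68 * x.E ^ 2 * x.K) ^ 3 ≤ Θ)
    (hbd : ∀ c c', (k3e1G0 Y n₁ nrm p x S R G nr c c').Nonempty → (k3e1Eq Y n₁ p c (k3e1Of Y n₁ nrm p c)).dsc.Bd A₀ ∧ (k3e1Eq Y n₁ p c' (k3e1Of Y n₁ nrm p c)).dsc.Bd A₀)
    (hA₀ : 2 * (x.K * x.E) ^ 2 ≤ A₀) (hρ : 0 < p.ρ) (hρr : p.ρ ≤ p.r) (hr : 64 * A₀ ^ 2 * p.r ≤ 1)
    (hcap : cap = 8 * (1 + 68 * x.E ^ 3 * x.K ^ 2) * (x.E * x.nL) * ((p.Λ * kbQ n₁) ^ v.j * p.gs))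
    (γ : P.W) (i : ℕ) (Sn : Finset (Fin (v.j + 1) → ℝ)) (a : K3e1Co Y n₁ γ i) (w : K3e1Ba Y n₁ nrm p Sn) :
    ((k3e1Law P n₁ γ).restrict (⋃ b, k3e1Dc Y n₁ nrm p x S R G nr γ i Sn a b w)).map (k3e1Bp Y n₁ nrm p γ i Sn w)
      ≤ ENNReal.ofReal cap • volume.restrict (Metric.closedBall w.2.1 p.r) := by
  refine Measure.le_iff.2 fun O hO => ?_
  rw [Measure.map_apply (k3e1_mb_bp_meas h γ i Sn w) hO, Measure.restrict_apply ((k3e1_mb_bp_meas h γ i Sn w) hO), Measure.smul_apply, smul_eq_mul,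
    Measure.restrict_apply hO]
  have ha := (Finset.mem_filter.1 a.1.2).2
  have key := k3e1_st_dens1 h a.1.1 (O ∩ Metric.closedBall w.2.1 p.r) (hO.inter Metric.isClosed_closedBall.measurableSet)
  rw [ha.1] at key
  obtain ⟨hE1, hq1, hq0, hq1pos, -⟩ := k3e1_st_num h
  obtain ⟨hgs0, -, -, -, -⟩ := k3e1_st_gs h
  have hK := h.hK
  have hnL := h.hin.nL_pos
  have hΛ0 : 0 < p.Λ := by rw [h.Λ_def]; positivity
  have hle : 8 * (1 + x.K ^ 2) * (x.E * x.nL) * ((p.Λ * kbQ n₁) ^ v.j * p.gs) ≤ cap := by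
    rw [hcap]
    have h1 : x.K ^ 2 ≤ 68 * x.E ^ 3 * x.K ^ 2 := by
      have : 1 ≤ x.E ^ 3 := one_le_pow₀ hE1
      have : 0 ≤ x.K ^ 2 := by positivity
      nlinarith
    have hE0 : 0 < x.E := by linarith
    gcongr
  refine le_trans ((measure_mono ?_).trans key) (by gcongr)
  rintro z ⟨hzO, hzU⟩
  obtain ⟨b, hzb⟩ := Set.mem_iUnion.1 hzU
  obtain ⟨-, hBp, -, -, hn⟩ := k3e1_mb_on h Θ A₀ hthr hΘ hbd hA₀ hρ hρr hr γ i Sn a b w z hzb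
  have hG := hzb.1
  refine ⟨⟨b.1.1, hG.1, hG.2.1, hG.2.2.1.1⟩, ?_⟩
  rw [← hBp]
  refine ⟨hzO, ?_⟩
  rw [Metric.mem_closedBall, dist_eq_norm, hBp, norm_sub_rev]
  exact hn

/-- **LEAF B4e** (~150 l.).  **Density of a witness entry over a ball.**   As `k3e1_mb_m1` with `k3e1_st_dens2 h c' c₀`: if the union is empty the left side is `0`; otherwise fix a point of some cell `D a₀ b w` and put `c₀ = a₀.1.1` (`Of c₀ = w.1.1`);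
for every `a` with a point `z` in `D a b w`: `Of a.1.1 = w.1.1 = Of c₀`, and `Bp w z = Zs c₀ z` (world, block and frame of `c₀` are `γ, i, w.1.1`: same unfolding as in `k3e1_mb_on`);  `Y.wd c' = γ` by `b.1.2`. -/
theorem k3e1_mb_m2 (h : K3e1St P Y x S R G nr n₁ nrm p) (Θ A₀ cap : ℝ) (hthr : p.thr = 1 / (x.δ * Θ)) (hΘ : 16 * (68 * x.E ^ 2 * x.K) ^ 3 ≤ Θ)
    (hbd : ∀ c c', (k3e1G0 Y n₁ nrm p x S R G nr c c').Nonempty → (k3e1Eq Y n₁ p c (k3e1Of Y n₁ nrm p c)).dsc.Bd A₀ ∧ (k3e1Eq Y n₁ p c' (k3e1Of Y n₁ nrm p c)).dsc.Bd A₀)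
    (hA₀ : 2 * (x.K * x.E) ^ 2 ≤ A₀) (hρ : 0 < p.ρ) (hρr : p.ρ ≤ p.r) (hr : 64 * A₀ ^ 2 * p.r ≤ 1)
    (hcap : cap = 8 * (1 + 68 * x.E ^ 3 * x.K ^ 2) * (x.E * x.nL) * ((p.Λ * kbQ n₁) ^ v.j * p.gs))
    (γ : P.W) (i : ℕ) (Sn : Finset (Fin (v.j + 1) → ℝ)) (b : K3e1Co Y n₁ γ i) (w : K3e1Ba Y n₁ nrm p Sn) :
    ((k3e1Law P n₁ γ).restrict (⋃ a, k3e1Dc Y n₁ nrm p x S R G nr γ i Sn a b w)).map (k3e1Bp Y n₁ nrm p γ i Sn w)
      ≤ ENNReal.ofReal cap • volume.restrict (Metric.closedBall w.2.1 p.r) := by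
  refine Measure.le_iff.2 fun O hO => ?_
  rw [Measure.map_apply (k3e1_mb_bp_meas h γ i Sn w) hO, Measure.restrict_apply ((k3e1_mb_bp_meas h γ i Sn w) hO), Measure.smul_apply, smul_eq_mul,
    Measure.restrict_apply hO]
  by_cases hne : (⋃ a, k3e1Dc Y n₁ nrm p x S R G nr γ i Sn a b w).Nonempty
  · obtain ⟨z₀, hz₀⟩ := hne
    obtain ⟨a₀, hz₀⟩ := Set.mem_iUnion.1 hz₀
    have hb := (Finset.mem_filter.1 b.1.2).2
    have ha₀ := (Finset.mem_filter.1 a₀.1.2).2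
    have hOf₀ : k3e1Of Y n₁ nrm p a₀.1.1 = w.1.1 := hz₀.2.1
    have key := k3e1_st_dens2 h b.1.1 a₀.1.1 (O ∩ Metric.closedBall w.2.1 p.r) (hO.inter Metric.isClosed_closedBall.measurableSet)
    rw [hb.1] at key
    rw [hcap]
    refine (measure_mono ?_).trans key
    rintro z ⟨hzO, hzU⟩
    obtain ⟨a, hza⟩ := Set.mem_iUnion.1 hzU
    obtain ⟨-, hBp, -, -, hn⟩ := k3e1_mb_on h Θ A₀ hthr hΘ hbd hA₀ hρ hρr hr γ i Sn a b w z hza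
    have hG := hza.1
    have hZ : k3e1Zs Y n₁ nrm p a₀.1.1 z = k3e1Bp Y n₁ nrm p γ i Sn w z := by
      show (k3e1Fr n₁ p (k3e1Of Y n₁ nrm p a₀.1.1)).zl n₁ (k3e1Bk Y n₁ a₀.1.1) (P.co (Y.wd a₀.1.1) z.1) z.2.1 = (k3e1Fr n₁ p w.1.1).zl n₁ i (P.co γ z.1) z.2.1
      rw [hOf₀, ha₀.1, ha₀.2]
    refine ⟨⟨a.1.1, hza.2.1.trans hOf₀.symm, hG.1, hG.2.1, hG.2.2.1.1⟩, ?_⟩
    rw [hZ]
    refine ⟨hzO, ?_⟩
    rw [Metric.mem_closedBall, dist_eq_norm, hBp, norm_sub_rev]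
    exact hn
  · rw [Set.not_nonempty_iff_eq_empty] at hne
    rw [hne, Set.inter_empty, measure_empty]
    exact zero_le

/-- **LEAF B4f** (~150 l. with the next one).  **Overlap of a source colour**: the frame is `Of c`, so the balls inject into `Sn` (`Finset.card_le_card_of_injOn (fun w => w.2)`, `Fintype.card_coe`);  `card Sn ≤ (2/ρ + 3)^(j+1) ≤ nO` (`1 ≤ 14 (2 ρL + 1)³`; `Nat.cast_le`). -/
theorem k3e1_mb_o1 (Y : KbSys P) (n₁ : ℕ) (nrm : Y.C → KbB v) (p : K3e1Par) (x : K3bNum) (S R : ℝ) (G : Finset ℝ) (nr : ℝ → ℝ) (hρ : 0 < p.ρ) (nO : ℕ)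
    (hnO : 14 * (2 * (p.ρL : ℝ) + 1) ^ 3 * (2 / p.ρ + 3) ^ (v.j + 1) ≤ nO) (γ : P.W) (i : ℕ)
    (Sn : Finset (Fin (v.j + 1) → ℝ)) (hSn : (Sn.card : ℝ) ≤ (2 / p.ρ + 3) ^ (v.j + 1)) (a : K3e1Co Y n₁ γ i) :
    (Finset.univ.filter fun w : K3e1Ba Y n₁ nrm p Sn => ∃ b, (k3e1Dc Y n₁ nrm p x S R G nr γ i Sn a b w).Nonempty).card ≤ nO := by
  have hinj : (Finset.univ.filter fun w : K3e1Ba Y n₁ nrm p Sn => ∃ b, (k3e1Dc Y n₁ nrm p x S R G nr γ i Sn a b w).Nonempty).card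
      ≤ (Finset.univ : Finset {u : Fin (v.j + 1) → ℝ // u ∈ Sn}).card := by
    refine Finset.card_le_card_of_injOn (fun w => w.2) (fun w _ => Finset.mem_univ _) ?_
    intro w hw w' hw' hww
    have hw1 := (Finset.mem_filter.1 (Finset.mem_coe.1 hw)).2
    have hw2 := (Finset.mem_filter.1 (Finset.mem_coe.1 hw')).2
    obtain ⟨b, z, hz⟩ := hw1
    obtain ⟨b', z', hz'⟩ := hw2
    have e1 : k3e1Of Y n₁ nrm p a.1.1 = w.1.1 := hz.2.1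
    have e2 : k3e1Of Y n₁ nrm p a.1.1 = w'.1.1 := hz'.2.1
    exact Prod.ext (Subtype.ext (e1.symm.trans e2)) hww
  rw [Finset.card_univ, Fintype.card_coe] at hinj
  have hX : 0 ≤ (2 / p.ρ + 3) ^ (v.j + 1) := by positivity
  have h14 : (1 : ℝ) ≤ 14 * (2 * (p.ρL : ℝ) + 1) ^ 3 := by
    have h0 : (0 : ℝ) ≤ (p.ρL : ℝ) := Nat.cast_nonneg _
    have h1 : (1 : ℝ) ≤ (2 * (p.ρL : ℝ) + 1) ^ 3 := one_le_pow₀ (by linarith)
    linarith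
  have h2 : (Sn.card : ℝ) ≤ nO := by
    calc (Sn.card : ℝ) ≤ (2 / p.ρ + 3) ^ (v.j + 1) := hSn
      _ = 1 * (2 / p.ρ + 3) ^ (v.j + 1) := (one_mul _).symm
      _ ≤ 14 * (2 * (p.ρL : ℝ) + 1) ^ 3 * (2 / p.ρ + 3) ^ (v.j + 1) := mul_le_mul_of_nonneg_right h14 hX
      _ ≤ nO := hnO
  exact hinj.trans (by exact_mod_cast h2)

/-- **Overlap of a witness colour**: `w.1.1 = Of c ∈ k3e1Cp c'` (`k3e1_st_list`: `G0` gives `Adm`, a point of `PrC`, and `¬ Tr` from `X2`), so the balls inject into `k3e1Cp c' ×ˢ Sn` (`Finset.card_product`, `k3e1_st_cp_card`). -/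
theorem k3e1_mb_o2 (h : K3e1St P Y x S R G nr n₁ nrm p) (hρ : 0 < p.ρ) (nO : ℕ) (hnO : 14 * (2 * (p.ρL : ℝ) + 1) ^ 3 * (2 / p.ρ + 3) ^ (v.j + 1) ≤ nO) (γ : P.W) (i : ℕ)
    (Sn : Finset (Fin (v.j + 1) → ℝ)) (hSn : (Sn.card : ℝ) ≤ (2 / p.ρ + 3) ^ (v.j + 1)) (b : K3e1Co Y n₁ γ i) :
    (Finset.univ.filter fun w : K3e1Ba Y n₁ nrm p Sn => ∃ a, (k3e1Dc Y n₁ nrm p x S R G nr γ i Sn a b w).Nonempty).card ≤ nO := by
  have hinj : (Finset.univ.filter fun w : K3e1Ba Y n₁ nrm p Sn => ∃ a, (k3e1Dc Y n₁ nrm p x S R G nr γ i Sn a b w).Nonempty).card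
      ≤ (k3e1Cp Y n₁ nrm p b.1.1 ×ˢ Sn).card := by
    refine Finset.card_le_card_of_injOn (fun w => (w.1.1, w.2.1)) ?_ ?_
    · intro w hw
      obtain ⟨a, z, hz⟩ := (Finset.mem_filter.1 (Finset.mem_coe.1 hw)).2
      have hG : z ∈ k3e1G0 Y n₁ nrm p x S R G nr a.1.1 b.1.1 := hz.1
      have e1 : k3e1Of Y n₁ nrm p a.1.1 = w.1.1 := hz.2.1
      have hl := k3e1_st_list h a.1.1 b.1.1 hG.1 ⟨z, hG.2.1⟩ hG.2.2.1.2
      rw [e1] at hl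
      exact Finset.mem_coe.2 (Finset.mem_product.2 ⟨hl, w.2.2⟩)
    · intro w _ w' _ hww
      have h1 : w.1.1 = w'.1.1 := congrArg Prod.fst hww
      have h2 : w.2.1 = w'.2.1 := congrArg Prod.snd hww
      exact Prod.ext (Subtype.ext h1) (Subtype.ext h2)
  rw [Finset.card_product] at hinj
  have hX : 0 ≤ (2 / p.ρ + 3) ^ (v.j + 1) := by positivity
  have h2 : (((k3e1Cp Y n₁ nrm p b.1.1).card * Sn.card : ℕ) : ℝ) ≤ nO := by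
    push_cast
    calc ((k3e1Cp Y n₁ nrm p b.1.1).card : ℝ) * (Sn.card : ℝ)
        ≤ 14 * (2 * (p.ρL : ℝ) + 1) ^ 3 * (2 / p.ρ + 3) ^ (v.j + 1) :=
          mul_le_mul (k3e1_st_cp_card Y n₁ nrm p b.1.1) hSn (Nat.cast_nonneg _) (by positivity)
      _ ≤ nO := hnO
  exact hinj.trans (by exact_mod_cast h2)

/-- **LEAF B4g** (~60 l.).  **The two sheets at the source point.**   `k3e1_mb_on`, `k3e1_st_pt` (third clauses: both sheets are within `Δ/2 = 6 E K Θ δ` of `Om0` at `Zs`), triangle inequality. -/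
theorem k3e1_mb_val (h : K3e1St P Y x S R G nr n₁ nrm p) (Θ A₀ Δ : ℝ) (hthr : p.thr = 1 / (x.δ * Θ)) (hΘ : 16 * (68 * x.E ^ 2 * x.K) ^ 3 ≤ Θ)
    (hbd : ∀ c c', (k3e1G0 Y n₁ nrm p x S R G nr c c').Nonempty → (k3e1Eq Y n₁ p c (k3e1Of Y n₁ nrm p c)).dsc.Bd A₀ ∧ (k3e1Eq Y n₁ p c' (k3e1Of Y n₁ nrm p c)).dsc.Bd A₀)
    (hA₀ : 2 * (x.K * x.E) ^ 2 ≤ A₀) (hρ : 0 < p.ρ) (hρr : p.ρ ≤ p.r) (hr : 64 * A₀ ^ 2 * p.r ≤ 1) (hΔ : Δ = 12 * x.E * x.K * Θ * x.δ)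
    (γ : P.W) (i : ℕ) (Sn : Finset (Fin (v.j + 1) → ℝ)) (a b : K3e1Co Y n₁ γ i) (w : K3e1Ba Y n₁ nrm p Sn) (z : P.Lam × ℝ × ℝ) (hz : z ∈ k3e1Dc Y n₁ nrm p x S R G nr γ i Sn a b w) :
    |k3e1Fn Y n₁ nrm p γ i Sn a w (k3e1Bp Y n₁ nrm p γ i Sn w z) - k3e1Fn Y n₁ nrm p γ i Sn b w (k3e1Bp Y n₁ nrm p γ i Sn w z)| ≤ Δ ∧
      |k3e1Om0 Y a.1.1 z - k3e1Fn Y n₁ nrm p γ i Sn a w (k3e1Bp Y n₁ nrm p γ i Sn w z)| ≤ Δ / 2 := by
  obtain ⟨-, hbp, f1, f2, -⟩ := k3e1_mb_on h Θ A₀ hthr hΘ hbd hA₀ hρ hρr hr γ i Sn a b w z hz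
  obtain ⟨hadm, hP, hX3⟩ := hz.1
  obtain ⟨⟨-, -, p1⟩, ⟨-, -, p2⟩⟩ := k3e1_st_pt h Θ hthr hΘ a.1.1 b.1.1 hadm z hP hX3.1.1
  rw [hbp, f1, f2]
  have e : Δ / 2 = 6 * x.E * x.K * Θ * x.δ := by rw [hΔ]; ring
  rw [e]
  refine ⟨?_, p1⟩
  have h4 : (k3e1Sh Y n₁ nrm p a.1.1 a.1.1 z).f (k3e1Zs Y n₁ nrm p a.1.1 z) - (k3e1Sh Y n₁ nrm p a.1.1 b.1.1 z).f (k3e1Zs Y n₁ nrm p a.1.1 z) =
      (k3e1Om0 Y a.1.1 z - (k3e1Sh Y n₁ nrm p a.1.1 b.1.1 z).f (k3e1Zs Y n₁ nrm p a.1.1 z)) - (k3e1Om0 Y a.1.1 z - (k3e1Sh Y n₁ nrm p a.1.1 a.1.1 z).f (k3e1Zs Y n₁ nrm p a.1.1 z)) := by ring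
  rw [h4]
  refine (abs_sub _ _).trans ?_
  rw [hΔ]
  linarith

/-- **LEAF B4h** (~200 l.).  **The group mass.**   If the set is empty: trivial.   Otherwise fix `z₀ ∈ D a₀ b₀ w`, `c₀ = a₀.1.1` (`Of c₀ = w.1.1`, world `γ`, block `i`).   On the event (`z ∈ D a b w`): `Of a.1.1 = Of c₀`, `Zs c₀ z = Bp w z`, `Om0 c₀ z = Om0 a.1.1 z` (both worlds are `γ`),
`|Om0 - f_e (Bp w z)| ≤ Δ/2 + Cc M ≤ 2 Cc M` (`k3e1_mb_val`; `Δ ≤ M₀ ≤ M` as `R₀ > 1`, `1 ≤ Cc`), `Bp w z ∈ closedBall w.2.1 r`.   `k3e1_st_band h c₀ (f := Fn e w) (M := M) (Cb := 2 Cc) (O := closedBall w.2.1 r)` (`δ ≤ Δ ≤ M`: `12 E K Θ ≥ 1`);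
`volume (closedBall u r) = ofReal ((2 r)^(j+1))` (`Real.volume_pi_closedBall`, `Fintype.card_fin`);  `(M/δ)^d = (M/Δ)^d (Δ/δ)^d` (`Real.mul_rpow`, `div_mul_div_cancel`);  `hLm'`. -/
theorem k3e1_mb_gm (h : K3e1St P Y x S R G nr n₁ nrm p) (Θ A₀ Δ Cc R₀ Lm φm : ℝ) (hthr : p.thr = 1 / (x.δ * Θ)) (hΘ : 16 * (68 * x.E ^ 2 * x.K) ^ 3 ≤ Θ)
    (hbd : ∀ c c', (k3e1G0 Y n₁ nrm p x S R G nr c c').Nonempty → (k3e1Eq Y n₁ p c (k3e1Of Y n₁ nrm p c)).dsc.Bd A₀ ∧ (k3e1Eq Y n₁ p c' (k3e1Of Y n₁ nrm p c)).dsc.Bd A₀)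
    (hA₀ : 2 * (x.K * x.E) ^ 2 ≤ A₀) (hρ : 0 < p.ρ) (hρr : p.ρ ≤ p.r) (hr : 64 * A₀ ^ 2 * p.r ≤ 1) (hΔ : Δ = 12 * x.E * x.K * Θ * x.δ) (hM₀ : p.M₀ = R₀ * Δ) (hR₀ : 1 < R₀)
    (hCc : 1 ≤ Cc) (hφm : 0 < φm)
    (hLm' : (4 * Cc + 8 * (1 + x.K ^ 2)) * (x.E ^ (1 + x.d) * x.K * x.nL * (Δ / x.δ) ^ x.d) * ((p.Λ * kbQ n₁) ^ v.j * p.gs) * (2 * p.r) ^ (v.j + 1) ≤ φm * Lm)
    (γ : P.W) (i : ℕ) (Sn : Finset (Fin (v.j + 1) → ℝ)) (w : K3e1Ba Y n₁ nrm p Sn) (e : K3e1Co Y n₁ γ i) (M : ℝ) (hM : p.M₀ ≤ M) :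
    k3e1Law P n₁ γ {z | ∃ a b, z ∈ k3e1Dc Y n₁ nrm p x S R G nr γ i Sn a b w ∧
        |k3e1Fn Y n₁ nrm p γ i Sn a w (k3e1Bp Y n₁ nrm p γ i Sn w z) - k3e1Fn Y n₁ nrm p γ i Sn e w (k3e1Bp Y n₁ nrm p γ i Sn w z)| ≤ Cc * M}
      ≤ ENNReal.ofReal φm * ENNReal.ofReal (Lm * (M / Δ) ^ x.d) := by
  by_cases hne : {z | ∃ a b, z ∈ k3e1Dc Y n₁ nrm p x S R G nr γ i Sn a b w ∧
        |k3e1Fn Y n₁ nrm p γ i Sn a w (k3e1Bp Y n₁ nrm p γ i Sn w z) - k3e1Fn Y n₁ nrm p γ i Sn e w (k3e1Bp Y n₁ nrm p γ i Sn w z)| ≤ Cc * M}.Nonempty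
  swap
  · rw [Set.not_nonempty_iff_eq_empty] at hne
    rw [hne, measure_empty]
    exact zero_le
  obtain ⟨z₀, a₀, b₀, hz₀, -⟩ := hne
  have ha₀ := (Finset.mem_filter.1 a₀.1.2).2
  have hOf₀ : k3e1Of Y n₁ nrm p a₀.1.1 = w.1.1 := hz₀.2.1
  obtain ⟨hE1, -, hq0, hq1, -⟩ := k3e1_st_num h
  obtain ⟨hgs0, -, -, -, -⟩ := k3e1_st_gs h
  have hK := h.hK
  have hδ := h.hδ
  have hnL := h.hin.nL_pos
  have hE0 : 0 < x.E := by linarith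
  have hK0 : 0 < x.K := by linarith
  have hr0 : 0 < p.r := lt_of_lt_of_le hρ hρr
  have hΘ1 : 1 ≤ Θ := by
    refine le_trans ?_ hΘ
    have h1 : (1 : ℝ) ≤ 68 * x.E ^ 2 * x.K := by
      have : (1 : ℝ) ≤ x.E ^ 2 := one_le_pow₀ hE1
      nlinarith
    have h2 : (1 : ℝ) ≤ (68 * x.E ^ 2 * x.K) ^ 3 := one_le_pow₀ h1
    linarith
  have hΘ0 : 0 < Θ := by linarith
  have hΔ0 : 0 < Δ := by rw [hΔ]; positivity
  have hδΔ : x.δ ≤ Δ := by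
    rw [hΔ]
    have h1 : (1 : ℝ) ≤ 12 * x.E * x.K * Θ := by
      have h2 : (1 : ℝ) ≤ x.E * x.K := by nlinarith
      have h3 : (1 : ℝ) ≤ x.E * x.K * Θ := by nlinarith
      linarith
    nlinarith
  have hΔM : Δ ≤ M := by
    refine le_trans ?_ hM
    rw [hM₀]
    nlinarith
  have hM0 : 0 < M := lt_of_lt_of_le hΔ0 hΔM
  have hΛ0 : 0 < p.Λ := by rw [h.Λ_def]; positivity
  have hJD : 0 < (p.Λ * kbQ n₁) ^ v.j * p.gs := by positivity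
  have key := k3e1_st_band h a₀.1.1 (k3e1Fn Y n₁ nrm p γ i Sn e w) (k3e1_mb_fn_meas Y n₁ nrm p γ i Sn e w) M (2 * Cc) (hδΔ.trans hΔM) (by linarith)
    (Metric.closedBall w.2.1 p.r) Metric.isClosed_closedBall.measurableSet
  rw [ha₀.1] at key
  refine (measure_mono ?_).trans (key.trans ?_)
  · rintro z ⟨a, b, hz, hcl⟩
    obtain ⟨hwa, hBp, -, -, hn⟩ := k3e1_mb_on h Θ A₀ hthr hΘ hbd hA₀ hρ hρr hr γ i Sn a b w z hz
    obtain ⟨-, hv⟩ := k3e1_mb_val h Θ A₀ Δ hthr hΘ hbd hA₀ hρ hρr hr hΔ γ i Sn a b w z hz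
    have hG := hz.1
    have hZ : k3e1Zs Y n₁ nrm p a₀.1.1 z = k3e1Bp Y n₁ nrm p γ i Sn w z := by
      show (k3e1Fr n₁ p (k3e1Of Y n₁ nrm p a₀.1.1)).zl n₁ (k3e1Bk Y n₁ a₀.1.1) (P.co (Y.wd a₀.1.1) z.1) z.2.1 = (k3e1Fr n₁ p w.1.1).zl n₁ i (P.co γ z.1) z.2.1
      rw [hOf₀, ha₀.1, ha₀.2]
    have hO : k3e1Om0 Y a₀.1.1 z = k3e1Om0 Y a.1.1 z := by
      unfold k3e1Om0
      rw [ha₀.1, hwa]
    refine ⟨⟨a.1.1, b.1.1, hz.2.1.trans hOf₀.symm, hG.1, hG.2.1, hG.2.2.1.1⟩, ?_, ?_⟩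
    · rw [hZ, Metric.mem_closedBall, dist_eq_norm, hBp, norm_sub_rev]
      exact hn
    · rw [hZ, hO]
      have e1 : k3e1Om0 Y a.1.1 z - k3e1Fn Y n₁ nrm p γ i Sn e w (k3e1Bp Y n₁ nrm p γ i Sn w z) =
          (k3e1Om0 Y a.1.1 z - k3e1Fn Y n₁ nrm p γ i Sn a w (k3e1Bp Y n₁ nrm p γ i Sn w z)) +
            (k3e1Fn Y n₁ nrm p γ i Sn a w (k3e1Bp Y n₁ nrm p γ i Sn w z) - k3e1Fn Y n₁ nrm p γ i Sn e w (k3e1Bp Y n₁ nrm p γ i Sn w z)) := by ring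
      rw [e1]
      refine (abs_add_le _ _).trans ?_
      have h5 : Δ / 2 ≤ Cc * M := by nlinarith
      linarith
  · have hvol : volume (Metric.closedBall (w.2.1 : Fin (v.j + 1) → ℝ) p.r) = ENNReal.ofReal ((2 * p.r) ^ (v.j + 1)) := by
      rw [Real.volume_pi_closedBall _ hr0.le, Fintype.card_fin]
    rw [hvol, ← ENNReal.ofReal_mul (by positivity), ← ENNReal.ofReal_mul hφm.le]
    apply ENNReal.ofReal_le_ofReal
    have hsplit : (M / x.δ) ^ x.d = (M / Δ) ^ x.d * (Δ / x.δ) ^ x.d := by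
      rw [← Real.mul_rpow (by positivity) (by positivity)]
      congr 1
      field_simp
    have hMd : 0 ≤ (M / Δ) ^ x.d := by positivity
    calc (2 * (2 * Cc) + 8 * (1 + x.K ^ 2)) * (x.E ^ (1 + x.d) * x.K * x.nL * (M / x.δ) ^ x.d) * ((p.Λ * kbQ n₁) ^ v.j * p.gs) * (2 * p.r) ^ (v.j + 1)
        = ((4 * Cc + 8 * (1 + x.K ^ 2)) * (x.E ^ (1 + x.d) * x.K * x.nL * (Δ / x.δ) ^ x.d) * ((p.Λ * kbQ n₁) ^ v.j * p.gs) * (2 * p.r) ^ (v.j + 1)) * (M / Δ) ^ x.d := by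
          rw [hsplit]; ring
      _ ≤ (φm * Lm) * (M / Δ) ^ x.d := mul_le_mul_of_nonneg_right hLm' hMd
      _ = φm * (Lm * (M / Δ) ^ x.d) := by ring

/-- **LEAF B4i** (~100 l.).  **Every good pair of the block lies in a cell**, and a failure of the match is a failure of closeness of the two sheets of the cell.
`c, c' ∈ Lb γ i` (`Adm` from `G0`);  signs `s = decide (0 ≤ dwR ..)` (`k3bSg t = k3e1Sb (decide (0 ≤ t))`: `by_cases`);  `u = k3bNet ρ (Zs c z) ∈ Sn` (`‖Zs‖ ≤ 1`: third clause of `k3e1_st_stb`);  `Of c ∈ Im` (`k3e1_of_mem`).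
`z ∉ Mt c c'`: `push_neg` gives `y` with `‖y - u‖ ≤ r`;  `k3e1_mb_on` identifies the sheets;  `Metric.mem_closedBall`, `dist_eq_norm`. -/
theorem k3e1_mb_cover (h : K3e1St P Y x S R G nr n₁ nrm p) (Θ A₀ : ℝ) (hthr : p.thr = 1 / (x.δ * Θ)) (hΘ : 16 * (68 * x.E ^ 2 * x.K) ^ 3 ≤ Θ)
    (hbd : ∀ c c', (k3e1G0 Y n₁ nrm p x S R G nr c c').Nonempty → (k3e1Eq Y n₁ p c (k3e1Of Y n₁ nrm p c)).dsc.Bd A₀ ∧ (k3e1Eq Y n₁ p c' (k3e1Of Y n₁ nrm p c)).dsc.Bd A₀)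
    (hA₀ : 2 * (x.K * x.E) ^ 2 ≤ A₀) (hρ : 0 < p.ρ) (hρr : p.ρ ≤ p.r) (hr : 64 * A₀ ^ 2 * p.r ≤ 1)
    (γ : P.W) (i : ℕ) (Sn : Finset (Fin (v.j + 1) → ℝ)) (hSn : ∀ y : Fin (v.j + 1) → ℝ, ‖y‖ ≤ 1 → k3bNet p.ρ y ∈ Sn) :
    {z | ∃ c c', Y.wd c = γ ∧ k3e1Bk Y n₁ c = i ∧ z ∈ k3e1G0 Y n₁ nrm p x S R G nr c c' ∧ z ∉ k3e1Mt Y n₁ nrm p c c'} ⊆
      {z | ∃ (a b : K3e1Co Y n₁ γ i) (w : K3e1Ba Y n₁ nrm p Sn), z ∈ k3e1Dc Y n₁ nrm p x S R G nr γ i Sn a b w ∧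
        ¬ k4eClose (Metric.closedBall w.2.1 p.r) (k3e1Fn Y n₁ nrm p γ i Sn a w) (k3e1Fn Y n₁ nrm p γ i Sn b w) p.M₀} := by
  rintro z ⟨c, c', hw, hb, hG, hM⟩
  have hadm : k3e1Adm Y n₁ c c' := hG.1
  have hc : c ∈ k3e1Lb Y n₁ γ i := Finset.mem_filter.2 ⟨Finset.mem_univ _, hw, hb⟩
  have hc' : c' ∈ k3e1Lb Y n₁ γ i := Finset.mem_filter.2 ⟨Finset.mem_univ _, hadm.1 ▸ hw, hadm.2 ▸ hb⟩
  have hsg : ∀ t : ℝ, k3bSg t = k3e1Sb (decide (0 ≤ t)) := by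
    intro t
    unfold k3bSg k3e1Sb
    by_cases ht : 0 ≤ t
    · simp [ht]
    · simp [ht]
  obtain ⟨-, -, hz1, -⟩ := k3e1_st_stb h Θ A₀ hthr hΘ hbd hA₀ hρ hρr hr c c' z hG
  have hD : z ∈ k3e1Dc Y n₁ nrm p x S R G nr γ i Sn
      (⟨c, hc⟩, decide (0 ≤ (k3e1Eq Y n₁ p c (k3e1Of Y n₁ nrm p c)).dwR (k3e1Zs Y n₁ nrm p c z) (k3e1Om0 Y c z)))
      (⟨c', hc'⟩, decide (0 ≤ (k3e1Eq Y n₁ p c' (k3e1Of Y n₁ nrm p c)).dwR (k3e1Zs Y n₁ nrm p c z) (k3e1Om0 Y c z)))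
      (⟨k3e1Of Y n₁ nrm p c, k3e1_of_mem Y n₁ nrm p c⟩, ⟨k3bNet p.ρ (k3e1Zs Y n₁ nrm p c z), hSn _ hz1⟩) :=
    ⟨hG, rfl, rfl, hsg _, hsg _⟩
  refine ⟨_, _, _, hD, fun hcl => hM fun y hy => ?_⟩
  obtain ⟨-, -, f1, f2, -⟩ := k3e1_mb_on h Θ A₀ hthr hΘ hbd hA₀ hρ hρr hr γ i Sn _ _ _ z hD
  have := hcl y (by rw [Metric.mem_closedBall, dist_eq_norm]; exact hy)
  rw [f1, f2] at this
  exact this


/-- **LEAF L-252-S3e1-B4** (l.1240-1316, ~600 l.; may be cut further IN PLACE).  **The local sheet match in one world and block.**   `L` = number of old labels of the block.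
PROOF.  `n = v.j + 1`, `μ = k3e1Law P n₁ γ` (finite).  `Sn` = the finite net of `k3e1_net_fin p.ρ`.   `E₁ = E₂ = {c // c ∈ k3e1Lb Y n₁ γ i} × Bool` (card `2 L`), `𝒰 = {φ // φ ∈ k3e1Im ..} × {u // u ∈ Sn}`, `sg b = if b then 1 else -1`.
`D (c,s) (c',s') (φ,u) = {z ∈ G0 c c' | Of c = φ ∧ k3bNet ρ (Zs c z) = u ∧ k3bSg (dwR of Eq c (Of c)) = sg s ∧ k3bSg (dwR of Eq c' (Of c)) = sg s'}`: measurable (B2, `k3e1_st_G0_meas`, `k3e1_net_meas`), pairwise disjoint (`k3e1_prc_disj`; the other components are functions of `z`).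
`bp (φ,u) z = (k3e1Fr n₁ p φ).zl n₁ i (P.co γ z.1) z.2.1` (`= Zs c z` on `D`), `u₀ (φ,u) = u`, `r = p.r`.   `f₁ (c,s) (φ,u) = if (Eq c φ).dsc.Stb u (4r) then (⟨Eq c φ, sg s⟩ : K3bSh n).f else 0`, `f₂` alike: in `k4eSh` by `k3e1_sh_mem` (`0` is a polynomial), measurable by `k3e1_sh_meas`.
On `D` both `if`s are true (`k3e1_st_stb`) and the sheets are `k3e1Sh c c z`, `k3e1Sh c c' z`.
`hm₁`, `hm₂`: `Measure.le_iff`, `Measure.map_apply`; on `D`: `bp ∈ closedBall u r`; `k3e1_st_dens1`, `k3e1_st_dens2` for `O ∩ closedBall u r` (`G0 ⊆ X1`; `8 (1 + K²) ≤ 8 (1 + 68 E³ K²)`).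
`ho₁`: `φ = Of c` is determined: `≤ card Sn`; `ho₂`: `φ ∈ k3e1Cp c'` (`k3e1_st_list`; `G0 ⊆ X2`): `≤ card (Cp c') · card Sn` (`k3e1_st_cp_card`, `hnO`).
`hval`: `k3e1_st_pt`: both sheets are within `Δ/2` of `Om0` at `Zs`.   `hgm`: on the event `|Om0 - f_ref (Zs)| ≤ Δ/2 + Cc M ≤ 2 Cc M`: `k3e1_st_band` with `Cb = 2 Cc`, `O = closedBall u r` (volume `(2r)^n`: `Real.volume_pi_closedBall`), `(M/δ)^d = (M/Δ)^d (Δ/δ)^d`, `hLm'`.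
Conclusion of `k3e1_match_fam`: `z ∈ G0 c c'`, `z ∉ Mt c c'` means that the two sheets are not `M₀`-close on `closedBall u r` (`dist y u = ‖y - u‖`). -/
theorem k3e1_st_match_blk (h : K3e1St P Y x S R G nr n₁ nrm p) {m : ℕ} {ε Cc Cr R₀ : ℝ} (hcode : K4eCode (v.j + 1) m Cc) (hrem : K4eRemez (v.j + 1) Cr)
    (hmatch : ∀ R', R₀ ≤ R' → K4eMatch (v.j + 1) x.d ε R') (Θ A₀ Δ θ Lm cap φm : ℝ) (nO kmax : ℕ)
    (hthr : p.thr = 1 / (x.δ * Θ)) (hΘ : 16 * (68 * x.E ^ 2 * x.K) ^ 3 ≤ Θ)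
    (hbd : ∀ c c', (k3e1G0 Y n₁ nrm p x S R G nr c c').Nonempty → (k3e1Eq Y n₁ p c (k3e1Of Y n₁ nrm p c)).dsc.Bd A₀ ∧ (k3e1Eq Y n₁ p c' (k3e1Of Y n₁ nrm p c)).dsc.Bd A₀)
    (hA₀ : 2 * (x.K * x.E) ^ 2 ≤ A₀) (hρ : 0 < p.ρ) (hρr : p.ρ ≤ p.r) (hr : 64 * A₀ ^ 2 * p.r ≤ 1)
    (hΔ : Δ = 12 * x.E * x.K * Θ * x.δ) (hM₀ : p.M₀ = R₀ * Δ) (hR₀ : 1 < R₀) (hε : 0 < ε) (hCc : 1 ≤ Cc) (hθ : 0 < θ) (hθ1 : θ ≤ 1) (hLm : 1 ≤ Lm) (hφm : 0 < φm)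
    (hcap : cap = 8 * (1 + 68 * x.E ^ 3 * x.K ^ 2) * (x.E * x.nL) * ((p.Λ * kbQ n₁) ^ v.j * p.gs))
    (hnO : 14 * (2 * (p.ρL : ℝ) + 1) ^ 3 * (2 / p.ρ + 3) ^ (v.j + 1) ≤ nO)
    (hLm' : (4 * Cc + 8 * (1 + x.K ^ 2)) * (x.E ^ (1 + x.d) * x.K * x.nL * (Δ / x.δ) ^ x.d) * ((p.Λ * kbQ n₁) ^ v.j * p.gs) * (2 * p.r) ^ (v.j + 1) ≤ φm * Lm)
    (hR₁ : Cc * ((⌈2 * Cc⌉₊ : ℝ) + 2) ≤ R₀ ^ ε) (hR₂ : 4 * cap * (2 * p.r) ^ (v.j + 1) ≤ R₀ ^ ε * φm) (hR₃ : 2 * Lm ≤ R₀ ^ ε) (hθ' : Cr * θ ^ (-Cr) * Δ ≤ 2 ^ kmax * p.M₀)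
    (γ : P.W) (i : ℕ) :
    k3e1Law P n₁ γ {z | ∃ c c', Y.wd c = γ ∧ k3e1Bk Y n₁ c = i ∧ z ∈ k3e1G0 Y n₁ nrm p x S R G nr c c' ∧ z ∉ k3e1Mt Y n₁ nrm p c c'}
      ≤ 2 * (((2 * (k3e1Lb Y n₁ γ i).card + 2 * (k3e1Lb Y n₁ γ i).card) * nO * kmax * (2 * ⌈2 * Cc⌉₊ + 3) ^ m : ℕ) : ℝ≥0∞) * ENNReal.ofReal φm
        + ((2 * (k3e1Lb Y n₁ γ i).card * nO * (2 * (k3e1Lb Y n₁ γ i).card) : ℕ) : ℝ≥0∞) * ENNReal.ofReal cap * ENNReal.ofReal (θ * (2 * p.r) ^ (v.j + 1)) := by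
  have hP := h.hin.pwf
  have := k3e1_law_fin hP n₁ γ
  obtain ⟨Sn, hSc, hSn⟩ := k3e1_net_fin (n := v.j + 1) p.ρ hρ
  have hr0 : 0 < p.r := lt_of_lt_of_le hρ hρr
  obtain ⟨hE1, -, -, -, -⟩ := k3e1_st_num h
  have hK := h.hK
  have hδ := h.hδ
  have hΘ0 : 0 < Θ := lt_of_lt_of_le (by positivity) hΘ
  have hΔ0 : 0 < Δ := by
    rw [hΔ]
    positivity
  have hR₂' : 4 * ENNReal.ofReal cap * ENNReal.ofReal ((2 * p.r) ^ (v.j + 1)) ≤ ENNReal.ofReal (R₀ ^ ε) * ENNReal.ofReal φm := by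
    have e4 : (4 : ℝ≥0∞) = ENNReal.ofReal 4 := by norm_num
    rw [e4, ← ENNReal.ofReal_mul (by norm_num), ← ENNReal.ofReal_mul' (by positivity), ← ENNReal.ofReal_mul' hφm.le]
    exact ENNReal.ofReal_le_ofReal hR₂
  have key := k3e1_match_fam hcode hrem hmatch (k3e1Law P n₁ γ) (k3e1Dc Y n₁ nrm p x S R G nr γ i Sn)
    (k3e1_mb_D_meas h γ i Sn) (k3e1_mb_D_disj h γ i Sn) (k3e1Bp Y n₁ nrm p γ i Sn) (k3e1_mb_bp_meas h γ i Sn) (fun w => w.2.1) p.r Δ p.M₀ θ Lm nO kmax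
    (k3e1Fn Y n₁ nrm p γ i Sn) (k3e1Fn Y n₁ nrm p γ i Sn) (k3e1_mb_fn_meas Y n₁ nrm p γ i Sn) (k3e1_mb_fn_meas Y n₁ nrm p γ i Sn) hr0 hΔ0 hM₀ hR₀ hε h.hd hCc hθ hθ1 hLm
    (k3e1_mb_fn_sh Y n₁ nrm p hr0 γ i Sn) (k3e1_mb_fn_sh Y n₁ nrm p hr0 γ i Sn) (ENNReal.ofReal cap) (ENNReal.ofReal φm) (by simpa using hφm) ENNReal.ofReal_ne_top
    (k3e1_mb_m1 h Θ A₀ cap hthr hΘ hbd hA₀ hρ hρr hr hcap γ i Sn) (k3e1_mb_m2 h Θ A₀ cap hthr hΘ hbd hA₀ hρ hρr hr hcap γ i Sn)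
    (k3e1_mb_o1 Y n₁ nrm p x S R G nr hρ nO hnO γ i Sn hSc) (k3e1_mb_o2 h hρ nO hnO γ i Sn hSc)
    (fun a b w z hz => (k3e1_mb_val h Θ A₀ Δ hthr hΘ hbd hA₀ hρ hρr hr hΔ γ i Sn a b w z hz).1)
    (fun w e M hM => k3e1_mb_gm h Θ A₀ Δ Cc R₀ Lm φm hthr hΘ hbd hA₀ hρ hρr hr hΔ hM₀ hR₀ hCc hφm hLm' γ i Sn w e M hM) hR₁ hR₂' hR₃ hθ'
  rw [k3e1_mb_card] at key
  exact (measure_mono (k3e1_mb_cover h Θ A₀ hthr hΘ hbd hA₀ hρ hρr hr γ i Sn hSn)).trans key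

/-! ## sum over the worlds and blocks      (LEAF L-252-S3e1-B5) -/

/-- **LEAF B5.**  A bound in every world and block is a bound of the pair mass.
PROOF.  `k3e1_pm_ent1`; group the labels by `(wd c, Bk c) ∈ univ ×ˢ range (2^n₁)` (`k3e1_bk_lt`); `∑_{c ∈ Lb γ i} Law (Ent1 X c) = Law (⋃ ..)` (disjoint, measurable: `k3e1_prc_disj`); `∑_γ ω ∑_{i < 2^n₁} q₁ = 1` (`k3e1_q_two`, `hP.om_sum`). -/
theorem k3e1_pm_blocks (Y : KbSys P) (hP : P.WF) (hY : Y.WF) {n₁ : ℕ} (h : n₁ ≤ Y.n) (X : Y.C → Y.C → Set (P.Lam × ℝ × ℝ)) (hX : ∀ c c', MeasurableSet (X c c')) (b : ℝ≥0∞)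
    (hb : ∀ γ i, k3e1Law P n₁ γ {z | ∃ c c', Y.wd c = γ ∧ k3e1Bk Y n₁ c = i ∧ k3e1Adm Y n₁ c c' ∧ z ∈ k3e1PrC Y c c' ∧ z ∈ X c c'} ≤ b) : k3e1PM Y n₁ X ≤ b := by
  have hmaps : ∀ c ∈ (Finset.univ : Finset Y.C), (Y.wd c, k3e1Bk Y n₁ c) ∈ (Finset.univ : Finset P.W) ×ˢ Finset.range (2 ^ n₁) := by
    intro c _
    exact Finset.mem_product.2 ⟨Finset.mem_univ _, Finset.mem_range.2 (k3e1_bk_lt Y hY h c)⟩
  have hEm : ∀ c, MeasurableSet (k3e1Ent1 Y n₁ X c) := by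
    intro c
    have e : k3e1Ent1 Y n₁ X c = ⋃ c' ∈ Finset.univ.filter (fun c' => k3e1Adm Y n₁ c c'), (k3e1PrC Y c c' ∩ X c c') := by
      ext z
      simp only [k3e1Ent1, Set.mem_ofPred_eq, Set.mem_iUnion, Finset.mem_filter, Finset.mem_univ, true_and, Set.mem_inter_iff, exists_prop]
    rw [e]
    exact Finset.measurableSet_biUnion _ fun c' _ => (k3e1_prc_meas Y hY c c').inter (hX c c')
  rw [k3e1_pm_ent1 Y hY n₁ X hX]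
  calc ∑ c, P.om (Y.wd c) * ENNReal.ofReal (kbQ n₁) * k3e1Law P n₁ (Y.wd c) (k3e1Ent1 Y n₁ X c)
      = ∑ q ∈ (Finset.univ : Finset P.W) ×ˢ Finset.range (2 ^ n₁), ∑ c ∈ Finset.univ.filter (fun c => (Y.wd c, k3e1Bk Y n₁ c) = q),
          P.om (Y.wd c) * ENNReal.ofReal (kbQ n₁) * k3e1Law P n₁ (Y.wd c) (k3e1Ent1 Y n₁ X c) := (Finset.sum_fiberwise_of_maps_to hmaps _).symm
    _ ≤ ∑ q ∈ (Finset.univ : Finset P.W) ×ˢ Finset.range (2 ^ n₁), P.om q.1 * ENNReal.ofReal (kbQ n₁) * b := by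
        refine Finset.sum_le_sum fun q _ => ?_
        have e1 : ∑ c ∈ Finset.univ.filter (fun c => (Y.wd c, k3e1Bk Y n₁ c) = q), P.om (Y.wd c) * ENNReal.ofReal (kbQ n₁) * k3e1Law P n₁ (Y.wd c) (k3e1Ent1 Y n₁ X c) =
            ∑ c ∈ Finset.univ.filter (fun c => (Y.wd c, k3e1Bk Y n₁ c) = q), P.om q.1 * ENNReal.ofReal (kbQ n₁) * k3e1Law P n₁ q.1 (k3e1Ent1 Y n₁ X c) := by
          refine Finset.sum_congr rfl fun c hc => ?_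
          have := (Finset.mem_filter.1 hc).2
          rw [← this]
        rw [e1, ← Finset.mul_sum]
        refine mul_le_mul_right ?_ _
        have hdisj : Set.PairwiseDisjoint (↑(Finset.univ.filter fun c => (Y.wd c, k3e1Bk Y n₁ c) = q) : Set Y.C) fun c => k3e1Ent1 Y n₁ X c := by
          intro c hc e he hne
          simp only [Finset.coe_filter, Finset.mem_univ, true_and, Set.mem_ofPred_eq] at hc he
          have hw : Y.wd c = Y.wd e := (congrArg Prod.fst hc).trans (congrArg Prod.fst he).symm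
          rw [Function.onFun, Set.disjoint_left]
          rintro z ⟨c', a1, z1, -⟩ ⟨e', a2, z2, -⟩
          exact Set.disjoint_left.1 (k3e1_prc_disj Y hY (c := c) (c' := c') (e := e) (e' := e') hw (a1.1.symm.trans (hw.trans a2.1))
            (fun hh => hne (Prod.ext_iff.1 hh).1)) z1 z2
        rw [← measure_biUnion_finset hdisj fun c _ => hEm c]
        refine (measure_mono ?_).trans (hb q.1 q.2)
        intro z hz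
        simp only [Set.mem_iUnion, Finset.mem_filter, Finset.mem_univ, true_and, exists_prop] at hz
        obtain ⟨c, hc, c', a1, z1, z2⟩ := hz
        exact ⟨c, c', congrArg Prod.fst hc, congrArg Prod.snd hc, a1, z1, z2⟩
    _ = b := by
        rw [Finset.sum_product]
        simp only [Finset.sum_const, Finset.card_range, nsmul_eq_mul]
        have e3 : ∀ γ : P.W, ((2 ^ n₁ : ℕ) : ℝ≥0∞) * (P.om γ * ENNReal.ofReal (kbQ n₁) * b) = P.om γ * b := by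
          intro γ
          have := k3e1_q_two n₁
          push_cast
          calc (2 : ℝ≥0∞) ^ n₁ * (P.om γ * ENNReal.ofReal (kbQ n₁) * b)
              = (ENNReal.ofReal (kbQ n₁) * 2 ^ n₁) * (P.om γ * b) := by ring
            _ = _ := by rw [this, one_mul]
        simp only [e3]
        rw [← Finset.sum_mul, hP.om_sum, one_mul]

/-- monotonicity relative to the pair sets of the admissible label pairs -/
theorem k3e1_pm_mono' (Y : KbSys P) (n₁ : ℕ) {X X' : Y.C → Y.C → Set (P.Lam × ℝ × ℝ)} (h : ∀ c c', k3e1Adm Y n₁ c c' → k3e1PrC Y c c' ∩ X c c' ⊆ X' c c') : k3e1PM Y n₁ X ≤ k3e1PM Y n₁ X' := by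
  unfold k3e1PM
  refine Finset.sum_le_sum fun c _ => Finset.sum_le_sum fun c' _ => ?_
  split_ifs with hadm
  · have hsub : k3e1PrC Y c c' ∩ X c c' ⊆ k3e1PrC Y c c' ∩ X' c c' := fun z hz => ⟨hz.1, h c c' hadm hz⟩
    exact mul_le_mul_right (measure_mono hsub) _
  · exact le_rfl

end

end Claimed.Agent.R252

end PkS3e1MatchStageContract
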